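import Claimed.Agent.R322.Pack057
import Claimed.Agent.R322.Pack055
import Claimed.Agent.R322.Pack047

/-!
# CO Section 4: starts; statement of the fitting input

Owner: helper109 (CO4 sub-captain).

* `exists_startData` : output of the packages BP-Fit-71/72/glue (AE Lemmas 7.1, 7.2, gluing half of Proposition 7.3): now `Fit.exists_startData` in `Fit/Main.lean`;
* CO Lemma 4.2 : `Freq/Weights.lean` (`frame`, `weights`);
* CO Lemma 4.3 : `Freq/Ineq.lean` (`freq_ineq`, `wcomp`, `freq_ok`).
-/

set_option autoImplicit false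

open scoped ENNReal ContDiff
open MeasureTheory Filter Topology

namespace Claimed.Agent.R322.Freq

open Claimed.Agent.R322.Tube

variable {m n : ℕ}

/-- explicit requirements on the base parameters -/
structure FitBase.Adm (m : ℕ) (B : FitBase) : Prop where
  /-- `k > 4 + m/2` -/
  k_gt : 8 + m < 2 * B.k
  C_ge : 1 ≤ B.C
  c_pos : 0 < B.c
  c_le : B.c ≤ 1
  c₀_pos : 0 < B.c₀
  c₀_le : B.c₀ ≤ 1 / 100
  c₁_pos : 0 < B.c₁
  c₁_le : B.c₁ ≤ 1 / 100
  ε₀_pos : 0 < B.ε₀
  ε₀_le : B.ε₀ ≤ 1 / 100
  ε₁_pos : 0 < B.ε₁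
  ε₁_le : B.ε₁ ≤ 1

/-- **A start**: fitting data of a good varifold (in start units, start plane horizontal) with singular origin. -/
structure Start (m n Q : ℕ) (π : Par) extends StartData m n Q π.fit where
  good : IsGood N.W Q π.eg
  sing : (0 : E (m + n)) ∈ N.W.sing

/-- the failure parameter `b` of a start -/
noncomputable def Start.b {Q : ℕ} {π : Par} (S : Start m n Q π) : ℝ := bpar S.ℓ

/-- frequency `P = A / H` as a function of the radius -/
noncomputable def fP (N : NCyl m n) (r : ℝ) : ℝ := qA N r / qH N r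

/-- `T = log (r² / H)` as a function of the radius -/
noncomputable def fT (N : NCyl m n) (r : ℝ) : ℝ := Real.log (r ^ 2 / qH N r)

/-- The conclusions of **CO Lemma 4.2** at one radius, with the constant `C₁` (the form used in CO Proposition 4.5). -/
def Wts (π : Par) (N : NCyl m n) (r : ℝ) : Prop := Wt π.k π.J π.C₁ π.C₁ N r

end Claimed.Agent.R322.Freq
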