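import Claimed.Agent.R322.Pack055
import Claimed.Agent.R322.Pack044
import Claimed.Agent.R322.Tube.Inputs
import Claimed.Agent.R322.Pack053

/-!
# CO Lemma 4.3: selection of the integer `Q` on all cells and the scalar estimate for `|M|`

Owner: helper109.  Leaves `L-Freq-bulk-*`.

Cell scale `lam1 = δ^{1/2} r / 1000`.  A pair `(x, s)` is admissible (`Adm`) if `lam1 ≤ s` and `ρ(x) + (9/2) s ≤ r` (then `ball x (4 s) ⊆ {ρ < r}`).
On every admissible pair `Tube.scalar_input` (with `c = 2`, `C₀ = Cmass m Q * 8^m`, `K = 1`) selects an integer; neighbouring pairs select the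
same integer (`sel_overlap`); the pairs are connected to `(0, r/5)` (`sel_chain`: move the centre to `0` along the ray, then double the scale); at
`(0, r/5)` the integer is `Q` by the mass test of CO Lemma 4.2 (`sel_top`).
DEVIATION from the paper: the test `χ_r` is not partitioned over the cells.
-/

set_option autoImplicit false

open scoped ENNReal ContDiff
open MeasureTheory

namespace Claimed.Agent.R322.Freq

open Claimed.Agent.R322.Tube

variable {m n : ℕ}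

/-- the cell scale `λ₁ = δ^{1/2} r / 1000` -/
noncomputable def lam1 (N : NCyl m n) (r : ℝ) : ℝ := Real.sqrt (qd N r) * r / 1000

/-- admissible centre and scale -/
def Adm (N : NCyl m n) (r : ℝ) (x : E m) (s : ℝ) : Prop := lam1 N r ≤ s ∧ rho N.u x + 9 / 2 * s ≤ r

/-- the count equals `q` on most of `ball x (3 s / 2)` -/
def Sel (N : NCyl m n) (x : E m) (s : ℝ) (q : ℕ) : Prop :=
  N.volS {y | y ∈ Metric.ball x (3 / 2 * s) ∧ N.cnt y ≠ q} ≤ ENNReal.ofReal (kap m * s ^ m / 4 ^ (m + 1))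

theorem bv_vdens_le (A : E m →L[ℝ] E n) (hA : ‖A‖ ≤ 1 / 2) : vdens A ≤ 2 ^ m := by
  have hin : ∀ v w : E m, inner ℝ (gmat A v) w = inner ℝ v w + inner ℝ (A v) (A w) := by
    intro v w
    unfold gmat
    simp only [add_apply, ContinuousLinearMap.id_apply,
      ContinuousLinearMap.comp_apply, inner_add_left, ContinuousLinearMap.adjoint_inner_left]
  have hb := dtm_bounds_of_symm ((4 / 5 : ℝ) • gmat A)
    (fun v w => by
      simp only [smul_apply, inner_smul_left, inner_smul_right, hin]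
      rw [real_inner_comm (gmat A w) v, hin, real_inner_comm v w, real_inner_comm (A v) (A w)]
      simp)
    (fun v => by
      simp only [smul_apply, inner_smul_left, hin]
      have h1 : 0 ≤ inner ℝ v v := real_inner_self_nonneg
      have h2 : 0 ≤ inner ℝ (A v) (A v) := real_inner_self_nonneg
      simp only [conj_trivial]
      positivity)
    (fun v => by
      simp only [smul_apply, inner_smul_left, hin, conj_trivial,
        real_inner_self_eq_norm_sq]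
      have h1 : ‖A v‖ ≤ 1 / 2 * ‖v‖ := (A.le_opNorm v).trans (by gcongr)
      have h2 : ‖A v‖ ^ 2 ≤ (1 / 2 * ‖v‖) ^ 2 := by gcongr
      nlinarith)
  have e : dtm ((4 / 5 : ℝ) • gmat A) = (4 / 5) ^ m * dtm (gmat A) := by
    unfold dtm
    rw [ContinuousLinearMap.toLinearMap_smul, LinearMap.det_smul, finrank_euclideanSpace_fin]
  have h3 : dtm (gmat A) ≤ (5 / 4) ^ m := by
    have h4 := hb.2.1
    rw [e] at h4
    have h5 : (5 / 4 : ℝ) ^ m * ((4 / 5) ^ m * dtm (gmat A)) ≤ (5 / 4 : ℝ) ^ m * 1 := by gcongr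
    rw [← mul_assoc, ← mul_pow] at h5
    norm_num at h5
    exact h5
  have h6 : vdens A ^ 2 ≤ (2 ^ m) ^ 2 := by
    rw [vdens_sq]
    refine h3.trans ?_
    rw [← pow_mul, mul_comm, pow_mul]
    gcongr
    norm_num
  exact (pow_le_pow_iff_left₀ (vdens_nonneg A) (by positivity) two_ne_zero).1 h6

/-- reference volume of balls (leaf `L-Freq-bulk-vol`).
PLAN.  `volS = vdens μH[m]` on `Ω`; `1 ≤ vdens A ≤ 2^m` for `‖A‖ ≤ 1/2` (`det (1 + AᵀA)`: eigenvalues in `[1, 5/4]`; or Hadamard-free: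
`vdens` bounds are in `Tube`/`Base.Area` if available); `hausdorff_ball` : `μH[m] (ball x s) = kap m s^m`. -/
theorem volS_ball {κ : ℝ} (N : NCyl m n) (hu : Geo κ N.u) (x : E m) (s : ℝ) (hs : 0 < s) (hx : Metric.ball x s ⊆ N.Ω) :
    ENNReal.ofReal (kap m * s ^ m) ≤ N.volS (Metric.ball x s) ∧
    N.volS (Metric.ball x s) ≤ ENNReal.ofReal (2 ^ m * kap m * s ^ m) := by
  have e : N.volS (Metric.ball x s)
      = ∫⁻ y in Metric.ball x s, ENNReal.ofReal (vdens (fderiv ℝ N.u y)) ∂μH[(m : ℝ)] := by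
    unfold NCyl.volS
    rw [withDensity_apply _ measurableSet_ball, Measure.restrict_restrict measurableSet_ball,
      Set.inter_eq_left.2 hx]
  rw [e]
  constructor
  · calc ENNReal.ofReal (kap m * s ^ m) = ∫⁻ _y in Metric.ball x s, 1 ∂μH[(m : ℝ)] := by
          rw [lintegral_const, Measure.restrict_apply_univ, one_mul, hausdorff_ball m x hs]
      _ ≤ _ := lintegral_mono fun y => by
          rw [← ENNReal.ofReal_one]
          exact ENNReal.ofReal_le_ofReal (Base.Exit.one_le_vdens _)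
  · calc ∫⁻ y in Metric.ball x s, ENNReal.ofReal (vdens (fderiv ℝ N.u y)) ∂μH[(m : ℝ)]
        ≤ ∫⁻ _y in Metric.ball x s, ENNReal.ofReal (2 ^ m) ∂μH[(m : ℝ)] :=
          lintegral_mono fun y => ENNReal.ofReal_le_ofReal (bv_vdens_le _ (hu.slope y))
      _ = ENNReal.ofReal (2 ^ m * kap m * s ^ m) := by
          rw [lintegral_const, Measure.restrict_apply_univ, hausdorff_ball m x hs,
            ← ENNReal.ofReal_mul (by positivity), mul_assoc]

/-- geometry of admissible pairs (leaf `L-Freq-bulk-adm`; `rho_facts`, `ker_facts`) -/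
theorem adm_facts {κ : ℝ} (N : NCyl m n) (hu : Geo κ N.u) {r : ℝ} (hr : 0 < r) {x : E m} {s : ℝ} (h : Adm N r x s) :
    Metric.ball x (4 * s) ⊆ Bs N.u r ∧ (∀ t : ℝ, 0 ≤ t → t ≤ 1 → Adm N r (t • x) s) ∧
    (∀ s' : ℝ, lam1 N r ≤ s' → s' ≤ s → Adm N r x s') ∧ s ≤ 2 / 9 * r := by
  obtain ⟨-, -, hlip, -, hray⟩ := rho_facts hu
  have hrho : ∀ y, 0 ≤ rho N.u y := fun y => norm_nonneg _
  have h2' := h.2
  refine ⟨fun y hy => ?_, fun t ht0 ht1 => ⟨h.1, ?_⟩, fun s' h1 h2 => ⟨h1, ?_⟩, ?_⟩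
  · have h1 : ‖y - x‖ < 4 * s := mem_ball_iff_norm.1 hy
    have h3 := (abs_le.1 (hlip y x)).2
    show rho N.u y < r
    linarith
  · have h1 := hray x t ht0 ht1
    have h2 : 0 ≤ 3 / 4 * (1 - t ^ 2) * ‖x‖ ^ 2 := by
      have : 0 ≤ 1 - t ^ 2 := by nlinarith
      positivity
    have h3 : rho N.u (t • x) ≤ rho N.u x :=
      (pow_le_pow_iff_left₀ (hrho _) (hrho _) two_ne_zero).1 (by linarith)
    linarith
  · linarith
  · have := hrho x
    linarith

/-- **neighbouring pairs select the same integer** (leaf `L-Freq-bulk-overlap`).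
PLAN.  `ball x' s'` is contained in both `ball x (3s/2)` and `ball x' (3s'/2)`.  If `q ≠ q'` it is covered by the two exceptional sets:
`kap s'^m ≤ volS (ball x' s') ≤ kap (s^m + s'^m)/4^{m+1} ≤ kap s'^m (2^m + 1)/4^{m+1}`, a contradiction (`volS_ball`, `measure_union_le`). -/
theorem sel_overlap {κ : ℝ} (N : NCyl m n) (hu : Geo κ N.u) {x x' : E m} {s s' : ℝ} {q q' : ℕ} (hs' : 0 < s')
    (h1 : s / 2 ≤ s') (h2 : s' ≤ s) (hx : ‖x - x'‖ ≤ s / 2) (hΩ : Metric.ball x' s' ⊆ N.Ω)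
    (hq : Sel N x s q) (hq' : Sel N x' s' q') : q = q' := by
  by_contra hne
  have hs : 0 < s := lt_of_lt_of_le hs' h2
  have hk := kap_pos m
  have hsub : Metric.ball x' s' ⊆ {y | y ∈ Metric.ball x (3 / 2 * s) ∧ N.cnt y ≠ q} ∪
      {y | y ∈ Metric.ball x' (3 / 2 * s') ∧ N.cnt y ≠ q'} := by
    intro y hy
    have hy' : ‖y - x'‖ < s' := mem_ball_iff_norm.1 hy
    have hy1 : y ∈ Metric.ball x (3 / 2 * s) := by
      rw [mem_ball_iff_norm]
      have h3 : ‖y - x‖ ≤ ‖y - x'‖ + ‖x' - x‖ := by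
        have : y - x = (y - x') + (x' - x) := by abel
        rw [this]
        exact norm_add_le _ _
      rw [norm_sub_rev x' x] at h3
      linarith
    have hy2 : y ∈ Metric.ball x' (3 / 2 * s') := by
      rw [mem_ball_iff_norm]
      linarith
    by_cases hc : N.cnt y = q
    · right
      refine ⟨hy2, ?_⟩
      rw [hc]
      exact fun h => hne (by exact_mod_cast h)
    · left
      exact ⟨hy1, hc⟩
  have h3 := (volS_ball N hu x' s' hs' hΩ).1
  have h4 : N.volS (Metric.ball x' s') ≤ ENNReal.ofReal (kap m * s ^ m / 4 ^ (m + 1)) +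
      ENNReal.ofReal (kap m * s' ^ m / 4 ^ (m + 1)) :=
    (measure_mono hsub).trans ((measure_union_le _ _).trans (add_le_add hq hq'))
  rw [← ENNReal.ofReal_add (by positivity) (by positivity)] at h4
  have h5 := h3.trans h4
  rw [ENNReal.ofReal_le_ofReal_iff (by positivity)] at h5
  have h6 : s ^ m ≤ 2 ^ m * s' ^ m := by
    rw [← mul_pow]
    exact pow_le_pow_left₀ hs.le (by linarith) m
  have h7 : (2 : ℝ) ^ m ≤ 4 ^ m := pow_le_pow_left₀ (by norm_num) (by norm_num) m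
  have h8 : (1 : ℝ) ≤ 4 ^ m := one_le_pow₀ (by norm_num)
  have hP : 0 < kap m * s' ^ m := by positivity
  have h9 : kap m * s ^ m / 4 ^ (m + 1) + kap m * s' ^ m / 4 ^ (m + 1)
      ≤ kap m * s' ^ m * ((2 ^ m + 1) / 4 ^ (m + 1)) := by
    have : kap m * s ^ m ≤ kap m * (2 ^ m * s' ^ m) := mul_le_mul_of_nonneg_left h6 hk.le
    rw [← add_div, mul_div_assoc', div_le_div_iff_of_pos_right (by positivity)]
    nlinarith
  have h10 : ((2 : ℝ) ^ m + 1) / 4 ^ (m + 1) < 1 := by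
    rw [div_lt_one (by positivity), pow_succ]
    linarith
  have h11 : kap m * s' ^ m * ((2 ^ m + 1) / 4 ^ (m + 1)) < kap m * s' ^ m * 1 :=
    mul_lt_mul_of_pos_left h10 hP
  linarith

/-- the height of a frame is `≤ |Ca| r` -/
theorem fr_qd_le {Q J k : ℕ} {κ Ca : ℝ} {N : NCyl m n} {r : ℝ} (hF : Fr Q J k κ Ca N r) :
    qd N r ≤ |Ca| * r := by
  have g1 := hF.wt.d_le
  have hrpos := hF.r_pos
  have g2 : r ^ (k - 1) ≤ r := by
    calc r ^ (k - 1) ≤ r ^ 1 :=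
          pow_le_pow_of_le_one hrpos.le hF.r_le (by have := hF.k_ge; omega)
      _ = r := pow_one r
  exact g1.trans ((mul_le_mul_of_nonneg_right (le_abs_self Ca) (by positivity)).trans
    (mul_le_mul_of_nonneg_left g2 (abs_nonneg _)))

/-- if `r ≤ θ / (|Ca| + 1)` then `δ ≤ θ` -/
theorem fr_qd_le_of_le {Q J k : ℕ} {κ Ca : ℝ} {N : NCyl m n} {r : ℝ} (hF : Fr Q J k κ Ca N r)
    {θ : ℝ} (hθ : 0 ≤ θ) (hr : r ≤ θ / (|Ca| + 1)) : qd N r ≤ θ := by
  refine (fr_qd_le hF).trans ?_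
  have h1 : 0 < |Ca| + 1 := by positivity
  calc |Ca| * r ≤ |Ca| * (θ / (|Ca| + 1)) := mul_le_mul_of_nonneg_left hr (abs_nonneg _)
    _ = θ * (|Ca| / (|Ca| + 1)) := by ring
    _ ≤ θ * 1 := mul_le_mul_of_nonneg_left ((div_le_one h1).2 (by linarith)) hθ
    _ = θ := mul_one θ

theorem lam1_facts {N : NCyl m n} {r : ℝ} (hr : 0 < r) (hd0 : 0 < qd N r) (hd1 : qd N r ≤ 1) :
    0 < lam1 N r ∧ lam1 N r ≤ r / 5 := by
  unfold lam1
  have h1 := Real.sqrt_pos.2 hd0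
  have h2 : Real.sqrt (qd N r) ≤ 1 := Real.sqrt_le_one.2 hd1
  refine ⟨by positivity, by nlinarith⟩

/-- the core of `sel_raw`: all hypotheses of `Tube.scalar_input` on an admissible pair -/
theorem sel_raw_core {κ : ℝ} (N : NCyl m n) (hu : Geo κ N.u) {r : ℝ} (hr : 0 < r) (hr4 : r ≤ 1 / 4)
    (hΩ : N.Ω = Metric.ball 0 4) (hd0 : 0 < qd N r) {Cm Cc C₀ εs : ℝ} {Jsc : ℕ} (hCc : 0 ≤ Cc)
    (hC₀ : 0 < C₀) (hd1 : qd N r ≤ 4 / 10 ^ 6)
    (hd2 : Cc * 2 ^ m * 10 ^ 6 * qd N r ≤ εs)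
    (hd3 : C₀ * (Cc * 2 ^ m * 10 ^ 6 * qd N r) ≤ kap m / 4 ^ (m + 1))
    (hmass : ∀ (x : E m) (s : ℝ), qd N r * r ≤ s → 0 < s → s ≤ 1 / 4 →
      Metric.ball x s ⊆ Bs N.u r → N.nu (Metric.ball x s) ≤ ENNReal.ofReal (Cm * 4 ^ m * s ^ m))
    (hcacc : ∀ (x : E m) (s : ℝ), qd N r * r ≤ s → 0 < s → s ≤ 1 / 8 →
      Metric.ball x (2 * s) ⊆ Bs N.u r →
      (N.Dm + N.Lm) (Metric.ball x s) ≤ ENNReal.ofReal (Cc * (qd N r * r / s) ^ 2 * s ^ m))
    (hin : ∀ (x : E m) (s ε : ℝ), 0 < s → s ≤ 1 / 2 → Metric.closedBall x (2 * s) ⊆ N.Ω →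
        N.nu (Metric.ball x (2 * s)) ≤ ENNReal.ofReal (Cm * 8 ^ m * s ^ m) →
        (N.Dm + N.Lm) (Metric.ball x (2 * s)) ≤ ENNReal.ofReal (ε * s ^ m) → 0 ≤ ε → ε ≤ εs →
        ∃ q : ℕ,
          N.volS {y | y ∈ Metric.ball x ((1 + 2) / 2 * s) ∧ N.cnt y ≠ q}
            ≤ ENNReal.ofReal (C₀ * ε * s ^ m) ∧
          (∀ (η : E m → ℝ) (A : ℝ), ContDiff ℝ ∞ η →
            tsupport η ⊆ Metric.ball x ((1 + 2) / 2 * s) →
            (∀ j : ℕ, j ≤ Jsc → ∀ y, s ^ j * ‖iteratedFDeriv ℝ j η y‖ ≤ A) →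
            |∫ y, η y ∂N.nu - q * ∫ y, η y ∂N.volS| ≤ C₀ * ε * s ^ m * A) ∧
          (q = N.Q →
            N.Mabs (Metric.ball x s) + N.volS {y | y ∈ Metric.ball x s ∧ N.cnt y ≠ N.Q}
              ≤ ENNReal.ofReal C₀ * (N.Dm + N.Lm) (Metric.ball x (2 * s))))
    {x : E m} {s : ℝ} (hA : Adm N r x s) :
    ∃ q : ℕ, Sel N x s q ∧
      (∀ (η : E m → ℝ) (A : ℝ), ContDiff ℝ ∞ η → tsupport η ⊆ Metric.ball x (3 / 2 * s) →
        (∀ j : ℕ, j ≤ Jsc → ∀ y, s ^ j * ‖iteratedFDeriv ℝ j η y‖ ≤ A) →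
        |∫ y, η y ∂N.nu - q * ∫ y, η y ∂N.volS|
          ≤ (1 + C₀ + C₀ * Cc * 2 ^ m) * (qd N r * r / s) ^ 2 * s ^ m * A) ∧
      (q = N.Q → N.Mabs (Metric.ball x s)
        ≤ ENNReal.ofReal (1 + C₀ + C₀ * Cc * 2 ^ m) * (N.Dm + N.Lm) (Metric.ball x (2 * s))) := by
  obtain ⟨hb4, -, -, hs29⟩ := adm_facts N hu hr hA
  obtain ⟨-, -, -, -, -, -, -, -, hBs, -, -⟩ := ker_facts hu hr
  obtain ⟨δ, hδ⟩ : ∃ δ, δ = qd N r := ⟨_, rfl⟩
  rw [← hδ] at hd0 hd1 hd2 hd3 hmass hcacc ⊢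
  obtain ⟨σ, hσ⟩ : ∃ σ, σ = Real.sqrt δ := ⟨_, rfl⟩
  have hσ0 : 0 < σ := by rw [hσ]; exact Real.sqrt_pos.2 hd0
  have hσ2 : σ * σ = δ := by rw [hσ]; exact Real.mul_self_sqrt hd0.le
  have hσ1 : σ ≤ 2 / 1000 := by
    rw [hσ, Real.sqrt_le_iff]
    exact ⟨by norm_num, hd1.trans (by norm_num)⟩
  have hl : σ * r / 1000 ≤ s := by
    have := hA.1
    unfold lam1 at this
    rwa [← hδ, ← hσ] at this
  have hs0 : 0 < s := lt_of_lt_of_le (by positivity) hl
  have hσr : σ * r ≤ 1000 * s := by linarith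
  have h1 : δ * r ≤ 2 * s := by
    calc δ * r = σ * (σ * r) := by rw [← hσ2]; ring
      _ ≤ 2 / 1000 * (1000 * s) := mul_le_mul hσ1 hσr (by positivity) (by norm_num)
      _ = 2 * s := by ring
  have hρ0 : 0 ≤ δ * r / s := by positivity
  have hρ1 : δ * r / s ≤ 1000 * σ := by
    rw [div_le_iff₀ hs0]
    calc δ * r = σ * (σ * r) := by rw [← hσ2]; ring
      _ ≤ σ * (1000 * s) := mul_le_mul_of_nonneg_left hσr hσ0.le
      _ = 1000 * σ * s := by ring
  have hρ2 : (δ * r / s) ^ 2 ≤ 10 ^ 6 * δ := by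
    calc (δ * r / s) ^ 2 ≤ (1000 * σ) ^ 2 := pow_le_pow_left₀ hρ0 hρ1 2
      _ = 10 ^ 6 * δ := by rw [← hσ2]; ring
  obtain ⟨ε, hε⟩ : ∃ ε, ε = Cc * 2 ^ m / 4 * (δ * r / s) ^ 2 := ⟨_, rfl⟩
  have hε0 : 0 ≤ ε := by rw [hε]; positivity
  have hε1 : ε ≤ Cc * 2 ^ m * 10 ^ 6 * δ := by
    rw [hε]
    have g1 : Cc * 2 ^ m / 4 * (δ * r / s) ^ 2 ≤ Cc * 2 ^ m / 4 * (10 ^ 6 * δ) :=
      mul_le_mul_of_nonneg_left hρ2 (by positivity)
    have g2 : 0 ≤ Cc * 2 ^ m * 10 ^ 6 * δ := by positivity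
    linarith
  have hsub2 : Metric.ball x (2 * s) ⊆ Bs N.u r :=
    (Metric.ball_subset_ball (by linarith)).trans hb4
  have hcl : Metric.closedBall x (2 * s) ⊆ N.Ω := by
    rw [hΩ]
    exact (Metric.closedBall_subset_ball (by linarith)).trans
      (hb4.trans (hBs.trans (Metric.ball_subset_ball (by linarith))))
  have hm1 : N.nu (Metric.ball x (2 * s)) ≤ ENNReal.ofReal (Cm * 8 ^ m * s ^ m) := by
    refine (hmass x (2 * s) h1 (by positivity) (by linarith) hsub2).trans (le_of_eq ?_)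
    congr 1
    rw [mul_pow, show (8 : ℝ) = 4 * 2 by norm_num, mul_pow]
    ring
  have hm2 : (N.Dm + N.Lm) (Metric.ball x (2 * s)) ≤ ENNReal.ofReal (ε * s ^ m) := by
    refine (hcacc x (2 * s) h1 (by positivity) (by linarith)
      (by rw [← mul_assoc]; norm_num; exact hb4)).trans (le_of_eq ?_)
    congr 1
    rw [hε, mul_pow 2 s m]
    field_simp
    ring
  obtain ⟨q, hq1, hq2, hq3⟩ := hin x s ε hs0 (by linarith) hcl hm1 hm2 hε0 (hε1.trans hd2)
  have h32 : ((1 : ℝ) + 2) / 2 = 3 / 2 := by norm_num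
  rw [h32] at hq1 hq2
  have hCC : 0 ≤ C₀ * Cc * 2 ^ m := by positivity
  refine ⟨q, ?_, ?_, ?_⟩
  · refine hq1.trans (ENNReal.ofReal_le_ofReal ?_)
    have g1 : C₀ * ε ≤ kap m / 4 ^ (m + 1) :=
      (mul_le_mul_of_nonneg_left hε1 hC₀.le).trans hd3
    calc C₀ * ε * s ^ m ≤ kap m / 4 ^ (m + 1) * s ^ m :=
          mul_le_mul_of_nonneg_right g1 (by positivity)
      _ = kap m * s ^ m / 4 ^ (m + 1) := by ring
  · intro η A hη hsupp hder
    have hA0 : 0 ≤ A := by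
      have := hder 0 (Nat.zero_le _) 0
      exact le_trans (by positivity) this
    refine (hq2 η A hη hsupp hder).trans ?_
    rw [hε]
    have g1 : 0 ≤ (δ * r / s) ^ 2 * s ^ m * A := by positivity
    have g2 : C₀ * (Cc * 2 ^ m / 4 * (δ * r / s) ^ 2) * s ^ m * A
        = (C₀ * Cc * 2 ^ m / 4) * ((δ * r / s) ^ 2 * s ^ m * A) := by ring
    have g3 : (1 + C₀ + C₀ * Cc * 2 ^ m) * (δ * r / s) ^ 2 * s ^ m * A
        = (1 + C₀ + C₀ * Cc * 2 ^ m) * ((δ * r / s) ^ 2 * s ^ m * A) := by ring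
    rw [g2, g3]
    exact mul_le_mul_of_nonneg_right (by linarith) g1
  · intro hqQ
    refine (le_self_add.trans (hq3 hqQ)).trans ?_
    exact mul_le_mul_left (ENNReal.ofReal_le_ofReal (by linarith)) _

/-- **the scalar estimate on admissible pairs** (leaf `L-Freq-bulk-raw`).
PLAN.  `Tube.scalar_input m n hm hn (Cmass m Q * 8^m) 2` gives `Jsc, J`; take `K = 1`; `κ₀ = min ε₀ h₀ (1/2)`, `J₁ = max J 4`.
Hypotheses at `(x, s)`: `local_mass` at the radius `2 s`; `local_cacc` at the radius `2 s` gives `ε = C (δ r / s)²`, and `δ r / s ≤ 1000 δ^{1/2}`, which is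
small because `δ ≤ Ca r⁴` (`Wt.d_le`, `k ≥ 5`, `r ≤ r₀`).  `C ε ≤ kap m / 4^{m+1}` gives `Sel`. -/
theorem sel_raw (m n Q : ℕ) (hm : 1 ≤ m) (hn : 1 ≤ n) : ∃ Jsc : ℕ, Unif m n Q (fun C N r => ∀ (x : E m) (s : ℝ), Adm N r x s →
    ∃ q : ℕ, Sel N x s q ∧
      (∀ (η : E m → ℝ) (A : ℝ), ContDiff ℝ ∞ η → tsupport η ⊆ Metric.ball x (3 / 2 * s) →
        (∀ j : ℕ, j ≤ Jsc → ∀ y, s ^ j * ‖iteratedFDeriv ℝ j η y‖ ≤ A) →
        |∫ y, η y ∂N.nu - q * ∫ y, η y ∂N.volS| ≤ C * (qd N r * r / s) ^ 2 * s ^ m * A) ∧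
      (q = N.Q → N.Mabs (Metric.ball x s) ≤ ENNReal.ofReal C * (N.Dm + N.Lm) (Metric.ball x (2 * s)))) := by
  obtain ⟨Jsc, Jin, hin⟩ := Tube.scalar_input m n hm hn (Cmass m Q * 8 ^ m) 2 (by norm_num)
  obtain ⟨ε₀, h₀, εs, C₀, hε₀, hh₀, hεs, hC₀, hin⟩ := hin 1 le_rfl
  obtain ⟨J₂, κ₂, hκ₂, hmass⟩ := local_mass m n Q
  obtain ⟨J₃, κ₃, hκ₃, hcacc⟩ := local_cacc m n Q
  refine ⟨Jsc, max (max Jin 4) (max J₂ J₃), min (min ε₀ h₀) (min (1 / 2) (min κ₂ κ₃)),
    lt_min (lt_min hε₀ hh₀) (lt_min (by norm_num) (lt_min hκ₂ hκ₃)), fun Ca => ?_⟩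
  obtain ⟨Cc, rc, hCc, hrc, hcacc⟩ := hcacc Ca
  have hCc0 : 0 < Cc := by linarith
  have hk := kap_pos m
  obtain ⟨M, hM⟩ : ∃ M, M = Cc * 2 ^ m * 10 ^ 6 := ⟨_, rfl⟩
  have hM0 : 0 < M := by rw [hM]; positivity
  obtain ⟨θ, hθ⟩ : ∃ θ, θ = min (4 / 10 ^ 6) (min (εs / M) (kap m / 4 ^ (m + 1) / (C₀ * M))) :=
    ⟨_, rfl⟩
  have hθ0 : 0 < θ := by
    rw [hθ]
    exact lt_min (by norm_num) (lt_min (by positivity) (by positivity))
  have hθ1 : θ ≤ 4 / 10 ^ 6 := by rw [hθ]; exact min_le_left _ _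
  have hθ2 : θ ≤ εs / M := by rw [hθ]; exact (min_le_right _ _).trans (min_le_left _ _)
  have hθ3 : θ ≤ kap m / 4 ^ (m + 1) / (C₀ * M) := by
    rw [hθ]; exact (min_le_right _ _).trans (min_le_right _ _)
  refine ⟨1 + C₀ + C₀ * Cc * 2 ^ m, min (min rc (1 / 4)) (θ / (|Ca| + 1)),
    by have : 0 ≤ C₀ * Cc * 2 ^ m := by positivity
       linarith,
    lt_min (lt_min hrc (by norm_num)) (by positivity), fun J k κ N r hJ hκ hr hF x s hA => ?_⟩
  have hJin : Jin ≤ J := (le_max_left _ _).trans ((le_max_left _ _).trans hJ)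
  have hJ4 : 4 ≤ J := (le_max_right _ _).trans ((le_max_left _ _).trans hJ)
  have hJ2 : J₂ ≤ J := (le_max_left _ _).trans ((le_max_right _ _).trans hJ)
  have hJ3 : J₃ ≤ J := (le_max_right _ _).trans ((le_max_right _ _).trans hJ)
  have hkε : κ ≤ ε₀ := hκ.trans ((min_le_left _ _).trans (min_le_left _ _))
  have hkh : κ ≤ h₀ := hκ.trans ((min_le_left _ _).trans (min_le_right _ _))
  have hk12 : κ ≤ 1 / 2 := hκ.trans ((min_le_right _ _).trans (min_le_left _ _))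
  have hk2 : κ ≤ κ₂ :=
    hκ.trans ((min_le_right _ _).trans ((min_le_right _ _).trans (min_le_left _ _)))
  have hk3 : κ ≤ κ₃ :=
    hκ.trans ((min_le_right _ _).trans ((min_le_right _ _).trans (min_le_right _ _)))
  have hrc' : r ≤ rc := hr.trans ((min_le_left _ _).trans (min_le_left _ _))
  have hr4 : r ≤ 1 / 4 := hr.trans ((min_le_left _ _).trans (min_le_right _ _))
  have hrθ : r ≤ θ / (|Ca| + 1) := hr.trans (min_le_right _ _)
  have hdθ : qd N r ≤ θ := fr_qd_le_of_le hF hθ0.le hrθ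
  have hd2 : Cc * 2 ^ m * 10 ^ 6 * qd N r ≤ εs := by
    rw [← hM]
    calc M * qd N r ≤ M * (εs / M) := mul_le_mul_of_nonneg_left (hdθ.trans hθ2) hM0.le
      _ = εs := by field_simp
  have hd3 : C₀ * (Cc * 2 ^ m * 10 ^ 6 * qd N r) ≤ kap m / 4 ^ (m + 1) := by
    rw [← hM]
    calc C₀ * (M * qd N r) = C₀ * M * qd N r := by ring
      _ ≤ C₀ * M * (kap m / 4 ^ (m + 1) / (C₀ * M)) :=
          mul_le_mul_of_nonneg_left (hdθ.trans hθ3) (by positivity)
      _ = kap m / 4 ^ (m + 1) := by field_simp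
  exact sel_raw_core N (hF.geo hJ4 hk12) hF.r_pos hr4 hF.Ω_eq hF.wt.d_pos hCc0.le hC₀
    (hdθ.trans hθ1) hd2 hd3 (hmass J k κ Ca N r hJ2 hk2 hF) (hcacc J k κ N r hJ3 hk3 hrc' hF)
    (hin N (refGraph_mono hF.ref hJin (hk12.trans (by norm_num)) hkε) (hF.h_le.trans hkh)) hA

/-- **the integer at the top scale is `Q`** (leaf `L-Freq-bulk-top`).
PLAN.  `sel_raw` at `(0, r/5)` gives `q₀`; `sel_overlap` (same pair twice): `q = q₀`.  Test with `χ` of `Wt.test` (`J₁ ≥ Jsc`):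
`tsupport χ ⊆ Bs (r/4) ⊆ ball 0 (3r/10)`, `A = Ca r^{-m}`: `|∫ χ dν - q₀| ≤ C δ² ≤ 1/8`; with `|∫ χ dν - Q| ≤ 1/8`: `|q₀ - Q| < 1`. -/
theorem sel_top (m n Q : ℕ) (hm : 1 ≤ m) (hn : 1 ≤ n) : Unif m n Q (fun _ N r => ∀ q : ℕ, Sel N 0 (r / 5) q → q = N.Q) := by
  obtain ⟨Jsc, J₁, κ₁, hκ₁, h₁⟩ := sel_raw m n Q hm hn
  refine ⟨max (max J₁ Jsc) 4, min κ₁ (1 / 2), lt_min hκ₁ (by norm_num), fun Ca => ?_⟩
  obtain ⟨C₁, r₁, hC₁, hr₁, h₁⟩ := h₁ Ca
  have hC0 : 0 < C₁ := by linarith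
  obtain ⟨θ, hθ⟩ : ∃ θ, θ = 1 / (200 * C₁ * (|Ca| + 1)) := ⟨_, rfl⟩
  have hden : 1 ≤ 200 * C₁ * (|Ca| + 1) := by
    have : 0 ≤ |Ca| := abs_nonneg _
    nlinarith
  have hθ0 : 0 < θ := by rw [hθ]; positivity
  have hθ1 : θ ≤ 1 := by
    rw [hθ, div_le_one (by linarith)]
    exact hden
  have hθ2 : 25 * C₁ * |Ca| * θ ^ 2 ≤ 1 / 8 := by
    have g1 : θ ^ 2 ≤ θ := by nlinarith
    have g2 : 25 * C₁ * |Ca| * θ ^ 2 ≤ 25 * C₁ * |Ca| * θ :=
      mul_le_mul_of_nonneg_left g1 (by positivity)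
    have g3 : 25 * C₁ * |Ca| * θ = 1 / 8 * (|Ca| / (|Ca| + 1)) := by
      rw [hθ]; field_simp; ring
    have g4 : |Ca| / (|Ca| + 1) ≤ 1 := (div_le_one (by positivity)).2 (by linarith)
    linarith
  refine ⟨1, min r₁ (θ / (|Ca| + 1)), le_rfl, lt_min hr₁ (by positivity),
    fun J k κ N r hJ hκ hr hF q hq => ?_⟩
  have hJ1 : J₁ ≤ J := (le_max_left _ _).trans ((le_max_left _ _).trans hJ)
  have hJsc : Jsc ≤ J := (le_max_right _ _).trans ((le_max_left _ _).trans hJ)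
  have hJ4 : 4 ≤ J := (le_max_right _ _).trans hJ
  have hk1 : κ ≤ κ₁ := hκ.trans (min_le_left _ _)
  have hk12 : κ ≤ 1 / 2 := hκ.trans (min_le_right _ _)
  have hr1 : r ≤ r₁ := hr.trans (min_le_left _ _)
  have hdθ : qd N r ≤ θ := fr_qd_le_of_le hF hθ0.le (hr.trans (min_le_right _ _))
  have hrpos := hF.r_pos
  have hu := hF.geo hJ4 hk12
  obtain ⟨hl0, hl1⟩ := lam1_facts hrpos hF.wt.d_pos (hdθ.trans hθ1)
  have hzero : rho N.u 0 = 0 := by simp [rho]
  have hA5 : Adm N r 0 (r / 5) := ⟨hl1, by rw [hzero]; linarith⟩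
  obtain ⟨q₀, hq₀, htest, -⟩ := h₁ J k κ N r hJ1 hk1 hr1 hF 0 (r / 5) hA5
  have hball : Metric.ball (0 : E m) (r / 5) ⊆ N.Ω := by
    rw [hF.Ω_eq]
    exact Metric.ball_subset_ball (by have := hF.r_le; linarith)
  have hqq : q = q₀ := sel_overlap N hu (by positivity) (by linarith) le_rfl
    (by rw [sub_self, norm_zero]; positivity) hball hq hq₀
  rw [hqq]
  obtain ⟨χ, hχs, -, hχsupp, hχ1, hχQ, hχd⟩ := hF.wt.test
  obtain ⟨-, -, -, -, -, -, -, -, hBs, -, -⟩ := ker_facts hu (show 0 < r / 4 by positivity)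
  have hrm : 0 < r ^ m := by positivity
  have h2 := htest χ (|Ca| / r ^ m) hχs
    (hχsupp.trans (hBs.trans (Metric.ball_subset_ball (by linarith))))
    (fun j hj y => by
      have g1 := hχd j (hj.trans hJsc) y
      have g2 : (r / 5) ^ j ≤ r ^ j := pow_le_pow_left₀ (by positivity) (by linarith) j
      rw [le_div_iff₀ hrm]
      calc (r / 5) ^ j * ‖iteratedFDeriv ℝ j χ y‖ * r ^ m
          ≤ r ^ j * ‖iteratedFDeriv ℝ j χ y‖ * r ^ m := by gcongr
        _ = r ^ m * r ^ j * ‖iteratedFDeriv ℝ j χ y‖ := by ring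
        _ ≤ Ca := g1
        _ ≤ |Ca| := le_abs_self Ca)
  rw [hχ1, mul_one] at h2
  have h3 : C₁ * (qd N r * r / (r / 5)) ^ 2 * (r / 5) ^ m * (|Ca| / r ^ m) ≤ 1 / 8 := by
    have g1 : qd N r * r / (r / 5) = 5 * qd N r := by field_simp
    have g2 : (r / 5) ^ m * (|Ca| / r ^ m) = |Ca| * (1 / 5) ^ m := by
      rw [div_pow, one_div, inv_pow]; field_simp
    have g3 : ((1 : ℝ) / 5) ^ m ≤ 1 := pow_le_one₀ (by norm_num) (by norm_num)
    have g4 : qd N r ^ 2 ≤ θ ^ 2 := pow_le_pow_left₀ hF.wt.d_pos.le hdθ 2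
    calc C₁ * (qd N r * r / (r / 5)) ^ 2 * (r / 5) ^ m * (|Ca| / r ^ m)
        = 25 * C₁ * |Ca| * qd N r ^ 2 * (1 / 5) ^ m := by
          rw [mul_assoc _ ((r / 5) ^ m), g2, g1]; ring
      _ ≤ 25 * C₁ * |Ca| * qd N r ^ 2 * 1 := mul_le_mul_of_nonneg_left g3 (by positivity)
      _ ≤ 25 * C₁ * |Ca| * θ ^ 2 * 1 := by gcongr
      _ ≤ 1 / 8 := by linarith
  have h4 : |(q₀ : ℝ) - (N.Q : ℝ)| < 1 := by
    have g1 : (q₀ : ℝ) - N.Q = (∫ y, χ y ∂N.nu - N.Q) - (∫ y, χ y ∂N.nu - q₀) := by ring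
    rw [g1]
    refine lt_of_le_of_lt (abs_sub _ _) ?_
    have := h2.trans h3
    linarith
  have h5 : |((q₀ : ℤ) - (N.Q : ℤ))| < 1 := by exact_mod_cast h4
  have h6 := Int.abs_lt_one_iff.1 h5
  omega

/-- the combinatorial core of `sel_chain` -/
theorem sel_chain_core {κ : ℝ} (N : NCyl m n) (hu : Geo κ N.u) {r : ℝ} (hr : 0 < r) (hr4 : r ≤ 4)
    (hΩ : N.Ω = Metric.ball 0 4) (hl0 : 0 < lam1 N r) (hl1 : lam1 N r ≤ r / 5)
    (hraw : ∀ (x : E m) (s : ℝ), Adm N r x s → ∃ q : ℕ, Sel N x s q)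
    (htop : ∀ q : ℕ, Sel N 0 (r / 5) q → q = N.Q) :
    ∀ (x : E m) (s : ℝ) (q : ℕ), Adm N r x s → Sel N x s q → q = N.Q := by
  have hpos : ∀ {x : E m} {s : ℝ}, Adm N r x s → 0 < s := fun h => lt_of_lt_of_le hl0 h.1
  have hball : ∀ {x : E m} {s : ℝ}, Adm N r x s → Metric.ball x s ⊆ N.Ω := by
    intro x s h
    have h1 := (adm_facts N hu hr h).1
    obtain ⟨-, -, -, -, -, -, -, -, h2, -, -⟩ := ker_facts hu hr
    rw [hΩ]
    exact (Metric.ball_subset_ball (by have := hpos h; linarith)).trans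
      (h1.trans (h2.trans (Metric.ball_subset_ball hr4)))
  have hzero : rho N.u 0 = 0 := by simp [rho]
  have hA5 : Adm N r 0 (r / 5) := ⟨hl1, by rw [hzero]; linarith⟩
  -- large scales
  have hbig : ∀ (s : ℝ) (q : ℕ), Adm N r 0 s → r / 5 ≤ s → Sel N 0 s q → q = N.Q := by
    intro s q hA hs hq
    obtain ⟨q', hq'⟩ := hraw 0 (r / 5) hA5
    have h1 := (adm_facts N hu hr hA).2.2.2
    have h2 : q = q' := sel_overlap N hu (by positivity) (by linarith) hs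
      (by rw [sub_self, norm_zero]; have := hpos hA; positivity) (hball hA5) hq hq'
    rw [h2]
    exact htop q' hq'
  -- doubling of the scale
  have hscale : ∀ (i : ℕ) (s : ℝ) (q : ℕ), Adm N r 0 s → r / 5 ≤ 2 ^ i * s → Sel N 0 s q →
      q = N.Q := by
    intro i
    induction i with
    | zero =>
      intro s q hA hs hq
      exact hbig s q hA (by simpa using hs) hq
    | succ i ih =>
      intro s q hA hs hq
      by_cases hc : r / 5 ≤ s
      · exact hbig s q hA hc hq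
      · push Not at hc
        have hs0 := hpos hA
        have hAS : Adm N r 0 (min (2 * s) (r / 5)) := by
          refine ⟨le_min (by have := hA.1; linarith) hl1, ?_⟩
          rw [hzero]
          have := min_le_right (2 * s) (r / 5)
          linarith
        obtain ⟨qS, hqS⟩ := hraw 0 _ hAS
        have h2 : qS = q := sel_overlap N hu hs0
          (by have := min_le_left (2 * s) (r / 5); linarith)
          (le_min (by linarith) hc.le)
          (by rw [sub_self, norm_zero]; have := hpos hAS; positivity) (hball hA) hqS hq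
        rw [← h2]
        refine ih _ qS hAS ?_ hqS
        rcases le_total (2 * s) (r / 5) with h | h
        · rw [min_eq_left h]
          calc r / 5 ≤ 2 ^ (i + 1) * s := hs
            _ = 2 ^ i * (2 * s) := by ring
        · rw [min_eq_right h]
          have : (1 : ℝ) ≤ 2 ^ i := one_le_pow₀ (by norm_num)
          nlinarith
  have hcentre0 : ∀ (s : ℝ) (q : ℕ), Adm N r 0 s → Sel N 0 s q → q = N.Q := by
    intro s q hA hq
    obtain ⟨i, hi⟩ := pow_unbounded_of_one_lt (r / 5 / s) (show (1 : ℝ) < 2 by norm_num)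
    refine hscale i s q hA ?_ hq
    have := (div_lt_iff₀ (hpos hA)).1 hi
    exact this.le
  -- moving the centre
  have hmove : ∀ (K : ℕ) (x : E m) (s : ℝ) (q : ℕ), Adm N r x s → ‖x‖ ≤ K * (s / 2) → Sel N x s q →
      q = N.Q := by
    intro K
    induction K with
    | zero =>
      intro x s q hA hx hq
      have : x = 0 := by
        rw [← norm_le_zero_iff]
        simpa using hx
      subst this
      exact hcentre0 s q hA hq
    | succ K ih =>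
      intro x s q hA hx hq
      have hs0 := hpos hA
      have hray := (adm_facts N hu hr hA).2.1
      by_cases hc : ‖x‖ ≤ s / 2
      · have hA0 : Adm N r 0 s := by simpa using hray 0 le_rfl zero_le_one
        obtain ⟨q0, hq0⟩ := hraw 0 s hA0
        have h2 : q = q0 := sel_overlap N hu hs0 (by linarith) le_rfl (by simpa using hc)
          (hball hA0) hq hq0
        rw [h2]
        exact hcentre0 s q0 hA0 hq0
      · push Not at hc
        have hxpos : 0 < ‖x‖ := by linarith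
        obtain ⟨t, ht⟩ : ∃ t : ℝ, t = 1 - s / 2 / ‖x‖ := ⟨_, rfl⟩
        have hdiv : s / 2 / ‖x‖ < 1 := (div_lt_one hxpos).2 hc
        have hdiv0 : 0 < s / 2 / ‖x‖ := by positivity
        have ht0 : 0 ≤ t := by rw [ht]; linarith
        have ht1 : t ≤ 1 := by rw [ht]; linarith
        have hA' : Adm N r (t • x) s := hray t ht0 ht1
        obtain ⟨q', hq'⟩ := hraw _ s hA'
        have hd : ‖x - t • x‖ = s / 2 := by
          have : x - t • x = (s / 2 / ‖x‖) • x := by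
            rw [ht, sub_smul, one_smul]
            abel
          rw [this, norm_smul, Real.norm_of_nonneg hdiv0.le]
          field_simp
        have hn : ‖t • x‖ ≤ K * (s / 2) := by
          rw [norm_smul, Real.norm_of_nonneg ht0, ht, sub_mul, one_mul]
          have : s / 2 / ‖x‖ * ‖x‖ = s / 2 := by field_simp
          rw [this]
          push_cast at hx
          linarith
        have h2 : q = q' := sel_overlap N hu hs0 (by linarith) le_rfl hd.le (hball hA') hq hq'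
        rw [h2]
        exact ih _ s q' hA' hn hq'
  intro x s q hA hq
  obtain ⟨K, hK⟩ := exists_nat_ge (‖x‖ / (s / 2))
  refine hmove K x s q hA ?_ hq
  have hs0 := hpos hA
  exact (div_le_iff₀ (by positivity)).1 hK

/-- **all admissible pairs select `Q`** (leaf `L-Freq-bulk-chain`).
PLAN.  Existence of integers: `sel_raw`.  (a) `(x, s) ~ (0, s)`: centres `(1 - i/K) x`, `i = 0..K`, `|x|/K ≤ s/2` (`adm_facts`, `sel_overlap`), induction on `i`.
(b) `(0, s) ~ (0, r/5)`: scales `min (2^i s) (r/5)` (if `s > r/5` compare directly, `s ≤ 2r/9`), induction on `i`.  (c) `sel_top`. -/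
theorem sel_chain (m n Q : ℕ) (hm : 1 ≤ m) (hn : 1 ≤ n) : Unif m n Q (fun _ N r =>
    ∀ (x : E m) (s : ℝ) (q : ℕ), Adm N r x s → Sel N x s q → q = N.Q) := by
  obtain ⟨Jsc, J₁, κ₁, hκ₁, h₁⟩ := sel_raw m n Q hm hn
  obtain ⟨J₂, κ₂, hκ₂, h₂⟩ := sel_top m n Q hm hn
  refine ⟨max (max J₁ J₂) 4, min (min κ₁ κ₂) (1 / 2), lt_min (lt_min hκ₁ hκ₂) (by norm_num),
    fun Ca => ?_⟩
  obtain ⟨C₁, r₁, hC₁, hr₁, h₁⟩ := h₁ Ca
  obtain ⟨C₂, r₂, -, hr₂, h₂⟩ := h₂ Ca
  refine ⟨1, min (min r₁ r₂) (1 / (|Ca| + 1)), le_rfl, lt_min (lt_min hr₁ hr₂) (by positivity),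
    fun J k κ N r hJ hκ hr hF => ?_⟩
  have hJ1 : J₁ ≤ J := (le_max_left _ _).trans ((le_max_left _ _).trans hJ)
  have hJ2 : J₂ ≤ J := (le_max_right _ _).trans ((le_max_left _ _).trans hJ)
  have hJ4 : 4 ≤ J := (le_max_right _ _).trans hJ
  have hk1 : κ ≤ κ₁ := hκ.trans ((min_le_left _ _).trans (min_le_left _ _))
  have hk2 : κ ≤ κ₂ := hκ.trans ((min_le_left _ _).trans (min_le_right _ _))
  have hk4 : κ ≤ 1 / 2 := hκ.trans (min_le_right _ _)
  have hr1 : r ≤ r₁ := hr.trans ((min_le_left _ _).trans (min_le_left _ _))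
  have hr2 : r ≤ r₂ := hr.trans ((min_le_left _ _).trans (min_le_right _ _))
  have hr3 : r ≤ 1 / (|Ca| + 1) := hr.trans (min_le_right _ _)
  have hrpos := hF.r_pos
  have hd1 : qd N r ≤ 1 := by
    have g1 := hF.wt.d_le
    have g2 : r ^ (k - 1) ≤ r := by
      calc r ^ (k - 1) ≤ r ^ 1 :=
            pow_le_pow_of_le_one hrpos.le hF.r_le (by have := hF.k_ge; omega)
        _ = r := pow_one r
    have g3 : Ca * r ^ (k - 1) ≤ |Ca| * r :=
      (mul_le_mul_of_nonneg_right (le_abs_self Ca) (by positivity)).trans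
        (mul_le_mul_of_nonneg_left g2 (abs_nonneg _))
    have g5 : |Ca| * r ≤ 1 := by
      calc |Ca| * r ≤ |Ca| * (1 / (|Ca| + 1)) := mul_le_mul_of_nonneg_left hr3 (abs_nonneg _)
        _ ≤ 1 := by
          rw [mul_one_div, div_le_one (by positivity)]
          linarith
    linarith
  have hl0 : 0 < lam1 N r := by
    unfold lam1
    have := Real.sqrt_pos.2 hF.wt.d_pos
    positivity
  have hl1 : lam1 N r ≤ r / 5 := by
    unfold lam1
    have : Real.sqrt (qd N r) ≤ 1 := Real.sqrt_le_one.2 hd1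
    nlinarith
  exact sel_chain_core N (hF.geo hJ4 hk4) hrpos (hF.r_le.trans (by norm_num)) hF.Ω_eq hl0 hl1
    (fun x s hA => by
      obtain ⟨q, hq, -⟩ := h₁ J k κ N r hJ1 hk1 hr1 hF x s hA
      exact ⟨q, hq⟩)
    (h₂ J k κ N r hJ2 hk2 hr2 hF)

/-- **Scalar control of `|M|` on admissible pairs.**  PROVED from `sel_raw` and `sel_chain`. -/
theorem mabs_le (m n Q : ℕ) (hm : 1 ≤ m) (hn : 1 ≤ n) : Unif m n Q (fun C N r => ∀ (x : E m) (s : ℝ), Adm N r x s →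
    N.Mabs (Metric.ball x s) ≤ ENNReal.ofReal C * (N.Dm + N.Lm) (Metric.ball x (2 * s))) := by
  obtain ⟨Jsc, J₁, κ₁, hκ₁, h₁⟩ := sel_raw m n Q hm hn
  obtain ⟨J₂, κ₂, hκ₂, h₂⟩ := sel_chain m n Q hm hn
  refine ⟨max J₁ J₂, min κ₁ κ₂, lt_min hκ₁ hκ₂, fun Ca => ?_⟩
  obtain ⟨C₁, r₁, hC₁, hr₁, h₁⟩ := h₁ Ca
  obtain ⟨C₂, r₂, -, hr₂, h₂⟩ := h₂ Ca
  refine ⟨C₁, min r₁ r₂, hC₁, lt_min hr₁ hr₂, fun J k κ N r hJ hκ hr hF x s hA => ?_⟩
  obtain ⟨q, hq, -, hq'⟩ := h₁ J k κ N r ((le_max_left _ _).trans hJ) (hκ.trans (min_le_left _ _))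
    (hr.trans (min_le_left _ _)) hF x s hA
  exact hq' (h₂ J k κ N r ((le_max_right _ _).trans hJ) (hκ.trans (min_le_right _ _))
    (hr.trans (min_le_right _ _)) hF x s q hA hq)

end Claimed.Agent.R322.Freq
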