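import Claimed.Agent.R322.Freq.Bulk

/-!
# CO Lemma 4.3: the absolute estimate (4.14) with multipliers and the signed estimate (4.15)

Owner: helper109.  Leaves `L-Freq-cell-*`.

Cells: the grid balls `ball (gpt m l k) l`, `l = lam1 N r`, which meet `{ρ < r}`, with the partition of unity of `Tool.grid_pou`.
* DEEP cell: it contains a point of depth `dep ≥ δ^{1/2}`.  Then `r - ρ ≥ 500 l` at that point, `(x_k, s)` is admissible for `l ≤ s ≤ 100 l`, and `dep`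
  (hence `φ`) is comparable on `ball x_k (20 l)`: ratio of `dep` `≤ 2`.
* SHALLOW cell: `dep < δ^{1/2}`, so `φ < δ⁵` on it; TRIVIAL bound by the total mass.  `r² δ⁵ ≤ Ca² r² H` (`Wt.H_lo`, `Wt.d_le`).
DEVIATION from the paper: no thin collar, no radial primitive (see `Freq/Quant.lean`, "WHY p = 10").
-/

set_option autoImplicit false

open scoped ENNReal ContDiff
open MeasureTheory

namespace Claimed.Agent.R322.Freq

open Claimed.Agent.R322.Tube Claimed.Agent.R322.Tool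

variable {m n : ℕ}

/-- `g = T^{-20}`, `T = log (r²/H)` -/
noncomputable def gT (N : NCyl m n) (r : ℝ) : ℝ := 1 / Real.log (r ^ 2 / qH N r) ^ 20

/-- a finite family of cells at scale `l` covering `ball 0 R` -/
structure CellFam (m : ℕ) (Cp : ℝ) (Nov : ℕ) (l R : ℝ) where
  ι : Finset (Fin m → ℤ)
  χ : (Fin m → ℤ) → E m → ℝ
  smooth : ∀ k, ContDiff ℝ ∞ (χ k)
  nonneg : ∀ k y, 0 ≤ χ k y
  le_one : ∀ k y, χ k y ≤ 1
  supp : ∀ k, tsupport (χ k) ⊆ Metric.ball (gpt m l k) l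
  lip : ∀ k y y', |χ k y - χ k y'| ≤ Cp / l * ‖y - y'‖
  sum_one : ∀ y ∈ Metric.ball (0 : E m) R, ∑ k ∈ ι, χ k y = 1
  sum_le : ∀ y, ∑ k ∈ ι, χ k y ≤ 1
  meet : ∀ k ∈ ι, (Metric.ball (gpt m l k) l ∩ Metric.ball 0 R).Nonempty
  overlap : ∀ (ρ : Measure (E m)) (A : Set (E m)), MeasurableSet A →
    ∑ k ∈ ι, ρ (Metric.ball (gpt m l k) (20 * l) ∩ A) ≤ (Nov : ℝ≥0∞) * ρ A

/-- existence of cell families (leaf `L-Freq-cell-fam`).
PLAN.  `Tool.grid_pou m 1 20`, `Tool.grid_overlap_sum m 20`; `ι` = the finite set of `k` with `ball x_k l ∩ ball 0 R ≠ ∅` (last item of `grid_pou`);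
`finsum` restricted to `ι` (terms outside vanish at points of `ball 0 R`); Lipschitz bound from the bound of the first derivative;
`Finset` sum `≤ tsum` in `ℝ≥0∞`. -/
theorem exists_cellFam (m : ℕ) : ∃ (Cp : ℝ) (Nov : ℕ), 1 ≤ Cp ∧ ∀ l R : ℝ, 0 < l → 0 < R → Nonempty (CellFam m Cp Nov l R) := by
  obtain ⟨C, _, hC, H⟩ := Tool.grid_pou m 1 20 (by norm_num)
  obtain ⟨N2, H2⟩ := Tool.grid_overlap_sum m 20 (by norm_num)
  refine ⟨C + 1, N2, by linarith, fun l R hl hR => ?_⟩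
  obtain ⟨χ, hsm, h01, hsupp, hfinsupp, hsum, hder, -, hfin⟩ := H l hl
  have hfinI : {k | (Metric.ball (gpt m l k) l ∩ Metric.ball (0 : E m) R).Nonempty}.Finite := by
    refine (hfin 0 R hR).subset ?_
    rintro k ⟨z, hz1, hz2⟩
    exact ⟨z, Metric.ball_subset_ball (by linarith) hz1, hz2⟩
  have hmemI : ∀ a, a ∈ hfinI.toFinset ↔
      (Metric.ball (gpt m l a) l ∩ Metric.ball (0 : E m) R).Nonempty := by
    intro a
    rw [Set.Finite.mem_toFinset]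
    rfl
  refine ⟨⟨hfinI.toFinset, χ, hsm, fun k y => (h01 k y).1, fun k y => (h01 k y).2, hsupp, ?_, ?_, ?_,
    fun k hk => (hmemI k).1 hk, ?_⟩⟩
  · intro a z z'
    have hb : ∀ y, ‖fderiv ℝ (χ a) y‖ ≤ (C + 1) / l := by
      intro y
      have h1 := hder a 1 le_rfl y
      rw [pow_one, norm_iteratedFDeriv_one] at h1
      rw [le_div_iff₀ hl]
      linarith
    have h2 := Convex.norm_image_sub_le_of_norm_fderiv_le (𝕜 := ℝ) (f := χ a) (s := Set.univ)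
      (C := (C + 1) / l) (x := z') (y := z)
      (fun y _ => ((hsm a).differentiable (by simp)).differentiableAt) (fun y _ => hb y)
      convex_univ (Set.mem_univ _) (Set.mem_univ _)
    rwa [Real.norm_eq_abs] at h2
  · intro z hz
    rw [← hsum z]
    refine (finsum_eq_sum_of_support_subset _ ?_).symm
    intro k hk
    rw [Finset.mem_coe, hmemI]
    exact ⟨z, hsupp k (subset_tsupport _ hk), hz⟩
  · intro z
    rw [← hsum z, finsum_eq_sum_of_support_subset (s := (hfinsupp z).toFinset ∪ hfinI.toFinset)]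
    · exact Finset.sum_le_sum_of_subset_of_nonneg Finset.subset_union_right
        fun k _ _ => (h01 k z).1
    · intro k hk
      rw [Finset.coe_union]
      left
      rw [Set.Finite.coe_toFinset]
      exact hk
  · intro ρ A hA
    exact (ENNReal.sum_le_tsum _).trans (H2 l hl ρ A hA)

/-- deep cells -/
def Deep (N : NCyl m n) (r : ℝ) (x : E m) : Prop :=
  ∃ y ∈ Metric.ball x (lam1 N r), Real.sqrt (qd N r) ≤ dep N.u r y

/-- geometry of deep cells (leaf `L-Freq-cell-deep`).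
PLAN.  `dep = (r - ρ)(r + ρ)/r² ≤ 2 (r - ρ)/r`, so `r - ρ(y) ≥ 500 l`; `rho_facts` (Lipschitz `9/8`); `ker_facts` (`dep` is `(9/4)/r`-Lipschitz):
on `ball x (20 l)`: `|dep - dep y| ≤ (9/4) 21 l / r ≤ δ^{1/2}/20`. -/
theorem deep_facts {κ : ℝ} (N : NCyl m n) (hu : Geo κ N.u) {r : ℝ} (hr : 0 < r) (hd : 0 < qd N r) {x : E m} (h : Deep N r x) :
    (∀ s : ℝ, lam1 N r ≤ s → s ≤ 100 * lam1 N r → Adm N r x s) ∧
    (∀ y ∈ Metric.ball x (20 * lam1 N r), ∀ y' ∈ Metric.ball x (20 * lam1 N r),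
      Real.sqrt (qd N r) / 2 ≤ dep N.u r y ∧ dep N.u r y ≤ 2 * dep N.u r y' ∧ phiR N.u r y ≤ 2 ^ 10 * phiR N.u r y') := by
  obtain ⟨y₀, hy₀, hdep⟩ := h
  obtain ⟨-, -, hρlip, -, -⟩ := rho_facts hu
  obtain ⟨hdep01, -, -, hdlip, -⟩ := ker_facts hu hr
  obtain ⟨σ, hσ⟩ : ∃ σ, σ = Real.sqrt (qd N r) := ⟨_, rfl⟩
  obtain ⟨l, hldef⟩ : ∃ l, l = lam1 N r := ⟨_, rfl⟩
  rw [← hσ] at hdep ⊢
  rw [← hldef] at hy₀ ⊢
  have hσpos : 0 < σ := by rw [hσ]; exact Real.sqrt_pos.2 hd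
  have hl : l = σ * r / 1000 := by rw [hldef, hσ]; rfl
  have hlpos : 0 < l := by rw [hl]; positivity
  have hy₀' : ‖y₀ - x‖ < l := by rwa [mem_ball_iff_norm] at hy₀
  have hρ0 : 0 ≤ rho N.u y₀ := norm_nonneg _
  have hr2 : 0 < r ^ 2 := by positivity
  have h1 : σ ≤ 1 - rho N.u y₀ ^ 2 / r ^ 2 := by
    have h0 : dep N.u r y₀ = max 0 (1 - rho N.u y₀ ^ 2 / r ^ 2) := rfl
    rw [h0] at hdep
    rcases le_max_iff.1 hdep with h | h
    · linarith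
    · exact h
  have hσ1 : σ ≤ 1 := by
    have : 0 ≤ rho N.u y₀ ^ 2 / r ^ 2 := by positivity
    linarith
  have h2 : rho N.u y₀ ^ 2 ≤ (1 - σ) * r ^ 2 := by
    have h0 : rho N.u y₀ ^ 2 / r ^ 2 ≤ 1 - σ := by linarith
    rwa [div_le_iff₀ hr2] at h0
  have h3 : rho N.u y₀ + 500 * l ≤ r := by
    by_contra hc
    rw [not_le] at hc
    have h4 : r - σ * r / 2 < rho N.u y₀ := by rw [hl] at hc; linarith
    have h5 : 0 ≤ r - σ * r / 2 := by nlinarith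
    have h6 : (r - σ * r / 2) ^ 2 < rho N.u y₀ ^ 2 := pow_lt_pow_left₀ h4 h5 (by norm_num)
    have h7 : (r - σ * r / 2) ^ 2 = (1 - σ) * r ^ 2 + σ ^ 2 * r ^ 2 / 4 := by ring
    have h8 : 0 ≤ σ ^ 2 * r ^ 2 / 4 := by positivity
    linarith
  have key : ∀ y ∈ Metric.ball x (20 * l), |dep N.u r y - dep N.u r y₀| ≤ σ / 20 := by
    intro y hy
    rw [mem_ball_iff_norm] at hy
    have h4 : ‖y - y₀‖ ≤ 21 * l := by
      have h5 : y - y₀ = (y - x) - (y₀ - x) := by abel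
      rw [h5]
      have := norm_sub_le (y - x) (y₀ - x)
      linarith
    have h6 : 9 / 4 * ‖y - y₀‖ / r ≤ 9 / 4 * (21 * l) / r := by gcongr
    have h7 : 9 / 4 * (21 * l) / r = 189 / 4000 * σ := by
      rw [hl]
      field_simp
      ring
    have := hdlip y y₀
    linarith
  constructor
  · intro s hs1 hs2
    refine ⟨hldef ▸ hs1, ?_⟩
    have h4 := hρlip x y₀
    rw [norm_sub_rev] at h4
    have h5 := (abs_le.1 h4).2
    linarith
  · intro y hy y' hy'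
    have h4 := abs_le.1 (key y hy)
    have h5 := abs_le.1 (key y' hy')
    have h6 : dep N.u r y ≤ 2 * dep N.u r y' := by linarith [h4.1, h4.2, h5.1, h5.2]
    refine ⟨by linarith [h4.1], h6, ?_⟩
    unfold phiR
    rw [← mul_pow]
    exact pow_le_pow_left₀ (hdep01 y).1 h6 10

/-- `∫⁻` against a pushed-forward density (aux of the cell estimates) -/
theorem FrOK.cells_lintegral_push {κ' : ℝ} {N' : NCyl m n} (h : FrOK κ' N') {w : E (m + n) → ℝ}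
    (hw : AEStronglyMeasurable w N'.μ) {g : E m → ℝ} (hg : Measurable g) (hg0 : ∀ y, 0 ≤ g y) :
    ∫⁻ y, ENNReal.ofReal (g y) ∂((N'.μ.withDensity fun X => ENNReal.ofReal (w X)).map (npr N'.u))
      = ∫⁻ X, ENNReal.ofReal (g (npr N'.u X) * w X) ∂N'.μ := by
  have h1 : AEMeasurable (fun X => ENNReal.ofReal (g (npr N'.u X)))
      (N'.μ.withDensity fun X => ENNReal.ofReal (w X)) :=
    hg.ennreal_ofReal.comp_aemeasurable (h.ok.aemeasurable_npr_wd _)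
  rw [lintegral_map' hg.ennreal_ofReal.aemeasurable (h.ok.aemeasurable_npr_wd _),
    lintegral_withDensity_eq_lintegral_mul₀' hw.aemeasurable.ennreal_ofReal h1]
  refine lintegral_congr fun X => ?_
  rw [Pi.mul_apply, ENNReal.ofReal_mul (hg0 _), mul_comm]

/-- qualitative facts on the base disc (aux of the cell estimates) -/
theorem cells_base (m n Q : ℕ) : Unif₀ m n Q (fun N r =>
    (∃ κ, Geo κ N.u) ∧ MeasurableSet (Bs N.u r) ∧ Bs N.u r ⊆ Metric.ball 0 r ∧ Bs N.u r ⊆ N.Ω ∧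
    N.nu (Bs N.u r) < ⊤ ∧ N.volS (Bs N.u r) < ⊤ ∧ Measurable (phiR N.u r) ∧
    ∫⁻ y, ENNReal.ofReal (phiR N.u r y) ∂N.Dm < ⊤ ∧
    ∫⁻ y, ENNReal.ofReal (phiR N.u r y) ∂N.Lm < ⊤) := by
  obtain ⟨J₁, κ₁, hκ₁, h₁⟩ := transfer_set m n Q
  obtain ⟨J₂, κ₂, hκ₂, h₂⟩ := ints m n Q
  obtain ⟨κ₃, hκ₃, h₃⟩ := exists_frOK m n
  refine ⟨max (max J₁ J₂) 4, min (min κ₁ κ₂) κ₃, lt_min (lt_min hκ₁ hκ₂) hκ₃,
    fun J k κ Ca N r hJ hκ hF => ?_⟩
  have hJ1 : J₁ ≤ J := (le_max_left _ _).trans ((le_max_left _ _).trans hJ)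
  have hJ2 : J₂ ≤ J := (le_max_right _ _).trans ((le_max_left _ _).trans hJ)
  have hJ4 : 4 ≤ J := (le_max_right _ _).trans hJ
  have hk1 : κ ≤ κ₁ := hκ.trans ((min_le_left _ _).trans (min_le_left _ _))
  have hk2 : κ ≤ κ₂ := hκ.trans ((min_le_left _ _).trans (min_le_right _ _))
  have hk3 : κ ≤ κ₃ := hκ.trans (min_le_right _ _)
  have hok := h₃ Q J k κ Ca N r hJ4 hk3 hF
  have hu : Geo κ N.u := hok.geo
  have I := h₂ J k κ Ca N r hJ2 hk2 hF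
  have hr := hF.r_pos
  obtain ⟨hdep, -, -, -, hφc, -, -, hopen, hsub, -, -⟩ := ker_facts hu hr
  have hmB : MeasurableSet (Bs N.u r) := hopen.measurableSet
  have hΩ : Metric.ball (0 : E m) r ⊆ N.Ω := by
    rw [hF.Ω_eq]
    exact Metric.ball_subset_ball (by linarith [hF.r_le])
  have hφm : Measurable (phiR N.u r) := hφc.continuous.measurable
  have hφ0 : ∀ y, 0 ≤ phiR N.u r y := fun y => pow_nonneg (hdep y).1 _
  refine ⟨⟨κ, hu⟩, hmB, hsub, hsub.trans hΩ, ?_, ?_, hφm, ?_, ?_⟩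
  · rw [(h₁ J k κ Ca N r hJ1 hk1 hF _ hmB).1]
    exact hF.wt.mass.trans_lt ENNReal.ofReal_lt_top
  · exact ((measure_mono hsub).trans (volS_ball N hu 0 r hr hΩ).2).trans_lt ENNReal.ofReal_lt_top
  · unfold NCyl.Dm
    rw [hok.cells_lintegral_push hok.ok.aesm_tilt hφm hφ0]
    exact I.iE.lintegral_lt_top
  · unfold NCyl.Lm
    rw [hok.cells_lintegral_push (hok.ok.aesm hok.continuousOn_lam) hφm hφ0]
    exact I.iL.lintegral_lt_top

/-- linearity of `intM` over a cell family (leaf `L-Freq-cell-lin`).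
PLAN.  `η = ∑_k χ_k η` on `Bs r ⊆ ball 0 r`, both sides vanish outside; `integral_finset_sum`; integrability with respect to `ν` (finite on `Bs r`: `Wt.mass`,
`transfer_set`) and `volS` (`volS_ball`). -/
theorem intM_cells (m n Q : ℕ) : Unif₀ m n Q (fun N r => ∀ (Cp : ℝ) (Nov : ℕ) (l : ℝ) (F : CellFam m Cp Nov l r) (η : E m → ℝ) (b : ℝ),
    Measurable η → (∀ y, |η y| ≤ b) → (∀ y ∉ Bs N.u r, η y = 0) →
    N.intM η = ∑ k ∈ F.ι, N.intM (fun y => F.χ k y * η y)) := by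
  obtain ⟨J₁, κ₁, hκ₁, h₁⟩ := transfer_set m n Q
  refine ⟨max J₁ 4, min κ₁ (1 / 2), lt_min hκ₁ (by norm_num), fun J k κ Ca N r hJ hκ hF Cp Nov l F η b
    hη hb hout => ?_⟩
  have hu : Geo κ N.u := hF.geo ((le_max_right _ _).trans hJ) (hκ.trans (min_le_right _ _))
  have hr := hF.r_pos
  obtain ⟨-, -, -, -, -, -, -, hopen, hsub, -, -⟩ := ker_facts hu hr
  have hmB : MeasurableSet (Bs N.u r) := hopen.measurableSet
  have hnu : N.nu (Bs N.u r) < ⊤ := by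
    rw [(h₁ J k κ Ca N r ((le_max_left _ _).trans hJ) (hκ.trans (min_le_left _ _)) hF _ hmB).1]
    exact hF.wt.mass.trans_lt ENNReal.ofReal_lt_top
  have hvol : N.volS (Bs N.u r) < ⊤ := by
    have hΩ : Metric.ball (0 : E m) r ⊆ N.Ω := by
      rw [hF.Ω_eq]
      exact Metric.ball_subset_ball (by linarith [hF.r_le])
    exact ((measure_mono hsub).trans (volS_ball N hu 0 r hr hΩ).2).trans_lt ENNReal.ofReal_lt_top
  have hmk : ∀ k, Measurable (fun y => F.χ k y * η y) := fun k =>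
    ((F.smooth k).continuous.measurable).mul hη
  have hint : ∀ (ρ : Measure (E m)), ρ (Bs N.u r) < ⊤ → ∀ k,
      Integrable (fun y => F.χ k y * η y) ρ := by
    intro ρ hρ k
    have h1 : IntegrableOn (fun y => F.χ k y * η y) (Bs N.u r) ρ := by
      refine Measure.integrableOn_of_bounded (M := b) hρ.ne (hmk k).aestronglyMeasurable ?_
      refine Filter.Eventually.of_forall fun y => ?_
      rw [Real.norm_eq_abs, abs_mul, abs_of_nonneg (F.nonneg k y)]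
      calc F.χ k y * |η y| ≤ 1 * b :=
            mul_le_mul (F.le_one k y) (hb y) (abs_nonneg _) zero_le_one
        _ = b := one_mul b
    refine h1.integrable_of_forall_notMem_eq_zero fun y hy => ?_
    rw [hout y hy, mul_zero]
  have hsum : ∀ y, η y = ∑ k ∈ F.ι, F.χ k y * η y := by
    intro y
    rw [← Finset.sum_mul]
    by_cases hy : y ∈ Bs N.u r
    · rw [F.sum_one y (hsub hy), one_mul]
    · rw [hout y hy, mul_zero]
  have hI : ∀ (ρ : Measure (E m)), ρ (Bs N.u r) < ⊤ →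
      ∫ y, η y ∂ρ = ∑ k ∈ F.ι, ∫ y, F.χ k y * η y ∂ρ := by
    intro ρ hρ
    rw [← integral_finsetSum _ fun k _ => hint ρ hρ k]
    exact integral_congr_ae (Filter.Eventually.of_forall hsum)
  unfold NCyl.intM
  rw [hI _ hnu, hI _ hvol, Finset.mul_sum, ← Finset.sum_sub_distrib]

/-- **a deep cell, absolute estimate** (leaf `L-Freq-cell-absdeep`).
PLAN.  `Tube.intM_le` on `A = ball x l` with `B = sup φ`; `mabs_le` at `(x, l)`; `deep_facts`: `sup_{ball x l} φ ≤ 2^10 φ` on `ball x (2 l)`;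
`ofReal`/`toReal` bookkeeping: `(D + Λ)(ball x (2l))` is finite (`local_cacc`). -/
theorem abs_deep (m n Q : ℕ) (hm : 1 ≤ m) (hn : 1 ≤ n) : Unif m n Q (fun C N r => ∀ (x : E m) (η : E m → ℝ), Deep N r x → Measurable η →
    (∀ y, |η y| ≤ phiR N.u r y) → (∀ y ∉ Metric.ball x (lam1 N r), η y = 0) →
    |N.intM η| ≤ C * ∫ y in Metric.ball x (20 * lam1 N r), phiR N.u r y ∂(N.Dm + N.Lm)) := by
  obtain ⟨J₁, κ₁, hκ₁, h₁⟩ := cells_base m n Q
  obtain ⟨J₂, κ₂, hκ₂, h₂⟩ := mabs_le m n Q hm hn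
  refine ⟨max J₁ J₂, min κ₁ κ₂, lt_min hκ₁ hκ₂, fun Ca => ?_⟩
  obtain ⟨C₂, r₂, hC₂, hr₂, h₂⟩ := h₂ Ca
  refine ⟨2 ^ 20 * C₂, r₂, by linarith, hr₂, fun J k κ N r hJ hκ hr₀ hF x η hdeep hη hηφ hout => ?_⟩
  obtain ⟨⟨κ', hu⟩, hmB, -, hΩ, hnu, hvol, hφm, hD, hL⟩ :=
    h₁ J k κ Ca N r ((le_max_left _ _).trans hJ) (hκ.trans (min_le_left _ _)) hF
  have hr := hF.r_pos
  have hd := hF.wt.d_pos
  obtain ⟨hdep01, -⟩ := ker_facts hu hr
  obtain ⟨hadm, hdf⟩ := deep_facts N hu hr hd hdeep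
  have hsq : 0 < Real.sqrt (qd N r) := Real.sqrt_pos.2 hd
  have hl0 : 0 < lam1 N r := by unfold lam1; positivity
  have hA1 : Adm N r x (lam1 N r) := hadm _ le_rfl (by linarith)
  have hball : Metric.ball x (lam1 N r) ⊆ Bs N.u r :=
    (Metric.ball_subset_ball (by linarith)).trans (adm_facts N hu hr hA1).1
  have hM := h₂ J k κ N r ((le_max_right _ _).trans hJ) (hκ.trans (min_le_right _ _)) hr₀ hF x _ hA1
  have hx20 : x ∈ Metric.ball x (20 * lam1 N r) := Metric.mem_ball_self (by positivity)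
  have hφ0 : ∀ y, 0 ≤ phiR N.u r y := fun y => pow_nonneg (hdep01 y).1 _
  obtain ⟨P, hP⟩ : ∃ P : ℝ, P = phiR N.u r x := ⟨_, rfl⟩
  have hP0 : 0 ≤ P := hP ▸ hφ0 x
  have hB : ∀ y, |η y| ≤ 2 ^ 10 * P := by
    intro y
    by_cases h1 : y ∈ Metric.ball x (lam1 N r)
    · exact (hηφ y).trans (hP ▸ (hdf y (Metric.ball_subset_ball (by linarith) h1) x hx20).2.2)
    · rw [hout y h1, abs_zero]
      positivity
  obtain ⟨hi, -⟩ := intM_le N η (Metric.ball x (lam1 N r)) (2 ^ 10 * P) hη measurableSet_ball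
    (hball.trans hΩ) hout hB ((measure_mono hball).trans_lt hnu) ((measure_mono hball).trans_lt hvol)
  obtain ⟨I, hI⟩ : ∃ I : ℝ≥0∞, I = ∫⁻ y in Metric.ball x (20 * lam1 N r),
      ENNReal.ofReal (phiR N.u r y) ∂(N.Dm + N.Lm) := ⟨_, rfl⟩
  have hIfin : I < ⊤ := by
    rw [hI]
    refine (setLIntegral_le_lintegral _ _).trans_lt ?_
    rw [lintegral_add_measure]
    exact ENNReal.add_lt_top.2 ⟨hD, hL⟩
  have h3 : ENNReal.ofReal P * (N.Dm + N.Lm) (Metric.ball x (2 * lam1 N r))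
      ≤ ENNReal.ofReal (2 ^ 10) * I := by
    calc ENNReal.ofReal P * (N.Dm + N.Lm) (Metric.ball x (2 * lam1 N r))
        = ∫⁻ _ in Metric.ball x (2 * lam1 N r), ENNReal.ofReal P ∂(N.Dm + N.Lm) := by
          rw [setLIntegral_const]
      _ ≤ ∫⁻ y in Metric.ball x (2 * lam1 N r),
            ENNReal.ofReal (2 ^ 10) * ENNReal.ofReal (phiR N.u r y) ∂(N.Dm + N.Lm) := by
          refine setLIntegral_mono' measurableSet_ball fun y hy => ?_
          rw [← ENNReal.ofReal_mul (by positivity)]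
          apply ENNReal.ofReal_le_ofReal
          exact hP ▸ (hdf x hx20 y (Metric.ball_subset_ball (by linarith) hy)).2.2
      _ = ENNReal.ofReal (2 ^ 10) * ∫⁻ y in Metric.ball x (2 * lam1 N r),
            ENNReal.ofReal (phiR N.u r y) ∂(N.Dm + N.Lm) :=
          lintegral_const_mul _ hφm.ennreal_ofReal
      _ ≤ ENNReal.ofReal (2 ^ 10) * I := by
          rw [hI]
          exact mul_le_mul_right (lintegral_mono_set (Metric.ball_subset_ball (by linarith))) _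
  have h4 : ENNReal.ofReal (2 ^ 10 * P) * N.Mabs (Metric.ball x (lam1 N r))
      ≤ ENNReal.ofReal (2 ^ 20 * C₂) * I := by
    calc ENNReal.ofReal (2 ^ 10 * P) * N.Mabs (Metric.ball x (lam1 N r))
        ≤ ENNReal.ofReal (2 ^ 10 * P) *
            (ENNReal.ofReal C₂ * (N.Dm + N.Lm) (Metric.ball x (2 * lam1 N r))) := by gcongr
      _ = ENNReal.ofReal (2 ^ 10) * ENNReal.ofReal C₂ *
            (ENNReal.ofReal P * (N.Dm + N.Lm) (Metric.ball x (2 * lam1 N r))) := by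
          rw [ENNReal.ofReal_mul (by positivity)]
          ring
      _ ≤ ENNReal.ofReal (2 ^ 10) * ENNReal.ofReal C₂ * (ENNReal.ofReal (2 ^ 10) * I) := by gcongr
      _ = ENNReal.ofReal (2 ^ 20 * C₂) * I := by
          rw [ENNReal.ofReal_mul (by positivity),
            show (2 : ℝ) ^ 20 = 2 ^ 10 * 2 ^ 10 by norm_num, ENNReal.ofReal_mul (by positivity)]
          ring
  have h5 : 2 ^ 10 * P * (N.Mabs (Metric.ball x (lam1 N r))).toReal ≤ 2 ^ 20 * C₂ * I.toReal := by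
    have h6 := ENNReal.toReal_mono (ENNReal.mul_ne_top ENNReal.ofReal_ne_top hIfin.ne) h4
    rwa [ENNReal.toReal_mul, ENNReal.toReal_mul, ENNReal.toReal_ofReal (by positivity),
      ENNReal.toReal_ofReal (by positivity)] at h6
  have h6 : ∫ y in Metric.ball x (20 * lam1 N r), phiR N.u r y ∂(N.Dm + N.Lm) = I.toReal := by
    rw [hI]
    exact integral_eq_lintegral_of_nonneg_ae (Filter.Eventually.of_forall hφ0)
      hφm.aestronglyMeasurable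
  rw [h6]
  exact hi.trans h5

/-- **a shallow cell** (leaf `L-Freq-cell-shallow`).
PLAN.  `|η| ≤ φ = dep^10 < δ⁵` on the cell; `|intM η| ≤ ∫ |η| dν + Q ∫ |η| dvolS`. -/
theorem abs_shallow (m n Q : ℕ) : Unif₀ m n Q (fun N r => ∀ (x : E m) (η : E m → ℝ), ¬ Deep N r x → Measurable η →
    (∀ y, |η y| ≤ phiR N.u r y) → (∀ y ∉ Metric.ball x (lam1 N r), η y = 0) →
    |N.intM η| ≤ qd N r ^ 5 * ((N.nu + (Q : ℝ≥0∞) • N.volS) (Metric.ball x (20 * lam1 N r) ∩ Bs N.u r)).toReal) := by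
  obtain ⟨J₁, κ₁, hκ₁, h₁⟩ := cells_base m n Q
  refine ⟨J₁, κ₁, hκ₁, fun J k κ Ca N r hJ hκ hF x η hnd hη hηφ hout => ?_⟩
  obtain ⟨⟨κ', hu⟩, hmB, -, -, hnu, hvol, -, -, -⟩ := h₁ J k κ Ca N r hJ hκ hF
  have hr := hF.r_pos
  have hd := hF.wt.d_pos
  obtain ⟨hdep01, hdepout, -⟩ := ker_facts hu hr
  have hsq : 0 < Real.sqrt (qd N r) := Real.sqrt_pos.2 hd
  have hl0 : 0 < lam1 N r := by unfold lam1; positivity
  obtain ⟨A, hA⟩ : ∃ A : Set (E m), A = Metric.ball x (20 * lam1 N r) ∩ Bs N.u r := ⟨_, rfl⟩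
  have hmA : MeasurableSet A := hA ▸ measurableSet_ball.inter hmB
  have hAB : A ⊆ Bs N.u r := hA ▸ Set.inter_subset_right
  have hzero : ∀ y ∉ A, η y = 0 := by
    intro y hy
    by_cases h1 : y ∈ Metric.ball x (lam1 N r)
    · have h2 : y ∉ Bs N.u r := fun h2 =>
        hy (hA ▸ ⟨Metric.ball_subset_ball (by linarith) h1, h2⟩)
      have h3 := hηφ y
      unfold phiR at h3
      rw [hdepout y h2] at h3
      have h4 : |η y| ≤ 0 := by simpa using h3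
      exact abs_eq_zero.1 (le_antisymm h4 (abs_nonneg _))
    · exact hout y h1
  have hbd : ∀ y, ‖η y‖ ≤ qd N r ^ 5 := by
    intro y
    by_cases h1 : y ∈ Metric.ball x (lam1 N r)
    · have h2 : dep N.u r y ≤ Real.sqrt (qd N r) := by
        by_contra hc
        exact hnd ⟨y, h1, (not_le.1 hc).le⟩
      have h3 : phiR N.u r y ≤ Real.sqrt (qd N r) ^ 10 := pow_le_pow_left₀ (hdep01 y).1 h2 10
      have h4 : Real.sqrt (qd N r) ^ 10 = qd N r ^ 5 := by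
        calc Real.sqrt (qd N r) ^ 10 = (Real.sqrt (qd N r) ^ 2) ^ 5 := by ring
          _ = qd N r ^ 5 := by rw [Real.sq_sqrt hd.le]
      rw [Real.norm_eq_abs]
      exact (hηφ y).trans (h4 ▸ h3)
    · rw [hout y h1, norm_zero]
      positivity
  have hI : ∀ ρ : Measure (E m), ρ A < ⊤ → |∫ y, η y ∂ρ| ≤ qd N r ^ 5 * (ρ A).toReal := by
    intro ρ hρ
    rw [← setIntegral_eq_integral_of_forall_compl_eq_zero (s := A) hzero, ← Real.norm_eq_abs]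
    exact norm_setIntegral_le_of_norm_le_const hρ (fun y _ => hbd y)
  have hnuA : N.nu A < ⊤ := (measure_mono hAB).trans_lt hnu
  have hvolA : N.volS A < ⊤ := (measure_mono hAB).trans_lt hvol
  have e : ((N.nu + (Q : ℝ≥0∞) • N.volS) A).toReal = (N.nu A).toReal + Q * (N.volS A).toReal := by
    rw [Measure.add_apply, Measure.smul_apply, smul_eq_mul,
      ENNReal.toReal_add hnuA.ne (ENNReal.mul_ne_top (ENNReal.natCast_ne_top _) hvolA.ne),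
      ENNReal.toReal_mul, ENNReal.toReal_natCast]
  rw [← hA, e]
  unfold NCyl.intM
  rw [hF.Q_eq]
  have h1 := hI _ hnuA
  have h2 := hI _ hvolA
  have hQ0 : (0 : ℝ) ≤ Q := Nat.cast_nonneg _
  calc |∫ y, η y ∂N.nu - Q * ∫ y, η y ∂N.volS|
      ≤ |∫ y, η y ∂N.nu| + |(Q : ℝ) * ∫ y, η y ∂N.volS| := abs_sub _ _
    _ = |∫ y, η y ∂N.nu| + Q * |∫ y, η y ∂N.volS| := by rw [abs_mul, abs_of_nonneg hQ0]
    _ ≤ qd N r ^ 5 * (N.nu A).toReal + Q * (qd N r ^ 5 * (N.volS A).toReal) :=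
        add_le_add h1 (mul_le_mul_of_nonneg_left h2 hQ0)
    _ = qd N r ^ 5 * ((N.nu A).toReal + Q * (N.volS A).toReal) := by ring

/-- `(5 Λ)^20 ≤ e^Λ` for large `Λ` (aux of `cell_num`) -/
theorem cell_num_exp (Λ : ℝ) (hΛ : 1080 ≤ Λ) : (5 * Λ) ^ 20 ≤ Real.exp Λ := by
  obtain ⟨x, hx⟩ : ∃ x, x = Λ / 60 := ⟨_, rfl⟩
  have hx18 : 18 ≤ x := by rw [hx]; linarith
  have hΛx : Λ = 60 * x := by rw [hx]; ring
  have h0 : 324 ≤ x ^ 2 := by nlinarith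
  have h1 : 300 * x ≤ (1 + x) ^ 3 := by nlinarith
  have h2 : 1 + x ≤ Real.exp x := by linarith [Real.add_one_le_exp x]
  have h3 : Real.exp Λ = (Real.exp x) ^ 60 := by
    rw [← Real.exp_nat_mul, hΛx]
    norm_num
  calc (5 * Λ) ^ 20 = (300 * x) ^ 20 := by rw [hΛx]; ring
    _ ≤ ((1 + x) ^ 3) ^ 20 := pow_le_pow_left₀ (by positivity) h1 20
    _ = (1 + x) ^ 60 := by ring
    _ ≤ (Real.exp x) ^ 60 := pow_le_pow_left₀ (by positivity) h2 60
    _ = Real.exp Λ := h3.symm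

/-- real arithmetic of `cell_num` -/
theorem cell_num_real (c δ r H : ℝ) (hc : 1 ≤ c) (hδ : 0 < δ) (hr : 0 < r) (hr1 : r ≤ 1)
    (hδ1 : δ ≤ Real.exp (-1080)) (hδ2 : c * δ ≤ 1) (hδr : δ ≤ c * r ^ 4)
    (hlo : c⁻¹ * δ ^ 4 ≤ H / r ^ 2) (hhi : H / r ^ 2 ≤ c * δ ^ 2) :
    r ^ 2 * δ ^ 5 ≤ c ^ 2 * r ^ 2 * H ∧ r ^ 2 * δ ^ 12 ≤ H ∧ 1 ≤ Real.log (r ^ 2 / H) ∧
    Real.log (r ^ 2 / H) ≤ 5 * Real.log δ⁻¹ ∧ Real.log δ⁻¹ ≤ Real.log (r ^ 2 / H) ∧
    0 < 1 / Real.log (r ^ 2 / H) ^ 20 ∧ 1 / Real.log (r ^ 2 / H) ^ 20 ≤ 1 ∧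
    δ ≤ 1 / Real.log (r ^ 2 / H) ^ 20 := by
  have hc0 : 0 < c := by linarith
  have hr2 : 0 < r ^ 2 := by positivity
  have hlo1 : c⁻¹ * δ ^ 4 * r ^ 2 ≤ H := (le_div_iff₀ hr2).1 hlo
  have hH : 0 < H := lt_of_lt_of_le (by positivity) hlo1
  have hlo' : δ ^ 4 * r ^ 2 ≤ c * H := by
    have h1 : δ ^ 4 * r ^ 2 = c * (c⁻¹ * δ ^ 4 * r ^ 2) := by field_simp
    rw [h1]
    exact mul_le_mul_of_nonneg_left hlo1 hc0.le
  have hhi' : H ≤ c * δ ^ 2 * r ^ 2 := (div_le_iff₀ hr2).1 hhi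
  have hδle1 : δ ≤ 1 := hδ1.trans (Real.exp_le_one_iff.2 (by norm_num))
  have hcH : 0 ≤ c * H := by positivity
  -- `δ c H ≤ H`
  have hδcH : δ * (c * H) ≤ H := by
    have : δ * (c * H) = (c * δ) * H := by ring
    rw [this]
    exact mul_le_of_le_one_left hH.le hδ2
  have h5 : δ ^ 5 * r ^ 2 ≤ H := by
    have : δ ^ 5 * r ^ 2 = δ * (δ ^ 4 * r ^ 2) := by ring
    rw [this]
    exact (mul_le_mul_of_nonneg_left hlo' hδ.le).trans hδcH
  have hA : r ^ 2 * δ ^ 5 ≤ c ^ 2 * r ^ 2 * H := by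
    have e1 : r ^ 2 * δ ^ 5 = δ * (δ ^ 4 * r ^ 2) := by ring
    have e2 : δ * (δ ^ 4 * r ^ 2) ≤ δ * (c * H) := mul_le_mul_of_nonneg_left hlo' hδ.le
    have e3 : δ * (c * H) ≤ (c * r ^ 4) * (c * H) := mul_le_mul_of_nonneg_right hδr hcH
    have e4 : r ^ 4 ≤ r ^ 2 := pow_le_pow_of_le_one hr.le hr1 (by norm_num)
    have e5 : (c * r ^ 4) * (c * H) ≤ (c * r ^ 2) * (c * H) :=
      mul_le_mul_of_nonneg_right (mul_le_mul_of_nonneg_left e4 hc0.le) hcH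
    have e6 : (c * r ^ 2) * (c * H) = c ^ 2 * r ^ 2 * H := by ring
    linarith
  have hB : r ^ 2 * δ ^ 12 ≤ H := by
    have e1 : r ^ 2 * δ ^ 12 = δ ^ 7 * (δ ^ 5 * r ^ 2) := by ring
    rw [e1]
    have e2 : δ ^ 7 ≤ 1 := pow_le_one₀ hδ.le hδle1
    exact (mul_le_of_le_one_left (by positivity) e2).trans h5
  have hR : 0 < r ^ 2 / H := by positivity
  have hinv : 0 < δ⁻¹ := inv_pos.2 hδ
  have hRlo : δ⁻¹ ≤ r ^ 2 / H := by
    rw [le_div_iff₀ hH, inv_mul_le_iff₀ hδ]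
    have e1 : c * δ ^ 2 * r ^ 2 = (c * δ) * (δ * r ^ 2) := by ring
    rw [e1] at hhi'
    exact hhi'.trans (mul_le_of_le_one_left (by positivity) hδ2)
  have hRhi : r ^ 2 / H ≤ δ⁻¹ ^ 5 := by
    rw [div_le_iff₀ hH, inv_pow, inv_mul_eq_div, le_div_iff₀ (by positivity)]
    linarith
  have hΛ : 1080 ≤ Real.log δ⁻¹ := by
    rw [Real.log_inv]
    have := Real.log_le_log hδ hδ1
    rw [Real.log_exp] at this
    linarith
  have hG : Real.log δ⁻¹ ≤ Real.log (r ^ 2 / H) := Real.log_le_log hinv hRlo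
  have hF : Real.log (r ^ 2 / H) ≤ 5 * Real.log δ⁻¹ := by
    have := Real.log_le_log hR hRhi
    rw [Real.log_pow] at this
    exact_mod_cast this
  have hE : 1 ≤ Real.log (r ^ 2 / H) := by linarith
  have hT20 : 1 ≤ Real.log (r ^ 2 / H) ^ 20 := one_le_pow₀ hE
  have hT20pos : 0 < Real.log (r ^ 2 / H) ^ 20 := by linarith
  refine ⟨hA, hB, hE, hF, hG, by positivity, ?_, ?_⟩
  · rw [div_le_one hT20pos]
    exact hT20
  · rw [le_div_iff₀ hT20pos]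
    have e1 : Real.log (r ^ 2 / H) ^ 20 ≤ (5 * Real.log δ⁻¹) ^ 20 :=
      pow_le_pow_left₀ (by linarith) hF 20
    have e2 := cell_num_exp _ hΛ
    rw [Real.exp_log hinv] at e2
    calc δ * Real.log (r ^ 2 / H) ^ 20 ≤ δ * δ⁻¹ :=
          mul_le_mul_of_nonneg_left (e1.trans e2) hδ.le
      _ = 1 := mul_inv_cancel₀ hδ.ne'

/-- the total cost of the shallow cells and of the floor (leaf `L-Freq-cell-num`).
PLAN.  `(ν + Q volS)(Bs r) ≤ C r^m` (`Wt.mass`, `volS_ball`).  `δ⁴ ≤ Ca H / r²` (`Wt.H_lo`), `δ ≤ Ca r⁴ ≤ Ca r²` (`Wt.d_le`, `k ≥ 5`, `r ≤ 1`).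
`T = log (r²/H)`: `2 |log δ| - log Ca ≤ T ≤ 4 |log δ| + log Ca` (`Wt.H_lo`, `Wt.H_hi`); `δ (4 |log δ| + log Ca)^20 ≤ 1` for small `δ`
(`Real.add_pow_le_pow_mul_pow_of_add_eq_one`-free: `|log δ|^20 ≤ 20! ... δ^{-1/2}`, e.g. from `Real.add_one_le_exp`/`Real.log_le_rpow_div`). -/
theorem cell_num (m n Q : ℕ) : Unif m n Q (fun C N r =>
    ((N.nu + (Q : ℝ≥0∞) • N.volS) (Bs N.u r)).toReal ≤ C * r ^ m ∧
    (N.nu + (Q : ℝ≥0∞) • N.volS) (Bs N.u r) < ⊤ ∧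
    r ^ 2 * qd N r ^ 5 ≤ C * r ^ 2 * qH N r ∧
    r ^ 2 * qd N r ^ 12 ≤ qH N r ∧
    1 ≤ Real.log (r ^ 2 / qH N r) ∧
    Real.log (r ^ 2 / qH N r) ≤ 5 * Real.log (qd N r)⁻¹ ∧
    Real.log (qd N r)⁻¹ ≤ Real.log (r ^ 2 / qH N r) ∧
    0 < gT N r ∧ gT N r ≤ 1 ∧ qd N r ≤ gT N r) := by
  obtain ⟨J₁, κ₁, hκ₁, hts⟩ := transfer_set m n Q
  refine ⟨max J₁ 4, min κ₁ (1 / 2), lt_min hκ₁ (by norm_num), fun Ca => ?_⟩
  obtain ⟨c, hc⟩ : ∃ c, c = max Ca 1 := ⟨_, rfl⟩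
  have hc1 : 1 ≤ c := by rw [hc]; exact le_max_right _ _
  have hc0 : 0 < c := by linarith
  have hcCa : Ca ≤ c := by rw [hc]; exact le_max_left _ _
  obtain ⟨δ₀, hδ₀⟩ : ∃ δ₀, δ₀ = min (Real.exp (-1080)) c⁻¹ := ⟨_, rfl⟩
  have hδ₀pos : 0 < δ₀ := by rw [hδ₀]; exact lt_min (Real.exp_pos _) (by positivity)
  refine ⟨max (c ^ 2) (Cmass m Q + Q * (2 ^ m * kap m)), δ₀ / c,
    le_max_of_le_left (one_le_pow₀ hc1), by positivity, ?_⟩
  intro J k κ N r hJ hκ hr hF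
  have hgeo : Geo κ N.u := hF.geo ((le_max_right _ _).trans hJ) (hκ.trans (min_le_right _ _))
  have hts' := hts J k κ Ca N r ((le_max_left _ _).trans hJ) (hκ.trans (min_le_left _ _)) hF
  have hr0 := hF.r_pos
  have hr1 := hF.r_le
  have hδpos := hF.wt.d_pos
  have hCa : 0 < Ca := by
    by_contra hneg
    rw [not_lt] at hneg
    have h1 := hF.wt.d_le
    have h2 : Ca * r ^ (k - 1) ≤ 0 := mul_nonpos_of_nonpos_of_nonneg hneg (by positivity)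
    linarith
  have hδr : qd N r ≤ c * r ^ 4 := by
    have h1 : r ^ (k - 1) ≤ r ^ 4 :=
      pow_le_pow_of_le_one hr0.le hr1 (by have := hF.k_ge; omega)
    calc qd N r ≤ Ca * r ^ (k - 1) := hF.wt.d_le
      _ ≤ c * r ^ 4 := mul_le_mul hcCa h1 (by positivity) hc0.le
  have hδδ₀ : qd N r ≤ δ₀ := by
    have h1 : r ^ 4 ≤ r := by
      calc r ^ 4 ≤ r ^ 1 := pow_le_pow_of_le_one hr0.le hr1 (by norm_num)
        _ = r := pow_one r
    calc qd N r ≤ c * r ^ 4 := hδr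
      _ ≤ c * (δ₀ / c) := mul_le_mul_of_nonneg_left (h1.trans hr) hc0.le
      _ = δ₀ := by field_simp
  have hδ1 : qd N r ≤ Real.exp (-1080) := hδδ₀.trans (by rw [hδ₀]; exact min_le_left _ _)
  have hδ2 : c * qd N r ≤ 1 := by
    have h1 : qd N r ≤ c⁻¹ := hδδ₀.trans (by rw [hδ₀]; exact min_le_right _ _)
    calc c * qd N r ≤ c * c⁻¹ := mul_le_mul_of_nonneg_left h1 hc0.le
      _ = 1 := mul_inv_cancel₀ hc0.ne'
  have hlo : c⁻¹ * qd N r ^ 4 ≤ qH N r / r ^ 2 := by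
    refine le_trans ?_ hF.wt.H_lo
    exact mul_le_mul_of_nonneg_right (inv_anti₀ hCa hcCa) (by positivity)
  have hhi : qH N r / r ^ 2 ≤ c * qd N r ^ 2 :=
    hF.wt.H_hi.trans (mul_le_mul_of_nonneg_right hcCa (by positivity))
  obtain ⟨hA, hB, hE, hFF, hG, hg0, hg1, hgd⟩ :=
    cell_num_real c (qd N r) r (qH N r) hc1 hδpos hr0 hr1 hδ1 hδ2 hδr hlo hhi
  have hH : 0 ≤ qH N r := le_trans (by positivity) hB
  obtain ⟨-, -, -, -, -, -, -, hopen, hsub, -, -⟩ := ker_facts hgeo hr0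
  have hkap : 0 ≤ kap m := ENNReal.toReal_nonneg
  have hCm : 0 ≤ Cmass m Q := by unfold Cmass; positivity
  have hν : N.nu (Bs N.u r) ≤ ENNReal.ofReal (Cmass m Q * r ^ m) := by
    rw [(hts' _ hopen.measurableSet).1]
    exact hF.wt.mass
  have hvol : N.volS (Bs N.u r) ≤ ENNReal.ofReal (2 ^ m * kap m * r ^ m) := by
    refine (measure_mono hsub).trans (volS_ball N hgeo 0 r hr0 ?_).2
    rw [hF.Ω_eq]
    exact Metric.ball_subset_ball (by linarith)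
  have hsum : (N.nu + (Q : ℝ≥0∞) • N.volS) (Bs N.u r)
      ≤ ENNReal.ofReal ((Cmass m Q + Q * (2 ^ m * kap m)) * r ^ m) := by
    rw [Measure.add_apply, Measure.smul_apply, smul_eq_mul]
    calc N.nu (Bs N.u r) + (Q : ℝ≥0∞) * N.volS (Bs N.u r)
        ≤ ENNReal.ofReal (Cmass m Q * r ^ m) + (Q : ℝ≥0∞) * ENNReal.ofReal (2 ^ m * kap m * r ^ m) :=
          add_le_add hν (mul_le_mul_right hvol _)
      _ = ENNReal.ofReal ((Cmass m Q + Q * (2 ^ m * kap m)) * r ^ m) := by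
          rw [← ENNReal.ofReal_natCast, ← ENNReal.ofReal_mul (by positivity),
            ← ENNReal.ofReal_add (by positivity) (by positivity)]
          congr 1
          ring
  refine ⟨?_, lt_of_le_of_lt hsum ENNReal.ofReal_lt_top, ?_, hB, hE, hFF, hG, hg0, hg1, hgd⟩
  · refine (ENNReal.toReal_le_of_le_ofReal (by positivity) hsum).trans ?_
    exact mul_le_mul_of_nonneg_right (le_max_right _ _) (by positivity)
  · refine hA.trans ?_
    have h1 : c ^ 2 * r ^ 2 * qH N r = c ^ 2 * (r ^ 2 * qH N r) := by ring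
    have h2 : max (c ^ 2) (Cmass m Q + Q * (2 ^ m * kap m)) * r ^ 2 * qH N r
        = max (c ^ 2) (Cmass m Q + Q * (2 ^ m * kap m)) * (r ^ 2 * qH N r) := by ring
    rw [h1, h2]
    exact mul_le_mul_of_nonneg_right (le_max_left _ _) (by positivity)

/-- raw form of `abs_est`: sum over the cells (aux) -/
theorem abs_est_raw (m n Q : ℕ) (hm : 1 ≤ m) (hn : 1 ≤ n) : Unif m n Q (fun C N r => ∀ a : E m → ℝ, Measurable a → (∀ y, |a y| ≤ 1) →
    |N.intM (fun y => a y * phiR N.u r y)|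
      ≤ C * (∫ y, phiR N.u r y ∂N.Dm + ∫ y, phiR N.u r y ∂N.Lm) + C * (qd N r ^ 5 * r ^ m)) := by
  obtain ⟨Cp, Nov, hCp, hfam⟩ := exists_cellFam m
  obtain ⟨J₁, κ₁, hκ₁, h₁⟩ := cells_base m n Q
  obtain ⟨J₂, κ₂, hκ₂, h₂⟩ := intM_cells m n Q
  obtain ⟨J₃, κ₃, hκ₃, h₃⟩ := abs_deep m n Q hm hn
  obtain ⟨J₄, κ₄, hκ₄, h₄⟩ := abs_shallow m n Q
  obtain ⟨J₅, κ₅, hκ₅, h₅⟩ := cell_num m n Q
  refine ⟨max J₁ (max J₂ (max J₃ (max J₄ J₅))),
    min κ₁ (min κ₂ (min κ₃ (min κ₄ κ₅))),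
    lt_min hκ₁ (lt_min hκ₂ (lt_min hκ₃ (lt_min hκ₄ hκ₅))), fun Ca => ?_⟩
  obtain ⟨C₃, r₃, hC₃, hr₃, h₃⟩ := h₃ Ca
  obtain ⟨C₅, r₅, hC₅, hr₅, h₅⟩ := h₅ Ca
  have hNov : (0 : ℝ) ≤ Nov := Nat.cast_nonneg _
  refine ⟨C₃ * Nov + Nov * C₅ + 1, min r₃ r₅,
    by have : (0 : ℝ) ≤ C₃ * Nov + Nov * C₅ := by positivity
       linarith,
    lt_min hr₃ hr₅, fun J k κ N r hJ hκ hr₀ hF a ha ha1 => ?_⟩
  simp only [max_le_iff] at hJ
  simp only [le_min_iff] at hκ hr₀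
  obtain ⟨hJ1, hJ2, hJ3, hJ4, hJ5⟩ := hJ
  obtain ⟨hk1, hk2, hk3, hk4, hk5⟩ := hκ
  obtain ⟨hr3, hr5⟩ := hr₀
  obtain ⟨⟨κ', hu⟩, hmB, -, -, -, -, hφm, hD, hL⟩ := h₁ J k κ Ca N r hJ1 hk1 hF
  have hlin := h₂ J k κ Ca N r hJ2 hk2 hF
  have hdeep := h₃ J k κ N r hJ3 hk3 hr3 hF
  have hshal := h₄ J k κ Ca N r hJ4 hk4 hF
  obtain ⟨n1, n2, -⟩ := h₅ J k κ N r hJ5 hk5 hr5 hF
  have hr := hF.r_pos
  have hd := hF.wt.d_pos
  obtain ⟨hdep01, hdepout, -⟩ := ker_facts hu hr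
  have hsq : 0 < Real.sqrt (qd N r) := Real.sqrt_pos.2 hd
  have hl0 : 0 < lam1 N r := by unfold lam1; positivity
  obtain ⟨F⟩ := hfam (lam1 N r) r hl0 hr
  have hφ0 : ∀ y, 0 ≤ phiR N.u r y := fun y => pow_nonneg (hdep01 y).1 _
  have hφ1 : ∀ y, phiR N.u r y ≤ 1 := fun y => pow_le_one₀ (hdep01 y).1 (hdep01 y).2
  have hηm : Measurable fun y => a y * phiR N.u r y := ha.mul hφm
  have hηφ : ∀ y, |a y * phiR N.u r y| ≤ phiR N.u r y := by
    intro y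
    rw [abs_mul, abs_of_nonneg (hφ0 y)]
    exact mul_le_of_le_one_left (hφ0 y) (ha1 y)
  have hηout : ∀ y ∉ Bs N.u r, a y * phiR N.u r y = 0 := by
    intro y hy
    unfold phiR
    rw [hdepout y hy]
    simp
  rw [hlin Cp Nov _ F _ 1 hηm (fun y => (hηφ y).trans (hφ1 y)) hηout]
  -- the two measures
  obtain ⟨ρ₁, hρ₁⟩ : ∃ ρ₁ : Measure (E m),
      ρ₁ = (N.Dm + N.Lm).withDensity fun y => ENNReal.ofReal (phiR N.u r y) := ⟨_, rfl⟩
  obtain ⟨ρ₂, hρ₂⟩ : ∃ ρ₂ : Measure (E m), ρ₂ = N.nu + (Q : ℝ≥0∞) • N.volS := ⟨_, rfl⟩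
  obtain ⟨ID, hID⟩ : ∃ ID : ℝ, ID = ∫ y, phiR N.u r y ∂N.Dm := ⟨_, rfl⟩
  obtain ⟨IL, hIL⟩ : ∃ IL : ℝ, IL = ∫ y, phiR N.u r y ∂N.Lm := ⟨_, rfl⟩
  have hρ₁u : ρ₁ Set.univ = ∫⁻ y, ENNReal.ofReal (phiR N.u r y) ∂N.Dm
      + ∫⁻ y, ENNReal.ofReal (phiR N.u r y) ∂N.Lm := by
    rw [hρ₁, withDensity_apply _ MeasurableSet.univ, Measure.restrict_univ, lintegral_add_measure]
  have hρ₁fin : ρ₁ Set.univ < ⊤ := by
    rw [hρ₁u]
    exact ENNReal.add_lt_top.2 ⟨hD, hL⟩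
  have hρ₁r : (ρ₁ Set.univ).toReal = ID + IL := by
    rw [hρ₁u, ENNReal.toReal_add hD.ne hL.ne, hID, hIL,
      integral_eq_lintegral_of_nonneg_ae (Filter.Eventually.of_forall hφ0) hφm.aestronglyMeasurable,
      integral_eq_lintegral_of_nonneg_ae (Filter.Eventually.of_forall hφ0) hφm.aestronglyMeasurable]
  have hterm : ∀ k ∈ F.ι, |N.intM (fun y => F.χ k y * (a y * phiR N.u r y))|
      ≤ C₃ * (ρ₁ (Metric.ball (gpt m (lam1 N r) k) (20 * lam1 N r) ∩ Set.univ)).toReal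
        + qd N r ^ 5 * (ρ₂ (Metric.ball (gpt m (lam1 N r) k) (20 * lam1 N r) ∩ Bs N.u r)).toReal := by
    intro k _
    have m1 : Measurable fun y => F.χ k y * (a y * phiR N.u r y) :=
      ((F.smooth k).continuous.measurable).mul hηm
    have m2 : ∀ y, |F.χ k y * (a y * phiR N.u r y)| ≤ phiR N.u r y := by
      intro y
      rw [abs_mul, abs_of_nonneg (F.nonneg k y)]
      calc F.χ k y * |a y * phiR N.u r y| ≤ 1 * phiR N.u r y :=
            mul_le_mul (F.le_one k y) (hηφ y) (abs_nonneg _) zero_le_one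
        _ = phiR N.u r y := one_mul _
    have m3 : ∀ y ∉ Metric.ball (gpt m (lam1 N r) k) (lam1 N r),
        F.χ k y * (a y * phiR N.u r y) = 0 := by
      intro y hy
      rw [image_eq_zero_of_notMem_tsupport fun hy' => hy (F.supp k hy'), zero_mul]
    have p1 : 0 ≤ C₃ * (ρ₁ (Metric.ball (gpt m (lam1 N r) k) (20 * lam1 N r) ∩ Set.univ)).toReal :=
      mul_nonneg (by linarith) ENNReal.toReal_nonneg
    have p2 : 0 ≤ qd N r ^ 5
        * (ρ₂ (Metric.ball (gpt m (lam1 N r) k) (20 * lam1 N r) ∩ Bs N.u r)).toReal :=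
      mul_nonneg (by positivity) ENNReal.toReal_nonneg
    by_cases hk : Deep N r (gpt m (lam1 N r) k)
    · have h8 := hdeep _ _ hk m1 m2 m3
      have e : ∫ y in Metric.ball (gpt m (lam1 N r) k) (20 * lam1 N r), phiR N.u r y ∂(N.Dm + N.Lm)
          = (ρ₁ (Metric.ball (gpt m (lam1 N r) k) (20 * lam1 N r) ∩ Set.univ)).toReal := by
        rw [Set.inter_univ, hρ₁, withDensity_apply _ measurableSet_ball]
        exact integral_eq_lintegral_of_nonneg_ae (Filter.Eventually.of_forall hφ0)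
          hφm.aestronglyMeasurable
      rw [e] at h8
      linarith
    · have h8 := hshal _ _ hk m1 m2 m3
      rw [← hρ₂] at h8
      linarith
  have hs1 : ∑ k ∈ F.ι, (ρ₁ (Metric.ball (gpt m (lam1 N r) k) (20 * lam1 N r) ∩ Set.univ)).toReal
      ≤ Nov * (ID + IL) := by
    rw [← hρ₁r, ← ENNReal.toReal_natCast Nov, ← ENNReal.toReal_mul, ← ENNReal.toReal_sum
      (fun k _ => ((measure_mono (Set.subset_univ _)).trans_lt hρ₁fin).ne)]
    exact ENNReal.toReal_mono (ENNReal.mul_ne_top (ENNReal.natCast_ne_top _) hρ₁fin.ne)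
      (F.overlap ρ₁ Set.univ MeasurableSet.univ)
  have hs2 : ∑ k ∈ F.ι, (ρ₂ (Metric.ball (gpt m (lam1 N r) k) (20 * lam1 N r) ∩ Bs N.u r)).toReal
      ≤ Nov * (C₅ * r ^ m) := by
    rw [← hρ₂] at n1 n2
    refine le_trans ?_ (mul_le_mul_of_nonneg_left n1 (Nat.cast_nonneg _))
    rw [← ENNReal.toReal_natCast Nov, ← ENNReal.toReal_mul, ← ENNReal.toReal_sum
      (fun k _ => ((measure_mono Set.inter_subset_right).trans_lt n2).ne)]
    exact ENNReal.toReal_mono (ENNReal.mul_ne_top (ENNReal.natCast_ne_top _) n2.ne)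
      (F.overlap ρ₂ _ hmB)
  have hsum : |∑ k ∈ F.ι, N.intM (fun y => F.χ k y * (a y * phiR N.u r y))|
      ≤ C₃ * (Nov * (ID + IL)) + qd N r ^ 5 * (Nov * (C₅ * r ^ m)) := by
    refine (Finset.abs_sum_le_sum_abs _ _).trans ((Finset.sum_le_sum hterm).trans ?_)
    rw [Finset.sum_add_distrib, ← Finset.mul_sum, ← Finset.mul_sum]
    exact add_le_add (mul_le_mul_of_nonneg_left hs1 (by linarith))
      (mul_le_mul_of_nonneg_left hs2 (by positivity))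
  rw [← hID, ← hIL]
  have hID0 : 0 ≤ ID := hID ▸ integral_nonneg hφ0
  have hIL0 : 0 ≤ IL := hIL ▸ integral_nonneg hφ0
  refine hsum.trans ?_
  have hX : 0 ≤ ID + IL := by positivity
  have hY : 0 ≤ qd N r ^ 5 * r ^ m := by positivity
  have b1 : C₃ * (Nov * (ID + IL)) ≤ (C₃ * Nov + Nov * C₅ + 1) * (ID + IL) := by
    have : C₃ * (Nov * (ID + IL)) = C₃ * Nov * (ID + IL) := by ring
    rw [this]
    apply mul_le_mul_of_nonneg_right _ hX
    have : (0 : ℝ) ≤ Nov * C₅ := by positivity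
    linarith
  have b2 : qd N r ^ 5 * (Nov * (C₅ * r ^ m)) ≤ (C₃ * Nov + Nov * C₅ + 1) * (qd N r ^ 5 * r ^ m) := by
    have : qd N r ^ 5 * (Nov * (C₅ * r ^ m)) = Nov * C₅ * (qd N r ^ 5 * r ^ m) := by ring
    rw [this]
    apply mul_le_mul_of_nonneg_right _ hY
    have : (0 : ℝ) ≤ C₃ * Nov := by positivity
    linarith
  exact add_le_add b1 b2

/-- **CO (4.14) with bounded measurable multipliers** (leaf `L-Freq-cell-abs`).
PLAN.  `exists_cellFam`, `l = lam1 N r`, `R = r`; `intM_cells` with `η = a φ`; `abs_deep` / `abs_shallow` for `χ_k a φ`; `CellFam.overlap` for the measures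
`(D + Λ).withDensity φ` (`A = univ`) and `ν + Q volS` (`A = Bs r`); `∫ φ d(D + Λ) = r^{m-2} E + r^m qL` (`Ints.eE`, `Ints.eL`);
`wcompA`, `cell_num`. -/
theorem abs_est (m n Q : ℕ) (hm : 1 ≤ m) (hn : 1 ≤ n) : Unif m n Q (fun C N r => ∀ a : E m → ℝ, Measurable a → (∀ y, |a y| ≤ 1) →
    |r ^ 2 * (r ^ m)⁻¹ * N.intM (fun y => a y * phiR N.u r y)| ≤ C * (qE N r + r ^ 2 * qH N r)) := by
  obtain ⟨J₁, κ₁, hκ₁, h₁⟩ := abs_est_raw m n Q hm hn
  obtain ⟨J₅, κ₅, hκ₅, h₅⟩ := cell_num m n Q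
  obtain ⟨J₆, κ₆, hκ₆, h₆⟩ := wcompA m n Q hm
  obtain ⟨J₇, κ₇, hκ₇, h₇⟩ := signs m n Q
  refine ⟨max J₁ (max J₅ (max J₆ J₇)), min κ₁ (min κ₅ (min κ₆ κ₇)),
    lt_min hκ₁ (lt_min hκ₅ (lt_min hκ₆ hκ₇)), fun Ca => ?_⟩
  obtain ⟨C₁, r₁, hC₁, hr₁, h₁⟩ := h₁ Ca
  obtain ⟨C₅, r₅, hC₅, hr₅, h₅⟩ := h₅ Ca
  obtain ⟨C₆, r₆, hC₆, hr₆, h₆⟩ := h₆ Ca
  refine ⟨C₁ * (1 + C₆) + C₁ * C₅, min r₁ (min r₅ r₆), by nlinarith,
    lt_min hr₁ (lt_min hr₅ hr₆), fun J k κ N r hJ hκ hr₀ hF a ha ha1 => ?_⟩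
  simp only [max_le_iff] at hJ
  simp only [le_min_iff] at hκ hr₀
  obtain ⟨hJ1, hJ5, hJ6, hJ7⟩ := hJ
  obtain ⟨hk1, hk5, hk6, hk7⟩ := hκ
  obtain ⟨hr1', hr5, hr6⟩ := hr₀
  have hraw := h₁ J k κ N r hJ1 hk1 hr1' hF a ha ha1
  obtain ⟨-, -, n3, -, -, -, -, -, n9, n10⟩ := h₅ J k κ N r hJ5 hk5 hr5 hF
  obtain ⟨-, w2⟩ := h₆ J k κ N r hJ6 hk6 hr6 hF
  obtain ⟨sH, sE, -, -, -, sL, -, -⟩ := h₇ J k κ Ca N r hJ7 hk7 hF
  have hr := hF.r_pos
  have hr1 := hF.r_le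
  have hd := hF.wt.d_pos
  have hd1 : qd N r ≤ 1 := n10.trans n9
  obtain ⟨ID, hID⟩ : ∃ ID : ℝ, ID = ∫ y, phiR N.u r y ∂N.Dm := ⟨_, rfl⟩
  obtain ⟨IL, hIL⟩ : ∃ IL : ℝ, IL = ∫ y, phiR N.u r y ∂N.Lm := ⟨_, rfl⟩
  obtain ⟨X, hX⟩ : ∃ X : ℝ, X = N.intM (fun y => a y * phiR N.u r y) := ⟨_, rfl⟩
  rw [← hID, ← hIL, ← hX] at hraw
  rw [← hX]
  have hrm : 0 < r ^ m := by positivity
  have hs0 : 0 ≤ r ^ 2 * (r ^ m)⁻¹ := by positivity
  have eE : qE N r = r ^ 2 * (r ^ m)⁻¹ * ID := by rw [hID]; rfl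
  have eL : qL N r = (r ^ m)⁻¹ * IL := by rw [hIL]; rfl
  rw [abs_mul, abs_of_nonneg hs0]
  have a1 : r ^ 2 * (r ^ m)⁻¹ * (C₁ * (ID + IL) + C₁ * (qd N r ^ 5 * r ^ m))
      = C₁ * (qE N r + r ^ 2 * qL N r) + C₁ * (r ^ 2 * qd N r ^ 5) := by
    rw [eE, eL]
    field_simp
  have a2 : r ^ 2 * qL N r ≤ C₆ * (qE N r + r ^ 2 * qH N r) := by
    have b1 : r ^ 2 * qL N r ≤ r ^ 2 * (C₆ * (qH N r + qd N r ^ 2 * qE N r)) :=
      mul_le_mul_of_nonneg_left w2 (by positivity)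
    have b2 : r ^ 2 * qd N r ^ 2 ≤ 1 := by
      have c1 : r ^ 2 ≤ 1 := pow_le_one₀ hr.le hr1
      have c2 : qd N r ^ 2 ≤ 1 := pow_le_one₀ hd.le hd1
      calc r ^ 2 * qd N r ^ 2 ≤ 1 * 1 := mul_le_mul c1 c2 (by positivity) zero_le_one
        _ = 1 := one_mul 1
    have b3 : r ^ 2 * qd N r ^ 2 * qE N r ≤ 1 * qE N r := mul_le_mul_of_nonneg_right b2 sE
    have b4 : r ^ 2 * (C₆ * (qH N r + qd N r ^ 2 * qE N r))
        = C₆ * (r ^ 2 * qd N r ^ 2 * qE N r + r ^ 2 * qH N r) := by ring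
    rw [b4] at b1
    refine b1.trans (mul_le_mul_of_nonneg_left (by linarith) (by linarith))
  have hrH : 0 ≤ r ^ 2 * qH N r := by positivity
  have hY : 0 ≤ qE N r + r ^ 2 * qH N r := by positivity
  have a3 : C₁ * (qE N r + r ^ 2 * qL N r) ≤ C₁ * ((1 + C₆) * (qE N r + r ^ 2 * qH N r)) := by
    apply mul_le_mul_of_nonneg_left _ (by linarith)
    have : (1 + C₆) * (qE N r + r ^ 2 * qH N r)
        = (qE N r + r ^ 2 * qH N r) + C₆ * (qE N r + r ^ 2 * qH N r) := by ring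
    rw [this]
    linarith
  have a4 : C₁ * (r ^ 2 * qd N r ^ 5) ≤ C₁ * (C₅ * (qE N r + r ^ 2 * qH N r)) := by
    apply mul_le_mul_of_nonneg_left _ (by linarith)
    refine n3.trans ?_
    rw [mul_assoc]
    exact mul_le_mul_of_nonneg_left (by linarith) (by linarith)
  calc r ^ 2 * (r ^ m)⁻¹ * |X|
      ≤ r ^ 2 * (r ^ m)⁻¹ * (C₁ * (ID + IL) + C₁ * (qd N r ^ 5 * r ^ m)) :=
        mul_le_mul_of_nonneg_left hraw hs0
    _ = C₁ * (qE N r + r ^ 2 * qL N r) + C₁ * (r ^ 2 * qd N r ^ 5) := a1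
    _ ≤ C₁ * ((1 + C₆) * (qE N r + r ^ 2 * qH N r))
        + C₁ * (C₅ * (qE N r + r ^ 2 * qH N r)) := add_le_add a3 a4
    _ = (C₁ * (1 + C₆) + C₁ * C₅) * (qE N r + r ^ 2 * qH N r) := by ring

/-- real-variable core of `cell_signed` -/
theorem csg_core {δ C' t lm T Tm : ℝ} {ρ : ℝ → ℝ} (hδ : 0 < δ) (hδ1 : δ ≤ 1) (hC' : 1 ≤ C')
    (hδC : δ ≤ 1 / C' ^ 2) (hδT : δ ≤ Real.exp (-(2 * Tm))) (hlm : 0 < lm)
    (ht : t ≤ C' * δ * lm) (hT1 : 1 ≤ T) (hT : T ≤ 5 * Real.log δ⁻¹)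
    (hρ0 : ∀ T, 0 ≤ ρ T) (hρ : ∀ T, Tm ≤ T → T ^ 20 * ρ T ≤ 1) (ht0 : 0 ≤ t) :
    ∃ Tx : ℝ, Tm ≤ Tx ∧ t ≤ Real.exp (-Tx) * lm ∧ Real.sqrt δ ≤ Real.exp (-(1 / 24 * Tx)) ∧
      ρ Tx * Real.exp (-Tx) * lm ≤ 10 ^ 20 * (1 / T ^ 20) * (t + δ ^ 12 * lm) := by
  obtain ⟨d, hd⟩ : ∃ d, d = max (t / lm) (δ ^ 12) := ⟨_, rfl⟩
  have hd0 : 0 < d := by rw [hd]; exact lt_max_of_lt_right (by positivity)
  have hs0 : 0 < Real.sqrt δ := Real.sqrt_pos.2 hδ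
  have hss : Real.sqrt δ * Real.sqrt δ = δ := Real.mul_self_sqrt hδ.le
  have hC0 : 0 < C' := by linarith
  have hsC : Real.sqrt δ ≤ 1 / C' := by
    rw [Real.sqrt_le_left (by positivity)]
    rw [div_pow, one_pow]
    exact hδC
  have hd1 : d ≤ C' * δ := by
    rw [hd]
    refine max_le ?_ ?_
    · rw [div_le_iff₀ hlm]; exact ht
    · calc δ ^ 12 ≤ δ ^ 1 := pow_le_pow_of_le_one hδ.le hδ1 (by norm_num)
        _ = 1 * δ := by ring
        _ ≤ C' * δ := by gcongr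
  have hd2 : d ≤ Real.sqrt δ := by
    refine hd1.trans ?_
    calc C' * δ = (C' * Real.sqrt δ) * Real.sqrt δ := by rw [mul_assoc, hss]
      _ ≤ 1 * Real.sqrt δ := by
          gcongr
          calc C' * Real.sqrt δ ≤ C' * (1 / C') := by gcongr
            _ = 1 := by field_simp
      _ = Real.sqrt δ := one_mul _
  have hlogs : Real.log (Real.sqrt δ) = Real.log δ / 2 := Real.log_sqrt hδ.le
  have hlogd : Real.log d ≤ Real.log δ / 2 := by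
    rw [← hlogs]; exact Real.log_le_log hd0 hd2
  have hlogδ : Real.log δ ≤ -(2 * Tm) := by
    have := Real.log_le_log hδ hδT
    rwa [Real.log_exp] at this
  have hinv : Real.log δ⁻¹ = -Real.log δ := Real.log_inv δ
  have hexp : Real.exp (-(-Real.log d)) = d := by rw [neg_neg, Real.exp_log hd0]
  have hTx : T / 10 ≤ -Real.log d := by rw [hinv] at hT; linarith
  have hTx0 : 0 < T / 10 := by linarith
  refine ⟨-Real.log d, by linarith, ?_, ?_, ?_⟩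
  · rw [hexp, ← div_le_iff₀ hlm, hd]; exact le_max_left _ _
  · have h1 : Real.log (δ ^ 12) ≤ Real.log d :=
      Real.log_le_log (by positivity) (by rw [hd]; exact le_max_right _ _)
    rw [Real.log_pow] at h1
    rw [← Real.exp_log hs0, hlogs]
    refine Real.exp_le_exp.2 ?_
    push_cast at h1
    linarith
  · rw [hexp]
    have h1 : (-Real.log d) ^ 20 * ρ (-Real.log d) ≤ 1 := hρ _ (by linarith)
    have h2 : (T / 10) ^ 20 ≤ (-Real.log d) ^ 20 := by gcongr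
    have h3 : (T / 10) ^ 20 * ρ (-Real.log d) ≤ 1 :=
      (mul_le_mul_of_nonneg_right h2 (hρ0 _)).trans h1
    have h4 : ρ (-Real.log d) ≤ 10 ^ 20 * (1 / T ^ 20) := by
      have h5 : 0 < (T / 10) ^ 20 := by positivity
      have h6 : ρ (-Real.log d) ≤ 1 / (T / 10) ^ 20 := by
        rw [le_div_iff₀ h5, mul_comm]; exact h3
      refine h6.trans (le_of_eq ?_)
      rw [div_pow]
      field_simp
    have h7 : d * lm ≤ t + δ ^ 12 * lm := by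
      rw [hd, max_mul_of_nonneg _ _ hlm.le, div_mul_cancel₀ _ hlm.ne']
      refine max_le ?_ ?_
      · have : 0 ≤ δ ^ 12 * lm := by positivity
        linarith
      · linarith
    calc ρ (-Real.log d) * d * lm = ρ (-Real.log d) * (d * lm) := by ring
      _ ≤ 10 ^ 20 * (1 / T ^ 20) * (t + δ ^ 12 * lm) := by
          gcongr

set_option maxHeartbeats 400000 in
/-- **signed excess on one admissible cell** (leaf `L-Freq-cell-signed`).
PLAN.  `Tube.signed_excess m n Q hm hn hQ (1/24)`, `K = 1`.  `l = lam1`, `d = max (τ(ball x (5l)) / l^m) δ^12`, `T_x = - log d`.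
`τ(ball x (5 l)) ≤ (C+1) (D + Λ)(ball x (10 l)) ≤ C' δ l^m` (`mabs_le` at `(x, 5l)`, `local_cacc` at the radius `10 l`), so `T_x ≥ T₀` and
`T_x ≥ |log δ|/2 ≥ T/10` (`cell_num`); `l + supz ≤ δ^{1/2} ≤ d^{1/24}`; `ρ(T_x) ≤ T_x^{-20} ≤ 10^20 g` for large `T_x`.
The constant `CQ` depends only on `m, n, Q`. -/
theorem cell_signed (m n Q : ℕ) (hm : 1 ≤ m) (hn : 1 ≤ n) (hQ : 1 ≤ Q) : ∃ CQ : ℝ, 0 < CQ ∧ Unif m n Q (fun C N r =>
    ∀ (x : E m) (w : E m → ℝ), Deep N r x → (∀ y, 0 ≤ w y ∧ w y ≤ 1) →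
      (∀ y y', |w y - w y'| ≤ (lam1 N r)⁻¹ * ‖y - y'‖) → Function.support w ⊆ Metric.ball x (lam1 N r) →
      2 * N.intM w - ∫ y, w y ∂N.Dm - CQ * ∫ y, w y ∂N.Lm
        ≤ C * gT N r * (((N.Dm + N.Lm) (Metric.ball x (10 * lam1 N r))).toReal + qd N r ^ 12 * lam1 N r ^ m)) := by
  obtain ⟨Js, hs⟩ := signed_excess m n Q hm hn hQ (1 / 24) (by norm_num)
  obtain ⟨ε₀, h₀, CQ, T₀, ρ, hε₀, hh₀, hCQ, hρ0, hρt, hs⟩ := hs 1 le_rfl
  refine ⟨CQ, hCQ, ?_⟩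
  obtain ⟨J₁, κ₁, hκ₁, hmabs⟩ := mabs_le m n Q hm hn
  obtain ⟨J₂, κ₂, hκ₂, hcacc⟩ := local_cacc m n Q
  obtain ⟨J₃, κ₃, hκ₃, hnum⟩ := cell_num m n Q
  obtain ⟨J₄, κ₄, hκ₄, hht⟩ := ae_height m n Q
  obtain ⟨T₁, hT₁⟩ : ∃ T₁ : ℝ, ∀ T, T₁ ≤ T → T ^ 20 * ρ T ≤ 1 :=
    Filter.eventually_atTop.1 ((hρt 20).eventually (Iic_mem_nhds zero_lt_one))
  refine ⟨max (max (max J₁ J₂) (max J₃ J₄)) (max Js 4),
    min (min (min κ₁ κ₂) (min κ₃ κ₄)) (min (min ε₀ h₀) (1 / 2)), by positivity, fun Ca => ?_⟩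
  obtain ⟨C₁, r₁, hC₁, hr₁, hmabs⟩ := hmabs Ca
  obtain ⟨C₂, r₂, hC₂, hr₂, hcacc⟩ := hcacc Ca
  obtain ⟨C₃, r₃, hC₃, hr₃, hnum⟩ := hnum Ca
  obtain ⟨C', hC'⟩ : ∃ C', C' = (C₁ + 1) * (C₂ * 10 ^ 4 * 10 ^ m) := ⟨_, rfl⟩
  have hC'1 : 1 ≤ C' := by
    rw [hC']
    have h1 : (1 : ℝ) ≤ 10 ^ m := one_le_pow₀ (by norm_num)
    have h2 : (1 : ℝ) ≤ C₂ * 10 ^ 4 * 10 ^ m := by nlinarith
    nlinarith
  obtain ⟨Tm, hTm⟩ : ∃ Tm, Tm = max T₀ T₁ := ⟨_, rfl⟩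
  obtain ⟨δ₀, hδ₀⟩ : ∃ δ₀, δ₀ = min (1 / 10 ^ 4) (min (1 / C' ^ 2) (Real.exp (-(2 * Tm)))) :=
    ⟨_, rfl⟩
  have hδ₀pos : 0 < δ₀ := by
    rw [hδ₀]
    have := Real.exp_pos (-(2 * Tm))
    positivity
  refine ⟨10 ^ 20 * (C₁ + 1), min (min r₁ r₂) (min r₃ (δ₀ / (|Ca| + 1))), by nlinarith,
    by positivity, ?_⟩
  intro J k κ N r hJ hκ hr hF x w hdeep hw01 hwl hws
  simp only [max_le_iff] at hJ
  simp only [le_min_iff] at hκ hr
  obtain ⟨⟨⟨hJ1, hJ2⟩, hJ3, hJ4⟩, hJs, hJ5⟩ := hJ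
  obtain ⟨⟨⟨hk1, hk2⟩, hk3, hk4⟩, ⟨hkε, hkh⟩, hk5⟩ := hκ
  obtain ⟨⟨hr1, hr2⟩, hr3, hr4⟩ := hr
  have hG : Geo κ N.u := hF.geo hJ5 hk5
  have hmabs := hmabs J k κ N r hJ1 hk1 hr1 hF
  have hcacc := hcacc J k κ N r hJ2 hk2 hr2 hF
  obtain ⟨-, -, -, -, hT1, hT5, -, hg0, -, -⟩ := hnum J k κ N r hJ3 hk3 hr3 hF
  obtain ⟨hht, -, -⟩ := hht J k κ Ca N r hJ4 hk4 hF
  have hr0 := hF.r_pos
  have hrle := hF.r_le
  have hδ : 0 < qd N r := hF.wt.d_pos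
  have hδle : qd N r ≤ δ₀ := by
    calc qd N r ≤ Ca * r ^ (k - 1) := hF.wt.d_le
      _ ≤ |Ca| * r ^ (k - 1) := by gcongr; exact le_abs_self _
      _ ≤ |Ca| * r := by
          gcongr
          exact pow_le_of_le_one hr0.le hrle (by have := hF.k_ge; omega)
      _ ≤ (|Ca| + 1) * (δ₀ / (|Ca| + 1)) := by gcongr; linarith
      _ = δ₀ := by field_simp
  rw [hδ₀] at hδle
  simp only [le_min_iff] at hδle
  obtain ⟨hδa, hδb, hδc⟩ := hδle
  have hs0 : 0 < Real.sqrt (qd N r) := Real.sqrt_pos.2 hδ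
  have hss : Real.sqrt (qd N r) * Real.sqrt (qd N r) = qd N r := Real.mul_self_sqrt hδ.le
  have hsq : Real.sqrt (qd N r) ≤ 1 / 100 := by
    rw [Real.sqrt_le_left (by norm_num)]
    refine hδa.trans (le_of_eq (by norm_num))
  have hldef : lam1 N r = Real.sqrt (qd N r) * r / 1000 := rfl
  have hl : 0 < lam1 N r := by rw [hldef]; positivity
  have hl1 : lam1 N r ≤ Real.sqrt (qd N r) / 1000 := by
    rw [hldef]
    gcongr
    exact mul_le_of_le_one_right hs0.le hrle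
  have hA5 : Adm N r x (5 * lam1 N r) :=
    (deep_facts N hG hr0 hδ hdeep).1 (5 * lam1 N r) (by linarith) (by linarith)
  have hB20 : Metric.ball x (20 * lam1 N r) ⊆ Bs N.u r := by
    have := (adm_facts N hG hr0 hA5).1
    rwa [show 4 * (5 * lam1 N r) = 20 * lam1 N r by ring] at this
  obtain ⟨-, -, -, -, -, -, -, -, hBs, -, -⟩ := ker_facts hG hr0
  have hδr : qd N r * r ≤ Real.sqrt (qd N r) * r / 100 := by
    have : Real.sqrt (qd N r) * Real.sqrt (qd N r) * r ≤ Real.sqrt (qd N r) * (1 / 100) * r := by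
      gcongr
    rw [hss] at this
    linarith
  have hD10 := hcacc x (10 * lam1 N r) (by rw [hldef]; linarith) (by positivity)
    (by linarith) (by rwa [show 2 * (10 * lam1 N r) = 20 * lam1 N r by ring])
  have e1 : qd N r * r / (10 * lam1 N r) = 100 * Real.sqrt (qd N r) := by
    rw [div_eq_iff (by positivity), hldef]
    calc qd N r * r = Real.sqrt (qd N r) * Real.sqrt (qd N r) * r := by rw [hss]
      _ = _ := by ring
  have e2 : C₂ * (qd N r * r / (10 * lam1 N r)) ^ 2 * (10 * lam1 N r) ^ m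
      = C₂ * 10 ^ 4 * 10 ^ m * qd N r * lam1 N r ^ m := by
    rw [e1, mul_pow, mul_pow, Real.sq_sqrt hδ.le]
    ring
  rw [e2] at hD10
  have hD10fin : (N.Dm + N.Lm) (Metric.ball x (10 * lam1 N r)) ≠ ⊤ :=
    (hD10.trans_lt ENNReal.ofReal_lt_top).ne
  have htau : N.tau (Metric.ball x (5 * lam1 N r))
      ≤ ENNReal.ofReal (C₁ + 1) * (N.Dm + N.Lm) (Metric.ball x (10 * lam1 N r)) := by
    have h1 := hmabs x (5 * lam1 N r) hA5
    rw [show 2 * (5 * lam1 N r) = 10 * lam1 N r by ring] at h1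
    have h2 : (N.Dm + N.Lm) (Metric.ball x (5 * lam1 N r))
        ≤ (N.Dm + N.Lm) (Metric.ball x (10 * lam1 N r)) :=
      measure_mono (Metric.ball_subset_ball (by linarith))
    calc N.tau (Metric.ball x (5 * lam1 N r))
        = N.Mabs (Metric.ball x (5 * lam1 N r)) + (N.Dm + N.Lm) (Metric.ball x (5 * lam1 N r)) := by
          unfold NCyl.tau
          simp only [Measure.add_apply, add_assoc]
      _ ≤ ENNReal.ofReal C₁ * (N.Dm + N.Lm) (Metric.ball x (10 * lam1 N r))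
          + 1 * (N.Dm + N.Lm) (Metric.ball x (10 * lam1 N r)) := by
          rw [one_mul]; exact add_le_add h1 h2
      _ = _ := by
          rw [← add_mul, ENNReal.ofReal_add (by linarith) zero_le_one, ENNReal.ofReal_one]
  have htaufin : N.tau (Metric.ball x (5 * lam1 N r)) ≠ ⊤ :=
    (htau.trans_lt (ENNReal.mul_lt_top ENNReal.ofReal_lt_top hD10fin.lt_top)).ne
  have ht1 : (N.tau (Metric.ball x (5 * lam1 N r))).toReal
      ≤ (C₁ + 1) * ((N.Dm + N.Lm) (Metric.ball x (10 * lam1 N r))).toReal := by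
    have := ENNReal.toReal_mono (ENNReal.mul_ne_top ENNReal.ofReal_ne_top hD10fin) htau
    rwa [ENNReal.toReal_mul, ENNReal.toReal_ofReal (by linarith)] at this
  have ht2 : ((N.Dm + N.Lm) (Metric.ball x (10 * lam1 N r))).toReal
      ≤ C₂ * 10 ^ 4 * 10 ^ m * qd N r * lam1 N r ^ m :=
    ENNReal.toReal_le_of_le_ofReal (by positivity) hD10
  have ht3 : (N.tau (Metric.ball x (5 * lam1 N r))).toReal ≤ C' * qd N r * lam1 N r ^ m := by
    refine ht1.trans ?_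
    rw [hC']
    calc (C₁ + 1) * ((N.Dm + N.Lm) (Metric.ball x (10 * lam1 N r))).toReal
        ≤ (C₁ + 1) * (C₂ * 10 ^ 4 * 10 ^ m * qd N r * lam1 N r ^ m) := by gcongr
      _ = _ := by ring
  obtain ⟨Tx, hTx1, hTx2, hTx3, hTx4⟩ := csg_core (ρ := ρ) (Tm := Tm) hδ
    (hδa.trans (by norm_num)) hC'1 hδb hδc (pow_pos hl m) ht3 hT1 hT5 hρ0
    (fun T hT => hT₁ T ((hTm ▸ le_max_right T₀ T₁).trans hT)) ENNReal.toReal_nonneg
  have hsup : N.supz (Metric.ball x (5 * lam1 N r)) ≤ qd N r * r := by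
    unfold NCyl.supz
    refine Real.sSup_le ?_ (by positivity)
    rintro t ⟨X, hXs, hXc, hXb, rfl⟩
    exact hht X hXs hXc (hB20 (Metric.ball_subset_ball (by linarith) hXb))
  have hmain := hs N hF.Q_eq (refGraph_mono hF.ref hJs (hk5.trans (by norm_num)) hkε)
    (hF.h_le.trans hkh) x (lam1 N r) Tx hl ((hTm ▸ le_max_left T₀ T₁).trans hTx1)
    (by
      rw [hF.Ω_eq]
      refine (Metric.closedBall_subset_ball (by linarith)).trans (hB20.trans (hBs.trans ?_))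
      exact Metric.ball_subset_ball (by linarith))
    ((ENNReal.le_ofReal_iff_toReal_le htaufin (by positivity)).2 hTx2)
    (by
      refine le_trans ?_ hTx3
      have : Real.sqrt (qd N r) * r / 100 ≤ Real.sqrt (qd N r) / 100 := by
        gcongr
        exact mul_le_of_le_one_right hs0.le hrle
      linarith)
    w hw01 hwl hws
  refine hmain.trans (hTx4.trans ?_)
  have hgT : gT N r = 1 / Real.log (r ^ 2 / qH N r) ^ 20 := rfl
  rw [← hgT]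
  have hD0 : 0 ≤ ((N.Dm + N.Lm) (Metric.ball x (10 * lam1 N r))).toReal := ENNReal.toReal_nonneg
  have hE0 : 0 ≤ qd N r ^ 12 * lam1 N r ^ m := by positivity
  calc 10 ^ 20 * gT N r * ((N.tau (Metric.ball x (5 * lam1 N r))).toReal + qd N r ^ 12 * lam1 N r ^ m)
      ≤ 10 ^ 20 * gT N r * ((C₁ + 1) * ((N.Dm + N.Lm) (Metric.ball x (10 * lam1 N r))).toReal
          + (C₁ + 1) * (qd N r ^ 12 * lam1 N r ^ m)) := by
        have h8 : qd N r ^ 12 * lam1 N r ^ m ≤ (C₁ + 1) * (qd N r ^ 12 * lam1 N r ^ m) :=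
          le_mul_of_one_le_left hE0 (by linarith)
        have h9 : 0 ≤ 10 ^ 20 * gT N r := by positivity
        exact mul_le_mul_of_nonneg_left (add_le_add ht1 h8) h9
    _ = _ := by ring

/-- analytic core of `cell_test` (`d` = depth function). -/
theorem cell_test_aux {χ d : E m → ℝ} {x : E m} {l r Cp : ℝ} (hl0 : 0 < l) (hr : 0 < r) (hCp : 1 ≤ Cp)
    (h0 : ∀ y, 0 ≤ χ y) (h1 : ∀ y, χ y ≤ 1) (hs : ∀ y ∉ Metric.ball x l, χ y = 0)
    (hl : ∀ y y', |χ y - χ y'| ≤ Cp / l * ‖y - y'‖)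
    (hd0 : ∀ y, 0 ≤ d y) (hdl : ∀ y y', |d y - d y'| ≤ 9 / 4 * ‖y - y'‖ / r)
    (hdx : 500 * l / r ≤ d x) (hd2 : ∀ y ∈ Metric.ball x l, d y ≤ 2 * d x) :
    0 < d x ^ 10 ∧
    (∀ y, 0 ≤ χ y * d y ^ 10 / (2 ^ 12 * Cp * d x ^ 10) ∧
      χ y * d y ^ 10 / (2 ^ 12 * Cp * d x ^ 10) ≤ 1) ∧
    (∀ y y', |χ y * d y ^ 10 / (2 ^ 12 * Cp * d x ^ 10) - χ y' * d y' ^ 10 / (2 ^ 12 * Cp * d x ^ 10)|
      ≤ l⁻¹ * ‖y - y'‖) := by
  obtain ⟨D, hD⟩ : ∃ D : ℝ, D = d x := ⟨_, rfl⟩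
  rw [← hD] at hdx hd2 ⊢
  have hD0 : 0 < D := lt_of_lt_of_le (by positivity) hdx
  obtain ⟨P, hP⟩ : ∃ P : ℝ, P = D ^ 10 := ⟨_, rfl⟩
  have hP0 : 0 < P := by rw [hP]; positivity
  rw [← hP]
  have hc0 : 0 < 2 ^ 12 * Cp * P := by positivity
  have hφ : ∀ y ∈ Metric.ball x l, d y ^ 10 ≤ 2 ^ 10 * P := by
    intro y hy
    calc d y ^ 10 ≤ (2 * D) ^ 10 := pow_le_pow_left₀ (hd0 y) (hd2 y hy) 10
      _ = 2 ^ 10 * P := by rw [mul_pow, hP]
  have hCP : P ≤ Cp * P := by nlinarith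
  refine ⟨hP0, fun y => ⟨div_nonneg (mul_nonneg (h0 y) (pow_nonneg (hd0 y) _)) hc0.le, ?_⟩, ?_⟩
  · rw [div_le_one hc0]
    by_cases hy : y ∈ Metric.ball x l
    · calc χ y * d y ^ 10 ≤ 1 * (2 ^ 10 * P) :=
            mul_le_mul (h1 y) (hφ y hy) (pow_nonneg (hd0 y) _) zero_le_one
        _ ≤ 2 ^ 12 * Cp * P := by nlinarith
    · rw [hs y hy, zero_mul]
      exact hc0.le
  · -- one point outside of the cell
    have K1 : ∀ y y', y ∈ Metric.ball x l → χ y' = 0 →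
        |χ y * d y ^ 10 - χ y' * d y' ^ 10| ≤ 2 ^ 12 * Cp * P * (l⁻¹ * ‖y - y'‖) := by
      intro y y' hy hy'
      have h2 := hl y y'
      rw [hy', sub_zero] at h2
      rw [hy', zero_mul, sub_zero, abs_mul, abs_of_nonneg (pow_nonneg (hd0 y) 10)]
      have ht : 0 ≤ ‖y - y'‖ := norm_nonneg _
      calc |χ y| * d y ^ 10 ≤ (Cp / l * ‖y - y'‖) * (2 ^ 10 * P) :=
            mul_le_mul h2 (hφ y hy) (pow_nonneg (hd0 y) _) (by positivity)
        _ = 2 ^ 10 * (Cp * P * (l⁻¹ * ‖y - y'‖)) := by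
            rw [div_eq_mul_inv]; ring
        _ ≤ 2 ^ 12 * (Cp * P * (l⁻¹ * ‖y - y'‖)) := by
            apply mul_le_mul_of_nonneg_right (by norm_num) (by positivity)
        _ = 2 ^ 12 * Cp * P * (l⁻¹ * ‖y - y'‖) := by ring
    have K2 : ∀ y y', y ∈ Metric.ball x l → y' ∈ Metric.ball x l →
        |χ y * d y ^ 10 - χ y' * d y' ^ 10| ≤ 2 ^ 12 * Cp * P * (l⁻¹ * ‖y - y'‖) := by
      intro y y' hy hy'
      obtain ⟨t, ht⟩ : ∃ t : ℝ, t = ‖y - y'‖ := ⟨_, rfl⟩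
      have ht0 : 0 ≤ t := ht ▸ norm_nonneg _
      have e : χ y * d y ^ 10 - χ y' * d y' ^ 10
          = (χ y - χ y') * d y ^ 10 + χ y' * (d y ^ 10 - d y' ^ 10) := by ring
      have a1 : |(χ y - χ y') * d y ^ 10| ≤ 2 ^ 10 * (Cp * P * (l⁻¹ * t)) := by
        rw [abs_mul, abs_of_nonneg (pow_nonneg (hd0 y) 10)]
        calc |χ y - χ y'| * d y ^ 10 ≤ (Cp / l * t) * (2 ^ 10 * P) :=
              mul_le_mul (ht ▸ hl y y') (hφ y hy) (pow_nonneg (hd0 y) _) (by positivity)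
          _ = 2 ^ 10 * (Cp * P * (l⁻¹ * t)) := by rw [div_eq_mul_inv]; ring
      have a2 : |d y ^ 10 - d y' ^ 10| ≤ 2 ^ 10 * (P * (l⁻¹ * t)) := by
        have b1 := abs_pow_sub_pow_le (a := d y) (b := d y') (n := 10)
        have b2 : max |d y| |d y'| ≤ 2 * D := by
          rw [abs_of_nonneg (hd0 y), abs_of_nonneg (hd0 y')]
          exact max_le (hd2 y hy) (hd2 y' hy')
        have b3 : max |d y| |d y'| ^ (10 - 1) ≤ (2 * D) ^ 9 :=
          pow_le_pow_left₀ (le_max_of_le_left (abs_nonneg _)) b2 9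
        have b4 : t / r ≤ t * (D * l⁻¹ / 500) := by
          rw [div_le_iff₀ hr] at hdx ⊢
          have : t * (500 * l) ≤ t * (D * r) := mul_le_mul_of_nonneg_left hdx ht0
          have e2 : t * (D * l⁻¹ / 500) * r = t * (D * r) * (l⁻¹ / 500) := by ring
          have e3 : t = t * (500 * l) * (l⁻¹ / 500) := by field_simp
          rw [e2]
          calc t = t * (500 * l) * (l⁻¹ / 500) := e3
            _ ≤ t * (D * r) * (l⁻¹ / 500) := mul_le_mul_of_nonneg_right this (by positivity)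
        have b5 : |d y - d y'| ≤ 9 / 4 * (t * (D * l⁻¹ / 500)) := by
          have := hdl y y'
          rw [← ht, mul_div_assoc] at this
          linarith
        calc |d y ^ 10 - d y' ^ 10| ≤ |d y - d y'| * (10 : ℕ) * max |d y| |d y'| ^ (10 - 1) := b1
          _ ≤ (9 / 4 * (t * (D * l⁻¹ / 500))) * (10 : ℕ) * (2 * D) ^ 9 := by
              apply mul_le_mul _ b3 (by positivity) (by positivity)
              exact mul_le_mul_of_nonneg_right b5 (by positivity)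
          _ = (9 / 4 * 10 * 2 ^ 9 / 500) * (P * (l⁻¹ * t)) := by
              rw [hP]; push_cast; ring
          _ ≤ 2 ^ 10 * (P * (l⁻¹ * t)) := by
              apply mul_le_mul_of_nonneg_right (by norm_num) (by positivity)
      have a3 : |χ y' * (d y ^ 10 - d y' ^ 10)| ≤ 2 ^ 10 * (Cp * P * (l⁻¹ * t)) := by
        rw [abs_mul, abs_of_nonneg (h0 y')]
        calc χ y' * |d y ^ 10 - d y' ^ 10| ≤ 1 * (2 ^ 10 * (P * (l⁻¹ * t))) :=
              mul_le_mul (h1 y') a2 (abs_nonneg _) zero_le_one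
          _ = 2 ^ 10 * (P * (l⁻¹ * t)) := one_mul _
          _ ≤ 2 ^ 10 * (Cp * P * (l⁻¹ * t)) := by
              apply mul_le_mul_of_nonneg_left _ (by norm_num)
              exact mul_le_mul_of_nonneg_right hCP (by positivity)
      rw [e, ← ht]
      have hX : 0 ≤ Cp * P * (l⁻¹ * t) := by positivity
      calc |(χ y - χ y') * d y ^ 10 + χ y' * (d y ^ 10 - d y' ^ 10)|
          ≤ |(χ y - χ y') * d y ^ 10| + |χ y' * (d y ^ 10 - d y' ^ 10)| := abs_add_le _ _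
        _ ≤ 2 ^ 10 * (Cp * P * (l⁻¹ * t)) + 2 ^ 10 * (Cp * P * (l⁻¹ * t)) := add_le_add a1 a3
        _ ≤ 2 ^ 12 * Cp * P * (l⁻¹ * t) := by nlinarith
    intro y y'
    rw [← sub_div, abs_div, abs_of_pos hc0, div_le_iff₀ hc0, mul_comm (l⁻¹ * ‖y - y'‖)]
    by_cases hy : y ∈ Metric.ball x l
    · by_cases hy' : y' ∈ Metric.ball x l
      · exact K2 y y' hy hy'
      · exact K1 y y' hy (hs y' hy')
    · by_cases hy' : y' ∈ Metric.ball x l
      · have := K1 y' y hy' (hs y hy)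
        rwa [abs_sub_comm, norm_sub_rev] at this
      · rw [hs y hy, hs y' hy']
        simp only [zero_mul, sub_zero, abs_zero]
        positivity

/-- the normalised cell tests (leaf `L-Freq-cell-test`).
PLAN.  `φ_x = φ(x) > 0`.  `χ φ ≤ 2^10 φ_x`; Lipschitz: `|χ φ - (χ φ)'| ≤ (Cp/l) 2^10 φ_x |y - y'| + |φ y - φ y'|` on the cell and
`|φ y - φ y'| ≤ 10 (2 dep x)^9 (9/4)|y - y'|/r`, `dep x ≥ δ^{1/2}/2 = 500 l / r`, so `dep^9/r ≤ φ_x/(500 l)·2^10`; outside of the cell `χ = 0`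
(treat segments leaving the cell by the support property: if `y' ∉ ball x l` then `χ y' = 0` and `|χ y φ y| ≤ (Cp / l)|y - y'| φ y`). -/
theorem cell_test {κ : ℝ} (N : NCyl m n) (hu : Geo κ N.u) {r : ℝ} (hr : 0 < r) (hd : 0 < qd N r) {x : E m} (h : Deep N r x)
    (χ : E m → ℝ) (Cp : ℝ) (hCp : 1 ≤ Cp) (h0 : ∀ y, 0 ≤ χ y) (h1 : ∀ y, χ y ≤ 1)
    (hs : tsupport χ ⊆ Metric.ball x (lam1 N r)) (hl : ∀ y y', |χ y - χ y'| ≤ Cp / lam1 N r * ‖y - y'‖) :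
    0 < phiR N.u r x ∧
    (∀ y, 0 ≤ χ y * phiR N.u r y / (2 ^ 12 * Cp * phiR N.u r x) ∧ χ y * phiR N.u r y / (2 ^ 12 * Cp * phiR N.u r x) ≤ 1) ∧
    (∀ y y', |χ y * phiR N.u r y / (2 ^ 12 * Cp * phiR N.u r x) - χ y' * phiR N.u r y' / (2 ^ 12 * Cp * phiR N.u r x)|
      ≤ (lam1 N r)⁻¹ * ‖y - y'‖) := by
  obtain ⟨hdep01, -, -, hdeplip, -⟩ := ker_facts hu hr
  obtain ⟨-, hdf⟩ := deep_facts N hu hr hd h
  have hsq : 0 < Real.sqrt (qd N r) := Real.sqrt_pos.2 hd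
  have hl0 : 0 < lam1 N r := by unfold lam1; positivity
  have hx20 : x ∈ Metric.ball x (20 * lam1 N r) := Metric.mem_ball_self (by positivity)
  have hsub : Metric.ball x (lam1 N r) ⊆ Metric.ball x (20 * lam1 N r) :=
    Metric.ball_subset_ball (by linarith)
  refine cell_test_aux (d := dep N.u r) hl0 hr hCp h0 h1
    (fun y hy => image_eq_zero_of_notMem_tsupport fun hy' => hy (hs hy')) hl
    (fun y => (hdep01 y).1) hdeplip ?_ (fun y hy => (hdf y (hsub hy) x hx20).2.1)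
  have h2 := (hdf x hx20 x hx20).1
  have e : 500 * lam1 N r / r = Real.sqrt (qd N r) / 2 := by
    unfold lam1
    field_simp
    norm_num
  rw [e]
  exact h2

/-- integrability with respect to a pushed-forward density -/
theorem css_integrable_push {κ' : ℝ} {N' : NCyl m n} (h : FrOK κ' N') {w : E (m + n) → ℝ}
    (hw : AEStronglyMeasurable w N'.μ) (h0 : ∀ X, 0 ≤ w X) {g : E m → ℝ} (hg : Measurable g)
    (hi : Integrable (fun X => g (npr N'.u X) * w X) N'.μ) :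
    Integrable g ((N'.μ.withDensity fun X => ENNReal.ofReal (w X)).map (npr N'.u)) := by
  rw [integrable_map_measure hg.aestronglyMeasurable (h.ok.aemeasurable_npr_wd _),
    integrable_withDensity_iff_integrable_smul₀' hw.aemeasurable.ennreal_ofReal
      (Filter.Eventually.of_forall fun _ => ENNReal.ofReal_lt_top)]
  refine hi.congr (Filter.Eventually.of_forall fun X => ?_)
  simp only [Function.comp, ENNReal.toReal_ofReal (h0 X), smul_eq_mul, mul_comm]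

/-- the overlap property in real numbers -/
theorem css_overlap {Cp : ℝ} {Nov : ℕ} {l R : ℝ} (F : CellFam m Cp Nov l R) (ρ : Measure (E m))
    (A : Set (E m)) (hA : MeasurableSet A) (hfin : ρ A ≠ ⊤) :
    ∑ k ∈ F.ι, (ρ (Metric.ball (gpt m l k) (20 * l) ∩ A)).toReal ≤ Nov * (ρ A).toReal := by
  have h := F.overlap ρ A hA
  have hk : ∀ k ∈ F.ι, ρ (Metric.ball (gpt m l k) (20 * l) ∩ A) ≠ ⊤ := fun k _ =>
    ((measure_mono Set.inter_subset_right).trans_lt hfin.lt_top).ne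
  rw [← ENNReal.toReal_sum hk]
  have := ENNReal.toReal_mono (ENNReal.mul_ne_top (ENNReal.natCast_ne_top _) hfin) h
  rwa [ENNReal.toReal_mul, ENNReal.toReal_natCast] at this

/-- comparison of a constant with a density on a smaller set -/
theorem css_density {ρ : Measure (E m)} {φ : E m → ℝ} {B B' : Set (E m)} {a : ℝ} (ha : 0 ≤ a)
    (hB : MeasurableSet B) (hBB : B ⊆ B')
    (hφ : ∀ y ∈ B, a ≤ 2 ^ 10 * φ y)
    (hfin : (ρ.withDensity fun y => ENNReal.ofReal (φ y)) B' ≠ ⊤) :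
    a * (ρ B).toReal ≤ 2 ^ 10 * ((ρ.withDensity fun y => ENNReal.ofReal (φ y)) B').toReal := by
  have h1 : ENNReal.ofReal (a / 2 ^ 10) * ρ B ≤ (ρ.withDensity fun y => ENNReal.ofReal (φ y)) B' := by
    calc ENNReal.ofReal (a / 2 ^ 10) * ρ B = ∫⁻ _y in B, ENNReal.ofReal (a / 2 ^ 10) ∂ρ := by
          rw [lintegral_const, Measure.restrict_apply_univ]
      _ ≤ ∫⁻ y in B, ENNReal.ofReal (φ y) ∂ρ := by
          refine setLIntegral_mono' hB fun y hy => ENNReal.ofReal_le_ofReal ?_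
          rw [div_le_iff₀ (by positivity), mul_comm]
          exact hφ y hy
      _ = (ρ.withDensity fun y => ENNReal.ofReal (φ y)) B := (withDensity_apply _ hB).symm
      _ ≤ _ := measure_mono hBB
  have h2 := ENNReal.toReal_mono hfin h1
  rw [ENNReal.toReal_mul, ENNReal.toReal_ofReal (by positivity)] at h2
  have : a * (ρ B).toReal = 2 ^ 10 * (a / 2 ^ 10 * (ρ B).toReal) := by field_simp
  rw [this]
  gcongr

/-- final arithmetic of `signed_sum` -/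
theorem css_arith {C CQ K₁ K₂ K₃ IM ID IL g δ r rm : ℝ} (hr : 0 < r) (hrm : 0 < rm) (hg : 0 ≤ g)
    (hδ : 0 ≤ δ) (hID : 0 ≤ ID) (hIL : 0 ≤ IL) (h1 : CQ ≤ C) (h2 : K₁ ≤ C) (h3 : K₂ ≤ C) (h4 : K₃ ≤ C)
    (h : 2 * IM ≤ ID + CQ * IL + K₁ * g * (ID + IL) + K₂ * g * (δ ^ 12 * rm) + K₃ * (δ ^ 5 * rm)) :
    2 * (r ^ 2 * rm⁻¹ * IM) ≤ r ^ 2 * rm⁻¹ * ID + C * r ^ 2 * (rm⁻¹ * IL)
      + C * g * (r ^ 2 * rm⁻¹ * ID + r ^ 2 * (rm⁻¹ * IL) + r ^ 2 * δ ^ 12) + C * r ^ 2 * δ ^ 5 := by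
  have ha : 0 < r ^ 2 * rm⁻¹ := by positivity
  have h5 := mul_le_mul_of_nonneg_left h ha.le
  have e : rm⁻¹ * rm = 1 := inv_mul_cancel₀ hrm.ne'
  obtain ⟨eE, heE⟩ : ∃ eE, eE = r ^ 2 * rm⁻¹ * ID := ⟨_, rfl⟩
  obtain ⟨eL, heL⟩ : ∃ eL, eL = r ^ 2 * rm⁻¹ * IL := ⟨_, rfl⟩
  have hE0 : 0 ≤ eE := by rw [heE]; positivity
  have hL0 : 0 ≤ eL := by rw [heL]; positivity
  have e1 : r ^ 2 * rm⁻¹ * (ID + CQ * IL + K₁ * g * (ID + IL) + K₂ * g * (δ ^ 12 * rm)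
      + K₃ * (δ ^ 5 * rm)) = eE + CQ * eL + K₁ * (g * (eE + eL)) + K₂ * (g * (r ^ 2 * δ ^ 12))
      + K₃ * (r ^ 2 * δ ^ 5) := by
    rw [heE, heL]
    calc _ = r ^ 2 * rm⁻¹ * ID + CQ * (r ^ 2 * rm⁻¹ * IL)
        + K₁ * (g * (r ^ 2 * rm⁻¹ * ID + r ^ 2 * rm⁻¹ * IL))
        + K₂ * (g * (r ^ 2 * δ ^ 12)) * (rm⁻¹ * rm) + K₃ * (r ^ 2 * δ ^ 5) * (rm⁻¹ * rm) := by ring
      _ = _ := by rw [e]; ring
  rw [e1] at h5
  have e2 : r ^ 2 * rm⁻¹ * ID + C * r ^ 2 * (rm⁻¹ * IL)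
      + C * g * (r ^ 2 * rm⁻¹ * ID + r ^ 2 * (rm⁻¹ * IL) + r ^ 2 * δ ^ 12) + C * r ^ 2 * δ ^ 5
      = eE + C * eL + C * (g * (eE + eL)) + C * (g * (r ^ 2 * δ ^ 12)) + C * (r ^ 2 * δ ^ 5) := by
    rw [heE, heL]; ring
  rw [e2]
  have i1 : CQ * eL ≤ C * eL := by gcongr
  have i2 : K₁ * (g * (eE + eL)) ≤ C * (g * (eE + eL)) := by gcongr
  have i3 : K₂ * (g * (r ^ 2 * δ ^ 12)) ≤ C * (g * (r ^ 2 * δ ^ 12)) := by gcongr
  have i4 : K₃ * (r ^ 2 * δ ^ 5) ≤ C * (r ^ 2 * δ ^ 5) := by gcongr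
  have e3 : 2 * (r ^ 2 * rm⁻¹ * IM) = r ^ 2 * rm⁻¹ * (2 * IM) := by ring
  rw [e3]
  linarith

set_option maxHeartbeats 400000 in
/-- **CO (4.15), integrated form** (leaf `L-Freq-cell-sum`).
PLAN.  `intM_cells` with `η = φ`.  Deep cells: `cell_signed` for `w = χ_k φ / (2^12 Cp φ(x_k))` (`cell_test`), multiply by `2^12 Cp φ(x_k)`;
`∑_deep ∫ χ_k φ dD ≤ ∫ φ dD` (`CellFam.sum_le`), same for `Λ`; `φ(x_k) (D + Λ)(ball x_k (10 l)) ≤ 2^10 ∫_{ball x_k (20 l)} φ d(D + Λ)` (`deep_facts`);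
`CellFam.overlap`; `∑_deep l^m ≤ C r^m` (`overlap` for `μH[m]`, `A = ball 0 (2r)`).  Shallow cells: `abs_shallow`. -/
theorem signed_sum (m n Q : ℕ) (hm : 1 ≤ m) (hn : 1 ≤ n) (hQ : 1 ≤ Q) : Unif m n Q (fun C N r =>
    2 * qA N r ≤ qE N r + C * r ^ 2 * qL N r + C * gT N r * (qE N r + r ^ 2 * qL N r + r ^ 2 * qd N r ^ 12)
      + C * r ^ 2 * qd N r ^ 5) := by
  obtain ⟨Cp, Nov, hCp, hfam⟩ := exists_cellFam m
  obtain ⟨CQ, hCQ, J₁, κ₁, hκ₁, hsg⟩ := cell_signed m n Q hm hn hQ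
  obtain ⟨J₂, κ₂, hκ₂, hlin⟩ := intM_cells m n Q
  obtain ⟨J₃, κ₃, hκ₃, hsh⟩ := abs_shallow m n Q
  obtain ⟨J₄, κ₄, hκ₄, hnum⟩ := cell_num m n Q
  obtain ⟨J₅, κ₅, hκ₅, hints⟩ := ints m n Q
  obtain ⟨κ₆, hκ₆, hok⟩ := exists_frOK m n
  refine ⟨max (max (max J₁ J₂) (max J₃ J₄)) (max J₅ 4),
    min (min (min κ₁ κ₂) (min κ₃ κ₄)) (min (min κ₅ κ₆) (1 / 2)), by positivity, fun Ca => ?_⟩
  obtain ⟨C₁, r₁, hC₁, hr₁, hsg⟩ := hsg Ca
  obtain ⟨C₄, r₄, hC₄, hr₄, hnum⟩ := hnum Ca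
  have h2m : (1 : ℝ) ≤ 2 ^ m := one_le_pow₀ (by norm_num)
  have hK₁ : C₁ * (2 ^ 22 * Cp * Nov) ≤ C₁ * (2 ^ 22 * Cp * (Nov + 1) * 2 ^ m) := by
    have : (2 : ℝ) ^ 22 * Cp * Nov ≤ 2 ^ 22 * Cp * (Nov + 1) * 1 := by
      rw [mul_one]; gcongr; linarith
    refine mul_le_mul_of_nonneg_left (this.trans ?_) (by linarith)
    gcongr
  have hK₂ : C₁ * (2 ^ 12 * Cp * (Nov * 2 ^ m)) ≤ C₁ * (2 ^ 22 * Cp * (Nov + 1) * 2 ^ m) := by
    refine mul_le_mul_of_nonneg_left ?_ (by linarith)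
    calc (2 : ℝ) ^ 12 * Cp * (Nov * 2 ^ m) = 2 ^ 12 * Cp * Nov * 2 ^ m := by ring
      _ ≤ 2 ^ 22 * Cp * (Nov + 1) * 2 ^ m := by
          have h22 : (2 : ℝ) ^ 12 ≤ 2 ^ 22 := by norm_num
          have hN1 : (Nov : ℝ) ≤ Nov + 1 := by linarith
          gcongr
  have hK0 : 1 ≤ C₁ * (2 ^ 22 * Cp * (Nov + 1) * 2 ^ m) := by
    have h1 : (1 : ℝ) ≤ (Nov : ℝ) + 1 := by
      have : (0 : ℝ) ≤ Nov := Nat.cast_nonneg _
      linarith
    have h2 : (1 : ℝ) ≤ 2 ^ 22 * Cp := by nlinarith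
    have h3 : (1 : ℝ) ≤ 2 ^ 22 * Cp * (Nov + 1) := by nlinarith
    have h4 : (1 : ℝ) ≤ 2 ^ 22 * Cp * (Nov + 1) * 2 ^ m := by nlinarith
    nlinarith
  have hK3 : (0 : ℝ) ≤ 2 * (Nov * C₄) := by positivity
  refine ⟨CQ + C₁ * (2 ^ 22 * Cp * (Nov + 1) * 2 ^ m) + 2 * (Nov * C₄), min r₁ r₄, by linarith,
    by positivity, ?_⟩
  intro J k κ N r hJ hκ hr hF
  simp only [max_le_iff] at hJ
  simp only [le_min_iff] at hκ hr
  obtain ⟨⟨⟨hJ1, hJ2⟩, hJ3, hJ4⟩, hJ5, hJ6⟩ := hJ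
  obtain ⟨⟨⟨hk1, hk2⟩, hk3, hk4⟩, ⟨hk5, hk6⟩, hk7⟩ := hκ
  obtain ⟨hr1, hr4⟩ := hr
  have hG : Geo κ N.u := hF.geo hJ6 hk7
  have hsg := hsg J k κ N r hJ1 hk1 hr1 hF
  have hlin := hlin J k κ Ca N r hJ2 hk2 hF
  have hsh := hsh J k κ Ca N r hJ3 hk3 hF
  obtain ⟨hn1, hn2, -, -, -, -, -, hg0, hg1, hδg⟩ := hnum J k κ N r hJ4 hk4 hr4 hF
  have hints := hints J k κ Ca N r hJ5 hk5 hF
  have hok := hok Q J k κ Ca N r hJ6 hk6 hF
  have hr0 := hF.r_pos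
  have hδ : 0 < qd N r := hF.wt.d_pos
  have hδ1 : qd N r ≤ 1 := hδg.trans hg1
  have hs0 : 0 < Real.sqrt (qd N r) := Real.sqrt_pos.2 hδ
  have hs1 : Real.sqrt (qd N r) ≤ 1 := Real.sqrt_le_one.2 hδ1
  have hldef : lam1 N r = Real.sqrt (qd N r) * r / 1000 := rfl
  have hl : 0 < lam1 N r := by rw [hldef]; positivity
  have hlr : lam1 N r ≤ r / 1000 := by
    rw [hldef]
    gcongr
    exact mul_le_of_le_one_left hr0.le hs1
  obtain ⟨F⟩ := hfam (lam1 N r) r hl hr0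
  obtain ⟨hdep, hout, -, -, hφC, -, -, hBo, hBs, -, -⟩ := ker_facts hG hr0
  -- the kernel
  have hφ0 : ∀ y, 0 ≤ phiR N.u r y := fun y => pow_nonneg (hdep y).1 10
  have hφ1 : ∀ y, phiR N.u r y ≤ 1 := fun y => pow_le_one₀ (hdep y).1 (hdep y).2
  have hφout : ∀ y ∉ Bs N.u r, phiR N.u r y = 0 := fun y hy => by
    unfold phiR; rw [hout y hy]; norm_num
  have hφm : Measurable (phiR N.u r) := hφC.continuous.measurable
  have hiD : Integrable (phiR N.u r) N.Dm :=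
    css_integrable_push hok hok.ok.aesm_tilt (fun X => tilt_nonneg N.u (N.W.P_proj X) X) hφm hints.iE
  have hiL : Integrable (phiR N.u r) N.Lm :=
    css_integrable_push hok (hok.ok.aesm hok.continuousOn_lam) (tk_lam_nonneg N.u) hφm hints.iL
  have hχm : ∀ k, Measurable (F.χ k) := fun k => (F.smooth k).continuous.measurable
  have hχφ : ∀ k y, |F.χ k y * phiR N.u r y| ≤ phiR N.u r y := fun k y => by
    rw [abs_of_nonneg (mul_nonneg (F.nonneg k y) (hφ0 y))]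
    exact mul_le_of_le_one_left (hφ0 y) (F.le_one k y)
  have hχout : ∀ k, ∀ y ∉ Metric.ball (gpt m (lam1 N r) k) (lam1 N r), F.χ k y = 0 := fun k y hy =>
    image_eq_zero_of_notMem_tsupport fun h => hy (F.supp k h)
  have hiDk : ∀ k, Integrable (fun y => F.χ k y * phiR N.u r y) N.Dm := fun k =>
    hiD.mono' ((hχm k).mul hφm).aestronglyMeasurable (Filter.Eventually.of_forall fun y => hχφ k y)
  have hiLk : ∀ k, Integrable (fun y => F.χ k y * phiR N.u r y) N.Lm := fun k =>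
    hiL.mono' ((hχm k).mul hφm).aestronglyMeasurable (Filter.Eventually.of_forall fun y => hχφ k y)
  -- the weighted measure
  obtain ⟨ρφ, hρφ⟩ : ∃ ρφ : Measure (E m),
      ρφ = (N.Dm + N.Lm).withDensity fun y => ENNReal.ofReal (phiR N.u r y) := ⟨_, rfl⟩
  have hiDL : Integrable (phiR N.u r) (N.Dm + N.Lm) := hiD.add_measure hiL
  have hρuniv : ρφ Set.univ = ∫⁻ y, ENNReal.ofReal (phiR N.u r y) ∂(N.Dm + N.Lm) := by
    rw [hρφ, withDensity_apply _ MeasurableSet.univ, Measure.restrict_univ]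
  have hρfin : ρφ Set.univ ≠ ⊤ := by rw [hρuniv]; exact hiDL.lintegral_lt_top.ne
  have hρreal : (ρφ Set.univ).toReal = ∫ y, phiR N.u r y ∂N.Dm + ∫ y, phiR N.u r y ∂N.Lm := by
    rw [hρuniv, ← integral_add_measure hiD hiL,
      integral_eq_lintegral_of_nonneg_ae (Filter.Eventually.of_forall hφ0) hφm.aestronglyMeasurable]
  -- one cell
  have hcell : ∀ k ∈ F.ι, 2 * N.intM (fun y => F.χ k y * phiR N.u r y)
      ≤ ∫ y, F.χ k y * phiR N.u r y ∂N.Dm + CQ * ∫ y, F.χ k y * phiR N.u r y ∂N.Lm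
        + C₁ * gT N r * (2 ^ 22 * Cp *
            (ρφ (Metric.ball (gpt m (lam1 N r) k) (20 * lam1 N r) ∩ Set.univ)).toReal
          + 2 ^ 12 * Cp * (qd N r ^ 12 * lam1 N r ^ m))
        + 2 * (qd N r ^ 5 * ((N.nu + (Q : ℝ≥0∞) • N.volS)
            (Metric.ball (gpt m (lam1 N r) k) (20 * lam1 N r) ∩ Bs N.u r)).toReal) := by
    intro k _
    have a1 : 0 ≤ ∫ y, F.χ k y * phiR N.u r y ∂N.Dm :=
      integral_nonneg fun y => mul_nonneg (F.nonneg k y) (hφ0 y)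
    have a2 : 0 ≤ ∫ y, F.χ k y * phiR N.u r y ∂N.Lm :=
      integral_nonneg fun y => mul_nonneg (F.nonneg k y) (hφ0 y)
    have a3 : 0 ≤ (ρφ (Metric.ball (gpt m (lam1 N r) k) (20 * lam1 N r) ∩ Set.univ)).toReal :=
      ENNReal.toReal_nonneg
    have a4 : 0 ≤ ((N.nu + (Q : ℝ≥0∞) • N.volS)
        (Metric.ball (gpt m (lam1 N r) k) (20 * lam1 N r) ∩ Bs N.u r)).toReal := ENNReal.toReal_nonneg
    by_cases hdeep : Deep N r (gpt m (lam1 N r) k)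
    · obtain ⟨hφx, hw01, hwl⟩ := cell_test N hG hr0 hδ hdeep (F.χ k) Cp hCp (F.nonneg k) (F.le_one k)
        (F.supp k) (F.lip k)
      obtain ⟨c, hc⟩ : ∃ c, c = 2 ^ 12 * Cp * phiR N.u r (gpt m (lam1 N r) k) := ⟨_, rfl⟩
      rw [← hc] at hw01 hwl
      have hc0 : 0 < c := by rw [hc]; positivity
      have hsupp : Function.support (fun y => F.χ k y * phiR N.u r y / c)
          ⊆ Metric.ball (gpt m (lam1 N r) k) (lam1 N r) := by
        intro y hy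
        by_contra hn
        exact hy (by simp only [hχout k y hn, zero_mul, zero_div])
      have h1 := hsg (gpt m (lam1 N r) k) (fun y => F.χ k y * phiR N.u r y / c) hdeep hw01 hwl hsupp
      have e1 : N.intM (fun y => F.χ k y * phiR N.u r y / c)
          = N.intM (fun y => F.χ k y * phiR N.u r y) / c := by
        unfold NCyl.intM
        rw [integral_div, integral_div]
        ring
      rw [e1, integral_div, integral_div] at h1
      have h2 : 2 * N.intM (fun y => F.χ k y * phiR N.u r y)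
          - ∫ y, F.χ k y * phiR N.u r y ∂N.Dm - CQ * ∫ y, F.χ k y * phiR N.u r y ∂N.Lm
          ≤ c * (C₁ * gT N r * (((N.Dm + N.Lm)
              (Metric.ball (gpt m (lam1 N r) k) (10 * lam1 N r))).toReal
            + qd N r ^ 12 * lam1 N r ^ m)) := by
        have := mul_le_mul_of_nonneg_left h1 hc0.le
        refine le_trans (le_of_eq ?_) this
        field_simp
      have hx20 : gpt m (lam1 N r) k ∈ Metric.ball (gpt m (lam1 N r) k) (20 * lam1 N r) :=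
        Metric.mem_ball_self (by positivity)
      have h3 : phiR N.u r (gpt m (lam1 N r) k) * ((N.Dm + N.Lm)
          (Metric.ball (gpt m (lam1 N r) k) (10 * lam1 N r))).toReal
          ≤ 2 ^ 10 * (ρφ (Metric.ball (gpt m (lam1 N r) k) (20 * lam1 N r) ∩ Set.univ)).toReal := by
        rw [Set.inter_univ, hρφ]
        refine css_density (hφ0 _) measurableSet_ball
          (Metric.ball_subset_ball (by linarith)) (fun y hy => ?_) ?_
        · exact ((deep_facts N hG hr0 hδ hdeep).2 _ hx20 y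
            (Metric.ball_subset_ball (by linarith) hy)).2.2
        · rw [← hρφ]
          exact ((measure_mono (Set.subset_univ _)).trans_lt hρfin.lt_top).ne
      have h4 : c * (((N.Dm + N.Lm) (Metric.ball (gpt m (lam1 N r) k) (10 * lam1 N r))).toReal
            + qd N r ^ 12 * lam1 N r ^ m)
          ≤ 2 ^ 22 * Cp * (ρφ (Metric.ball (gpt m (lam1 N r) k) (20 * lam1 N r) ∩ Set.univ)).toReal
          + 2 ^ 12 * Cp * (qd N r ^ 12 * lam1 N r ^ m) := by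
        rw [hc, mul_add]
        refine add_le_add ?_ ?_
        · calc 2 ^ 12 * Cp * phiR N.u r (gpt m (lam1 N r) k) * ((N.Dm + N.Lm)
                (Metric.ball (gpt m (lam1 N r) k) (10 * lam1 N r))).toReal
              = 2 ^ 12 * Cp * (phiR N.u r (gpt m (lam1 N r) k) * ((N.Dm + N.Lm)
                (Metric.ball (gpt m (lam1 N r) k) (10 * lam1 N r))).toReal) := by ring
            _ ≤ 2 ^ 12 * Cp * (2 ^ 10 *
                (ρφ (Metric.ball (gpt m (lam1 N r) k) (20 * lam1 N r) ∩ Set.univ)).toReal) := by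
                gcongr
            _ = _ := by ring
        · have : 0 ≤ qd N r ^ 12 * lam1 N r ^ m := by positivity
          have h5 : 2 ^ 12 * Cp * phiR N.u r (gpt m (lam1 N r) k) ≤ 2 ^ 12 * Cp * 1 := by
            gcongr
            exact hφ1 _
          rw [mul_one] at h5
          gcongr
      have h6 : c * (C₁ * gT N r * (((N.Dm + N.Lm)
              (Metric.ball (gpt m (lam1 N r) k) (10 * lam1 N r))).toReal
            + qd N r ^ 12 * lam1 N r ^ m))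
          ≤ C₁ * gT N r * (2 ^ 22 * Cp *
            (ρφ (Metric.ball (gpt m (lam1 N r) k) (20 * lam1 N r) ∩ Set.univ)).toReal
          + 2 ^ 12 * Cp * (qd N r ^ 12 * lam1 N r ^ m)) := by
        have : 0 ≤ C₁ * gT N r := by positivity
        calc _ = C₁ * gT N r * (c * (((N.Dm + N.Lm)
              (Metric.ball (gpt m (lam1 N r) k) (10 * lam1 N r))).toReal
            + qd N r ^ 12 * lam1 N r ^ m)) := by ring
          _ ≤ _ := mul_le_mul_of_nonneg_left h4 this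
      have h7 : 0 ≤ 2 * (qd N r ^ 5 * ((N.nu + (Q : ℝ≥0∞) • N.volS)
            (Metric.ball (gpt m (lam1 N r) k) (20 * lam1 N r) ∩ Bs N.u r)).toReal) := by positivity
      linarith
    · have h1 := hsh (gpt m (lam1 N r) k) (fun y => F.χ k y * phiR N.u r y) hdeep
        ((hχm k).mul hφm) (hχφ k) (fun y hy => by simp only [hχout k y hy, zero_mul])
      have h2 := (le_abs_self _).trans h1
      have h3 : 0 ≤ C₁ * gT N r * (2 ^ 22 * Cp *
            (ρφ (Metric.ball (gpt m (lam1 N r) k) (20 * lam1 N r) ∩ Set.univ)).toReal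
          + 2 ^ 12 * Cp * (qd N r ^ 12 * lam1 N r ^ m)) := by positivity
      have h4 : 0 ≤ CQ * ∫ y, F.χ k y * phiR N.u r y ∂N.Lm := by positivity
      linarith
  -- the sums
  have hsumD : ∑ k ∈ F.ι, ∫ y, F.χ k y * phiR N.u r y ∂N.Dm ≤ ∫ y, phiR N.u r y ∂N.Dm := by
    rw [← integral_finsetSum _ fun k _ => hiDk k]
    refine integral_mono (integrable_finsetSum _ fun k _ => hiDk k) hiD fun y => ?_
    simp only [← Finset.sum_mul]
    exact mul_le_of_le_one_left (hφ0 y) (F.sum_le y)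
  have hsumL : ∑ k ∈ F.ι, ∫ y, F.χ k y * phiR N.u r y ∂N.Lm ≤ ∫ y, phiR N.u r y ∂N.Lm := by
    rw [← integral_finsetSum _ fun k _ => hiLk k]
    refine integral_mono (integrable_finsetSum _ fun k _ => hiLk k) hiL fun y => ?_
    simp only [← Finset.sum_mul]
    exact mul_le_of_le_one_left (hφ0 y) (F.sum_le y)
  have hsumρ := css_overlap F ρφ Set.univ MeasurableSet.univ hρfin
  have hsumν := css_overlap F (N.nu + (Q : ℝ≥0∞) • N.volS) (Bs N.u r) hBo.measurableSet hn2.ne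
  have hsuml : ∑ _k ∈ F.ι, lam1 N r ^ m ≤ Nov * 2 ^ m * r ^ m := by
    have h1 := css_overlap F (μH[(m : ℝ)] : Measure (E m)) (Metric.ball 0 (2 * r)) measurableSet_ball
      (by rw [hausdorff_ball m 0 (by positivity)]; exact ENNReal.ofReal_ne_top)
    rw [hausdorff_ball m 0 (by positivity), ENNReal.toReal_ofReal (by have := kap_pos m; positivity)] at h1
    have h2 : ∀ k ∈ F.ι, kap m * lam1 N r ^ m ≤ ((μH[(m : ℝ)] : Measure (E m))
        (Metric.ball (gpt m (lam1 N r) k) (20 * lam1 N r) ∩ Metric.ball 0 (2 * r))).toReal := by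
      intro k hk
      obtain ⟨z, hz1, hz2⟩ := F.meet k hk
      have hsub : Metric.ball (gpt m (lam1 N r) k) (lam1 N r)
          ⊆ Metric.ball (gpt m (lam1 N r) k) (20 * lam1 N r) ∩ Metric.ball 0 (2 * r) := by
        intro y hy
        refine ⟨Metric.ball_subset_ball (by linarith) hy, ?_⟩
        rw [Metric.mem_ball] at hy hz1 hz2 ⊢
        have := dist_triangle y (gpt m (lam1 N r) k) 0
        have := dist_triangle (gpt m (lam1 N r) k) z 0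
        rw [dist_comm] at hz1
        linarith
      have h3 := ENNReal.toReal_mono (((measure_mono Set.inter_subset_right).trans_lt
        (measure_ball_lt_top (μ := (μH[(m : ℝ)] : Measure (E m))) (x := (0 : E m))
          (r := 2 * r))).ne) (measure_mono hsub)
      rwa [hausdorff_ball m _ hl, ENNReal.toReal_ofReal (by have := kap_pos m; positivity)] at h3
    have h4 := (Finset.sum_le_sum h2).trans h1
    rw [← Finset.mul_sum] at h4
    have hk := kap_pos m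
    have h5 : kap m * ∑ _k ∈ F.ι, lam1 N r ^ m ≤ kap m * (Nov * 2 ^ m * r ^ m) := by
      refine h4.trans (le_of_eq ?_)
      rw [mul_pow]; ring
    exact le_of_mul_le_mul_left h5 hk
  have hlin' := hlin Cp Nov (lam1 N r) F (phiR N.u r) 1 hφm
    (fun y => by rw [abs_of_nonneg (hφ0 y)]; exact hφ1 y) hφout
  have htot : 2 * N.intM (phiR N.u r) ≤ ∫ y, phiR N.u r y ∂N.Dm + CQ * ∫ y, phiR N.u r y ∂N.Lm
      + C₁ * (2 ^ 22 * Cp * Nov) * gT N r * (∫ y, phiR N.u r y ∂N.Dm + ∫ y, phiR N.u r y ∂N.Lm)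
      + C₁ * (2 ^ 12 * Cp * (Nov * 2 ^ m)) * gT N r * (qd N r ^ 12 * r ^ m)
      + 2 * (Nov * C₄) * (qd N r ^ 5 * r ^ m) := by
    rw [hlin', Finset.mul_sum]
    refine (Finset.sum_le_sum hcell).trans ?_
    simp only [Finset.sum_add_distrib, ← Finset.mul_sum]
    rw [hρreal] at hsumρ
    have b1 : CQ * ∑ k ∈ F.ι, ∫ y, F.χ k y * phiR N.u r y ∂N.Lm ≤ CQ * ∫ y, phiR N.u r y ∂N.Lm := by
      gcongr
    have hCg : 0 ≤ C₁ * gT N r := by positivity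
    have b2 : C₁ * gT N r * (2 ^ 22 * Cp * ∑ k ∈ F.ι,
          (ρφ (Metric.ball (gpt m (lam1 N r) k) (20 * lam1 N r) ∩ Set.univ)).toReal
        + 2 ^ 12 * Cp * (qd N r ^ 12 * ∑ _k ∈ F.ι, lam1 N r ^ m))
        ≤ C₁ * gT N r * (2 ^ 22 * Cp * (Nov * (∫ y, phiR N.u r y ∂N.Dm + ∫ y, phiR N.u r y ∂N.Lm))
        + 2 ^ 12 * Cp * (qd N r ^ 12 * (Nov * 2 ^ m * r ^ m))) := by
      gcongr
    have b3 : 2 * (qd N r ^ 5 * ∑ k ∈ F.ι, ((N.nu + (Q : ℝ≥0∞) • N.volS)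
            (Metric.ball (gpt m (lam1 N r) k) (20 * lam1 N r) ∩ Bs N.u r)).toReal)
        ≤ 2 * (qd N r ^ 5 * (Nov * (C₄ * r ^ m))) := by
      gcongr
      exact hsumν.trans (by gcongr)
    have e : ∫ y, phiR N.u r y ∂N.Dm + CQ * ∫ y, phiR N.u r y ∂N.Lm
      + C₁ * (2 ^ 22 * Cp * Nov) * gT N r * (∫ y, phiR N.u r y ∂N.Dm + ∫ y, phiR N.u r y ∂N.Lm)
      + C₁ * (2 ^ 12 * Cp * (Nov * 2 ^ m)) * gT N r * (qd N r ^ 12 * r ^ m)
      + 2 * (Nov * C₄) * (qd N r ^ 5 * r ^ m)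
      = ∫ y, phiR N.u r y ∂N.Dm + CQ * ∫ y, phiR N.u r y ∂N.Lm
      + C₁ * gT N r * (2 ^ 22 * Cp * (Nov * (∫ y, phiR N.u r y ∂N.Dm + ∫ y, phiR N.u r y ∂N.Lm))
        + 2 ^ 12 * Cp * (qd N r ^ 12 * (Nov * 2 ^ m * r ^ m)))
      + 2 * (qd N r ^ 5 * (Nov * (C₄ * r ^ m))) := by ring
    rw [e]
    linarith
  exact css_arith hr0 (pow_pos hr0 m) hg0.le hδ.le (integral_nonneg hφ0) (integral_nonneg hφ0)
    (by linarith) (by linarith) (by linarith) (by linarith) htot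

/-- real arithmetic of `signed_est` -/
theorem signed_arith {A E H L g d r C₁ C₂ C₃ : ℝ} (hC₁ : 1 ≤ C₁) (hC₂ : 1 ≤ C₂) (hC₃ : 1 ≤ C₃)
    (hE : 0 ≤ E) (hH : 0 ≤ H) (hr : 0 < r) (hr1 : r ≤ 1) (hd : 0 < d) (hg1 : g ≤ 1) (hdg : d ≤ g)
    (hs : 2 * A ≤ E + C₁ * r ^ 2 * L + C₁ * g * (E + r ^ 2 * L + r ^ 2 * d ^ 12) + C₁ * r ^ 2 * d ^ 5)
    (hL : L ≤ C₂ * (H + d ^ 2 * E))
    (h5 : r ^ 2 * d ^ 5 ≤ C₃ * r ^ 2 * H) (h12 : r ^ 2 * d ^ 12 ≤ H) :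
    2 * A ≤ E + (4 * C₁ * C₂ * C₃) * g * (E + H) + (4 * C₁ * C₂ * C₃) * r ^ 2 * H := by
  have hg0 : 0 < g := hd.trans_le hdg
  have hd1 : d ≤ 1 := hdg.trans hg1
  have hr2 : r ^ 2 ≤ 1 := pow_le_one₀ hr.le hr1
  have hr20 : 0 ≤ r ^ 2 := by positivity
  have hd2 : d ^ 2 ≤ g := by
    calc d ^ 2 = d * d := by ring
      _ ≤ d * 1 := mul_le_mul_of_nonneg_left hd1 hd.le
      _ = d := mul_one _
      _ ≤ g := hdg
  -- r² L ≤ C₂ r² H + C₂ g E
  have hrL : r ^ 2 * L ≤ C₂ * (r ^ 2 * H) + C₂ * (g * E) := by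
    have h1 : r ^ 2 * L ≤ r ^ 2 * (C₂ * (H + d ^ 2 * E)) := mul_le_mul_of_nonneg_left hL hr20
    have h2 : r ^ 2 * (d ^ 2 * E) ≤ 1 * (g * E) :=
      mul_le_mul hr2 (mul_le_mul_of_nonneg_right hd2 hE) (by positivity) zero_le_one
    have h3 : C₂ * (r ^ 2 * (d ^ 2 * E)) ≤ C₂ * (1 * (g * E)) :=
      mul_le_mul_of_nonneg_left h2 (by linarith)
    nlinarith
  have hrL2 : r ^ 2 * L ≤ C₂ * (H + E) := by
    have h1 : r ^ 2 * H ≤ 1 * H := mul_le_mul_of_nonneg_right hr2 hH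
    have h2 : g * E ≤ 1 * E := mul_le_mul_of_nonneg_right hg1 hE
    have h3 : C₂ * (r ^ 2 * H) ≤ C₂ * (1 * H) := mul_le_mul_of_nonneg_left h1 (by linarith)
    have h4 : C₂ * (g * E) ≤ C₂ * (1 * E) := mul_le_mul_of_nonneg_left h2 (by linarith)
    linarith
  obtain ⟨P, hP⟩ : ∃ P, P = g * (E + H) := ⟨_, rfl⟩
  obtain ⟨W, hW⟩ : ∃ W, W = r ^ 2 * H := ⟨_, rfl⟩
  have hP0 : 0 ≤ P := by rw [hP]; positivity
  have hW0 : 0 ≤ W := by rw [hW]; positivity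
  have hgE : g * E ≤ P := by rw [hP]; nlinarith
  -- term 1
  have t1 : C₁ * r ^ 2 * L ≤ C₁ * C₂ * W + C₁ * C₂ * P := by
    have : C₁ * (r ^ 2 * L) ≤ C₁ * (C₂ * W + C₂ * P) := by
      refine mul_le_mul_of_nonneg_left ?_ (by linarith)
      rw [hW]
      have : C₂ * (g * E) ≤ C₂ * P := mul_le_mul_of_nonneg_left hgE (by linarith)
      linarith
    nlinarith
  -- term 2
  have t2 : C₁ * g * (E + r ^ 2 * L + r ^ 2 * d ^ 12) ≤ 2 * C₁ * C₂ * P := by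
    have h1 : E + r ^ 2 * L + r ^ 2 * d ^ 12 ≤ 2 * C₂ * (E + H) := by nlinarith
    have h2 : g * (E + r ^ 2 * L + r ^ 2 * d ^ 12) ≤ g * (2 * C₂ * (E + H)) :=
      mul_le_mul_of_nonneg_left h1 hg0.le
    have h3 : C₁ * (g * (E + r ^ 2 * L + r ^ 2 * d ^ 12)) ≤ C₁ * (g * (2 * C₂ * (E + H))) :=
      mul_le_mul_of_nonneg_left h2 (by linarith)
    rw [hP]
    nlinarith
  -- term 3
  have t3 : C₁ * r ^ 2 * d ^ 5 ≤ C₁ * C₃ * W := by
    have : C₁ * (r ^ 2 * d ^ 5) ≤ C₁ * (C₃ * r ^ 2 * H) := mul_le_mul_of_nonneg_left h5 (by linarith)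
    rw [hW]
    nlinarith
  have hCC : C₁ * C₂ ≤ C₁ * C₂ * C₃ := by
    have : 0 ≤ C₁ * C₂ := by positivity
    nlinarith
  have hCC3 : C₁ * C₃ ≤ C₁ * C₂ * C₃ := by
    have : 0 ≤ C₁ * C₃ := by positivity
    nlinarith
  have e1 : (4 * C₁ * C₂ * C₃) * g * (E + H) = 4 * (C₁ * C₂ * C₃) * P := by rw [hP]; ring
  have e2 : (4 * C₁ * C₂ * C₃) * r ^ 2 * H = 4 * (C₁ * C₂ * C₃) * W := by rw [hW]; ring
  rw [e1, e2]
  have u1 : C₁ * C₂ * W ≤ C₁ * C₂ * C₃ * W := mul_le_mul_of_nonneg_right hCC hW0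
  have u2 : C₁ * C₂ * P ≤ C₁ * C₂ * C₃ * P := mul_le_mul_of_nonneg_right hCC hP0
  have u3 : C₁ * C₃ * W ≤ C₁ * C₂ * C₃ * W := mul_le_mul_of_nonneg_right hCC3 hW0
  have u4 : 0 ≤ C₁ * C₂ * C₃ * W := by positivity
  have u5 : 0 ≤ C₁ * C₂ * C₃ * P := by positivity
  linarith

/-- **CO (4.15).**  (leaf `L-Freq-cell-sgn`: real arithmetic from `signed_sum`, `wcompA`, `cell_num`, `signs`:
`r² qL ≤ C r² H + C δ² E`, `δ² ≤ δ ≤ g`.) -/
theorem signed_est (m n Q : ℕ) (hm : 1 ≤ m) (hn : 1 ≤ n) (hQ : 1 ≤ Q) : Unif m n Q (fun C N r =>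
    2 * qA N r ≤ qE N r + C * gT N r * (qE N r + qH N r) + C * r ^ 2 * qH N r) := by
  obtain ⟨J₁, κ₁, hκ₁, h₁⟩ := signed_sum m n Q hm hn hQ
  obtain ⟨J₂, κ₂, hκ₂, h₂⟩ := wcompA m n Q hm
  obtain ⟨J₃, κ₃, hκ₃, h₃⟩ := cell_num m n Q
  obtain ⟨J₄, κ₄, hκ₄, h₄⟩ := signs m n Q
  refine ⟨max (max J₁ J₂) (max J₃ J₄), min (min κ₁ κ₂) (min κ₃ κ₄), by positivity, fun Ca => ?_⟩
  obtain ⟨C₁, r₁, hC₁, hr₁, h₁⟩ := h₁ Ca
  obtain ⟨C₂, r₂, hC₂, hr₂, h₂⟩ := h₂ Ca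
  obtain ⟨C₃, r₃, hC₃, hr₃, h₃⟩ := h₃ Ca
  refine ⟨4 * C₁ * C₂ * C₃, min (min r₁ r₂) r₃, ?_, by positivity, ?_⟩
  · have h12 : 1 ≤ C₁ * C₂ := by nlinarith
    have h123 : 1 ≤ C₁ * C₂ * C₃ := by nlinarith
    linarith
  intro J k κ N r hJ hκ hrr hF
  have hJ₁ : J₁ ≤ J := ((le_max_left _ _).trans (le_max_left _ _)).trans hJ
  have hJ₂ : J₂ ≤ J := ((le_max_right _ _).trans (le_max_left _ _)).trans hJ
  have hJ₃ : J₃ ≤ J := ((le_max_left _ _).trans (le_max_right _ _)).trans hJ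
  have hJ₄ : J₄ ≤ J := ((le_max_right _ _).trans (le_max_right _ _)).trans hJ
  have hκ₁' : κ ≤ κ₁ := hκ.trans ((min_le_left _ _).trans (min_le_left _ _))
  have hκ₂' : κ ≤ κ₂ := hκ.trans ((min_le_left _ _).trans (min_le_right _ _))
  have hκ₃' : κ ≤ κ₃ := hκ.trans ((min_le_right _ _).trans (min_le_left _ _))
  have hκ₄' : κ ≤ κ₄ := hκ.trans ((min_le_right _ _).trans (min_le_right _ _))
  have hr₁' : r ≤ r₁ := hrr.trans ((min_le_left _ _).trans (min_le_left _ _))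
  have hr₂' : r ≤ r₂ := hrr.trans ((min_le_left _ _).trans (min_le_right _ _))
  have hr₃' : r ≤ r₃ := hrr.trans (min_le_right _ _)
  have hs := h₁ J k κ N r hJ₁ hκ₁' hr₁' hF
  obtain ⟨-, hL⟩ := h₂ J k κ N r hJ₂ hκ₂' hr₂' hF
  obtain ⟨-, -, h5, h12, -, -, -, -, hg1, hdg⟩ := h₃ J k κ N r hJ₃ hκ₃' hr₃' hF
  obtain ⟨hH, hE, -, -, -, -, -, hd⟩ := h₄ J k κ Ca N r hJ₄ hκ₄' hF
  exact signed_arith hC₁ hC₂ hC₃ hE hH.le hF.r_pos hF.r_le hd hg1 hdg hs hL h5 h12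

end Claimed.Agent.R322.Freq
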