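import Claimed.Agent.R322.Freq.Restart

/-!
# CO Proposition 4.5 (uniform comparison at the targets): assembly

Owner: helper109 (package BP-CO4-cover).

`Inputs m n Q α c π` bundles, for ONE admissible parameter tuple `π`, all facts proved in the other files; `inputs_ev` says that
they hold for all parameters chosen in the right order.  Then everything is ordinary mathematics with `π` fixed:

* `bound_of_restart` : exact restart ⟹ `|P| ≤ C₀(π)` and `η (1 + C₀) ≤ 1/4` on the whole interval `[100 b, r_*]`;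
* `bound_of_zero`    : `b = 0` ⟹ the same on the small-radius part of the interval, with constants depending on the start;
* `target_fields`    : bounded frequency ⟹ doubling and a radius with bounded `n_*`, `q_*`;
* `caseA` (one interval extends to zero), `select` + `caseB` (the covering indices tend to infinity) ⟹ `TargetData`.
-/

set_option autoImplicit false

open scoped ENNReal ContDiff
open MeasureTheory Filter Topology

namespace Claimed.Agent.R322.Freq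

open Claimed.Agent.R322.Tube

variable {m n : ℕ}

/-- the uniform frequency bound on late intervals -/
noncomputable def Par.C₀ (π : Par) : ℝ := 15 * π.C₂ ^ 5

/-- the threshold for `δ` which makes `η (1 + C₀) ≤ 1/4` -/
noncomputable def Par.δ₀ (π : Par) (α : ℝ) : ℝ := (4 * π.C₁ * (1 + π.C₀)) ^ (-(1 / α))

/-- numerical relations between the parameters -/
structure Num (m : ℕ) (α : ℝ) (π : Par) : Prop where
  hc_pos : 0 < π.hc
  m₀_pos : 0 < π.m₀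
  m₀_le : π.m₀ ≤ 1
  C₁_ge : 1 ≤ π.C₁
  rs_pos : 0 < π.rs
  rs_le : π.rs ≤ 1 / 4
  C₂_ge : π.C₁ ≤ π.C₂
  /-- `K ≤ C₂` -/
  K_le : 600 * π.C₁ ^ 2 * (1 + m) ≤ π.C₂
  lm_pos : 0 < π.lm
  lm_le : π.lm ≤ 1
  eg_pos : 0 < π.eg
  eg_le : π.eg ≤ 1
  /-- CO (4.20) `F > 10 N_* B_* / r_*` -/
  F_gt : 10 ^ 6 / π.rs < π.F
  /-- `F b < 1/4` -/
  Flm : π.F * π.lm < 1 / 4
  /-- `8 N_* B_* b < r_*` -/
  lm_rs : 8 * 10 ^ 5 * π.lm < π.rs
  /-- makes `P(r_*) ≤ T(r_*)²` -/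
  lm₁ : π.lm ^ 2 * (π.C₂ ^ 3 * Real.exp (5 * π.C₂ ^ 5)) ≤ π.rs ^ 2
  /-- makes `η` small at the radii which are not small -/
  lm₂ : π.lm * π.C₂ ^ 2 ≤ π.δ₀ α ^ 2

/-- all facts about starts with the parameters `π` -/
structure Inputs (m n Q : ℕ) (α c : ℝ) (π : Par) : Prop where
  adm : π.toFitBase.Adm m
  α_pos : 0 < α
  c_pos : 0 < c
  num : Num m α π
  ok : ∀ S : Start m n Q π, (ode S.N π.C₁ α).Ok π.C₁ c m (fitI S.b (4 * π.rs))
  wts : ∀ S : Start m n Q π, ∀ r : ℝ, 0 < r → 100 * S.b ≤ r → r ≤ 4 * π.rs → Wts π S.N r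
  /-- `ode_inward_control` with `e^{τ₀} ≥ r_*` -/
  ode : ∀ (D : OdeData) (I : Set ℝ), I.OrdConnected → D.Ok π.C₁ c m I → (∀ τ ∈ I, τ ≤ Real.log π.rs) →
    (∀ a ∈ I, ∀ τ ∈ I, a ≤ τ → min (D.P a) (-(600 * π.C₁ ^ 2 * (1 + m))) ≤ D.P τ) ∧
    (∀ b, Set.Iic b ⊆ I → Tendsto D.A atBot (𝓝 0) → ∀ τ ≤ b, -(600 * π.C₁ ^ 2 * (1 + m)) ≤ D.P τ) ∧
    (∀ b ∈ I, ∀ τ ∈ I, τ ≤ b → D.P b ≤ D.T b ^ 2 →
      D.P τ ≤ Real.exp 1 * max (600 * π.C₁ ^ 2 * (1 + m)) (D.P b)) ∧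
    (∀ b, Set.Iic b ⊆ I → ∃ τ ≤ b, D.P τ ≤ D.T τ ^ 2)
  geo : ∀ S : Start m n Q π,
    ∀ X, S.In X → ∀ a : ℝ, (∀ x : E m, ‖x‖ < 5 → S.ℓ x ≤ a) → 0 ≤ a → ‖zz S.N.u X‖ ≤ π.C * π.m₀ * a ^ π.k
  tilt : ∀ (S : Start m n Q π) (r d κH : ℝ), 0 < r → 100 * S.b ≤ r → r ≤ 2 * π.rs →
    (∀ X, S.In X → npr S.N.u X ∈ Bs S.N.u (2 * r) → ‖zz S.N.u X‖ ≤ d) →
    (∀ y ∈ Bs S.N.u (2 * r), ‖HS S.N.u y‖ ≤ κH) →
    0 ≤ qE S.N r ∧ 0 ≤ qR S.N r ∧ qE S.N r + qR S.N r ≤ π.C₁ * (d ^ 2 + r ^ 2 * d * κH)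
  inner : ∀ S : Start m n Q π, 0 < S.b → |fP S.N (100 * S.b)| ≤ π.C₂
  oup : ∀ S' S : Start m n Q π, IsRestart S' S →
    (∀ X, S.In X → ‖zz S.N.u X‖ ≤ π.C₂ * h0 π S'.b) ∧
    (∀ y ∈ Metric.ball (0 : E m) 4, ‖HS S.N.u y‖ ≤ π.C₂ * h0 π S'.b)
  olo : ∀ S' S : Start m n Q π, IsRestart S' S → π.C₂⁻¹ * h0 π S'.b ^ 2 ≤ qH S.N π.rs
  two : ∃ b₀ η₀ : ℝ, 0 < b₀ ∧ 0 < η₀ ∧ ∀ S : Start m n Q π, S.b ≤ b₀ →
    Metric.closedBall 0 24000 ⊆ S.N.W.U → S.N.W.ratio 0 24000 ≤ Q + η₀ →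
    ∃ O' : E (m + n) ≃ₗᵢ[ℝ] E (m + n), IsGood (S.N.W.simil 0 2 two_pos O') Q π.eg
  comp : ∀ (s : ℝ) (D : Flat.FlatData m n s), D.Q = Q → ∀ β₀ : ℝ, 0 < β₀ →
    ∀ᶠ i in atTop, ∀ (R : ℝ) (hR : 0 < R) (O : E (m + n) ≃ₗᵢ[ℝ] E (m + n)) (S : Start m n D.Q π),
      S.N.W = D.W.simil 0 R hR O → 100 * β₀ * R ≤ D.L i → D.L i ≤ π.rs / 1000 * R →
      ∀ x : E m, ‖x‖ < 5 → S.ℓ x < β₀

/-- the numerical relations hold for parameters chosen in the right order (leaf `L-Freq-num`: `Ev.pos`, `Ev.rs_lt`, `Ev.F_ge`,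
`Ev.C₂_ge`, `Ev.lm_lt`, `Ev.and`, `Ev.mono`) -/
theorem num_ev (m : ℕ) (α : ℝ) (hα : 0 < α) (B : FitBase) : Ev B (Num m α) := by
  have e0 := Ev.pos B
  have e1 := Ev.rs_lt B (fun _ _ _ _ => 1 / 4) (fun _ _ _ _ => by norm_num)
  have e2 := Ev.F_ge B (fun _ _ _ _ rs => 10 ^ 6 / rs + 1)
  have e3 := Ev.C₂_ge B (fun _ _ _ C₁ _ _ => 600 * C₁ ^ 2 * (1 + m))
  have e4 := Ev.lm_lt B (fun _ _ _ _ _ f _ => 1 / (4 * 2 ^ f)) (fun _ _ _ _ _ f _ => by positivity)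
  have e5 := Ev.lm_lt B (fun _ _ _ _ rs _ _ => if 0 < rs then rs / (8 * 10 ^ 5) else 1)
    (fun _ _ _ _ rs _ _ => by
      split_ifs with h
      · positivity
      · norm_num)
  have e6 := Ev.lm_lt B (fun _ _ _ _ rs _ C₂ =>
      if 0 < rs ∧ 0 < C₂ then rs ^ 2 / (C₂ ^ 3 * Real.exp (5 * C₂ ^ 5)) else 1)
    (fun _ _ _ _ rs _ C₂ => by
      split_ifs with h
      · obtain ⟨h1, h2⟩ := h
        positivity
      · norm_num)
  have e7 := Ev.lm_lt B (fun _ _ _ C₁ _ _ C₂ =>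
      if 0 < C₁ ∧ 0 < C₂ then ((4 * C₁ * (1 + 15 * C₂ ^ 5)) ^ (-(1 / α))) ^ 2 / C₂ ^ 2 else 1)
    (fun _ _ _ C₁ _ _ C₂ => by
      split_ifs with h
      · obtain ⟨h1, h2⟩ := h
        positivity
      · norm_num)
  refine (((((((e0.and e1).and e2).and e3).and e4).and e5).and e6).and e7).mono ?_
  rintro π - ⟨⟨⟨⟨⟨⟨⟨h0, h1⟩, h2⟩, h3⟩, h4⟩, h5⟩, h6⟩, h7⟩
  obtain ⟨hhc, -, hm0, hm01, hC1, hrs, -, hC2, hC12, hlm, hlm1, heg, heg1⟩ := h0
  have hC1' : 0 < π.C₁ := by linarith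
  have hC2' : 0 < π.C₂ := by linarith
  rw [if_pos hrs] at h5
  rw [if_pos ⟨hrs, hC2'⟩] at h6
  rw [if_pos ⟨hC1', hC2'⟩] at h7
  have hF : 0 < (2 : ℝ) ^ π.f := by positivity
  refine ⟨hhc, hm0, hm01, hC1, hrs, h1.le, hC12, h3, hlm, hlm1, heg, heg1, by linarith, ?_, ?_, ?_, ?_⟩
  · unfold Par.F
    rw [lt_div_iff₀ (by positivity)] at h4
    linarith
  · rw [lt_div_iff₀ (by positivity)] at h5
    linarith
  · rw [lt_div_iff₀ (by positivity)] at h6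
    have hX : 0 < π.C₂ ^ 3 * Real.exp (5 * π.C₂ ^ 5) := by positivity
    have h8 : π.lm ^ 2 ≤ π.lm := by nlinarith
    have h9 := mul_le_mul_of_nonneg_right h8 hX.le
    linarith
  · rw [lt_div_iff₀ (by positivity)] at h7
    unfold Par.δ₀ Par.C₀
    exact h7.le

/-- `r_*` is below the threshold of the ODE lemma (leaf `L-Freq-ode-ev`: `ode_inward_control π.C₁ c m` gives `τ₀(C₁)`;
`Ev.rs_lt` with `a = exp (τ₀ C₁)`; `Ev.pos`) -/
theorem ode_ev (m : ℕ) (c : ℝ) (hc : 0 < c) (B : FitBase) :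
    Ev B (fun π => ∀ (D : OdeData) (I : Set ℝ), I.OrdConnected → D.Ok π.C₁ c m I →
      (∀ τ ∈ I, τ ≤ Real.log π.rs) →
      (∀ a ∈ I, ∀ τ ∈ I, a ≤ τ → min (D.P a) (-(600 * π.C₁ ^ 2 * (1 + m))) ≤ D.P τ) ∧
      (∀ b, Set.Iic b ⊆ I → Tendsto D.A atBot (𝓝 0) → ∀ τ ≤ b, -(600 * π.C₁ ^ 2 * (1 + m)) ≤ D.P τ) ∧
      (∀ b ∈ I, ∀ τ ∈ I, τ ≤ b → D.P b ≤ D.T b ^ 2 →
        D.P τ ≤ Real.exp 1 * max (600 * π.C₁ ^ 2 * (1 + m)) (D.P b)) ∧
      (∀ b, Set.Iic b ⊆ I → ∃ τ ≤ b, D.P τ ≤ D.T τ ^ 2)) := by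
  classical
  have e0 := Ev.pos B
  have e1 := Ev.rs_lt B (fun _ _ _ C₁ => Real.exp (if h : 1 ≤ C₁ then
      Classical.choose (ode_inward_control C₁ c m h hc (Nat.cast_nonneg m)) else 0))
    (fun _ _ _ _ => Real.exp_pos _)
  refine (e0.and e1).mono ?_
  rintro π - ⟨h0, h1⟩ D I hI hO hle
  have hC : 1 ≤ π.C₁ := h0.2.2.2.2.1
  have hrs : 0 < π.rs := h0.2.2.2.2.2.1
  rw [dif_pos hC] at h1
  have hs := (Classical.choose_spec (ode_inward_control π.C₁ c m hC hc (Nat.cast_nonneg m))).2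
  refine hs D I hI hO fun τ hτ => (hle τ hτ).trans ?_
  rw [Real.log_le_iff_le_exp hrs]
  exact h1.le

/-- **All inputs hold for parameters chosen in the right order.** -/
theorem inputs_ev (m n Q : ℕ) (hm : 1 ≤ m) (hn : 1 ≤ n) (hQ : 1 ≤ Q) :
    ∃ (J₁ : ℕ) (α c : ℝ), ∀ B : FitBase, J₁ ≤ B.J → B.Adm m → Ev B (Inputs m n Q α c) := by
  obtain ⟨J₁, α, c, hα, hc, h₁⟩ := freq_ok m n Q hm hn hQ
  obtain ⟨J₂, h₂⟩ := weights m n Q hm hn hQ
  obtain ⟨J₃, h₃⟩ := tilt_bound m n Q hm hn hQ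
  obtain ⟨J₄, h₄⟩ := inner_bound m n Q hm hn hQ
  obtain ⟨J₅, h₅⟩ := outer_upper m n Q hm hn hQ
  obtain ⟨J₆, h₆⟩ := outer_lower m n Q hm hn hQ
  obtain ⟨J₇, h₇⟩ := two_good m n Q hm hn hQ
  refine ⟨J₁ + J₂ + J₃ + J₄ + J₅ + J₆ + J₇ + 4, α, c, fun B hJ hB => ?_⟩
  have e₁ := h₁ B (by omega) hB
  have e₂ := h₂ B (by omega) hB
  have e₃ := h₃ B (by omega) hB
  have e₄ := h₄ B (by omega) hB
  have e₅ := h₅ B (by omega) hB
  have e₆ := h₆ B (by omega) hB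
  have e₇ := h₇ B (by omega) hB
  have e₈ := fail_of_comparable m n Q hm hn hQ B hB
  have e₉ := start_geo (n := n) (Q := Q) hm B hB (by omega)
  have e₁₀ := num_ev m α hα B
  have e₁₁ := ode_ev m c hc B
  refine ((((((((((e₁.and e₂).and e₃).and e₄).and e₅).and e₆).and e₇).and e₈).and e₉).and e₁₀).and e₁₁).mono ?_
  rintro π hπ ⟨⟨⟨⟨⟨⟨⟨⟨⟨⟨a₁, a₂⟩, a₃⟩, a₄⟩, a₅⟩, a₆⟩, a₇⟩, a₈⟩, a₉⟩, a₁₀⟩, a₁₁⟩
  exact ⟨hπ ▸ hB, hα, hc, a₁₀, a₁, a₂, a₁₁, fun S => (a₉ S).2.2.2.2, a₃, a₄, a₅, a₆, a₇, a₈⟩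

/-! ### frequency bounds on one interval (`π` fixed) -/

section fixed

variable {Q : ℕ} {α c : ℝ} {π : Par}

/-! #### helpers (helper269) -/

theorem cov_ode_P (N : NCyl m n) (C a τ : ℝ) :
    (ode N C a).P τ = qA N (Real.exp τ) / qH N (Real.exp τ) := rfl

theorem cov_ode_n (N : NCyl m n) (C a τ : ℝ) :
    (ode N C a).n τ = qE N (Real.exp τ) / qH N (Real.exp τ) := rfl

theorem cov_ode_q (N : NCyl m n) (C a τ : ℝ) :
    (ode N C a).q τ = qR N (Real.exp τ) / qH N (Real.exp τ) := rfl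

theorem cov_ode_T (N : NCyl m n) (C a τ : ℝ) :
    (ode N C a).T τ = 2 * τ - Real.log (qH N (Real.exp τ)) := rfl

theorem cov_ode_η (N : NCyl m n) (C a τ : ℝ) :
    (ode N C a).η τ = C * qd N (Real.exp τ) ^ a := rfl

theorem cov_ode_H (N : NCyl m n) (C a τ : ℝ) : (ode N C a).H τ = qH N (Real.exp τ) := rfl

theorem cov_ode_A (N : NCyl m n) (C a τ : ℝ) : (ode N C a).A τ = qA N (Real.exp τ) := rfl

/-- `|y| ≤ ρ(y)` -/
theorem cov_norm_le_rho (u : E m → E n) (y : E m) : ‖y‖ ≤ rho u y := by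
  have hr : 0 ≤ rho u y := norm_nonneg _
  have h : rho u y ^ 2 = ‖y‖ ^ 2 + ‖u y - u 0‖ ^ 2 := by
    unfold rho Fg
    rw [← mkHV_sub, norm_sq_mkHV, sub_zero]
  have h1 : ‖y‖ ^ 2 ≤ rho u y ^ 2 := by
    rw [h]
    nlinarith [sq_nonneg ‖u y - u 0‖]
  exact (pow_le_pow_iff_left₀ (norm_nonneg _) hr two_ne_zero).1 h1

theorem cov_supz_le {S : Start m n Q π} {d : ℝ} (hd : 0 ≤ d) (h : ∀ X, S.In X → ‖zz S.N.u X‖ ≤ d)
    (A : Set (E m)) : S.N.supz A ≤ d := by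
  unfold NCyl.supz
  refine Real.sSup_le ?_ hd
  rintro t ⟨X, hX, hC, -, rfl⟩
  refine h X ⟨hX, ?_⟩
  rw [S.N_Ω, S.N_h] at hC
  exact hC

theorem cov_eta_small {C₁ C₀ a δ : ℝ} (hC₁ : 0 < C₁) (hC₀ : 0 ≤ C₀) (ha : 0 < a) (hδ : 0 ≤ δ)
    (h : δ ≤ (4 * C₁ * (1 + C₀)) ^ (-(1 / a))) : C₁ * δ ^ a * (1 + C₀) ≤ 1 / 4 := by
  have hX : 0 < 4 * C₁ * (1 + C₀) := by positivity
  have h1 : δ ^ a ≤ ((4 * C₁ * (1 + C₀)) ^ (-(1 / a))) ^ a := Real.rpow_le_rpow hδ h ha.le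
  have h2 : ((4 * C₁ * (1 + C₀)) ^ (-(1 / a))) ^ a = (4 * C₁ * (1 + C₀))⁻¹ := by
    rw [← Real.rpow_mul hX.le]
    have : -(1 / a) * a = -1 := by field_simp
    rw [this, Real.rpow_neg_one]
  rw [h2] at h1
  have h3 : C₁ * δ ^ a * (1 + C₀) = δ ^ a * (C₁ * (1 + C₀)) := by ring
  rw [h3]
  calc δ ^ a * (C₁ * (1 + C₀)) ≤ (4 * C₁ * (1 + C₀))⁻¹ * (C₁ * (1 + C₀)) :=
        mul_le_mul_of_nonneg_right h1 (by positivity)
    _ = 1 / 4 := by field_simp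

theorem cov_h0 (hN : Num m α π) (hk : 2 ≤ π.k) {b' : ℝ} (hb' : 0 < b') (hle : b' ≤ π.lm) :
    0 < h0 π b' ∧ h0 π b' ≤ π.lm := by
  have hF : 1 ≤ π.F := one_le_pow₀ (by norm_num)
  have hFb : 0 < π.F * b' := by positivity
  have hm₀ := hN.m₀_pos
  constructor
  · unfold h0
    positivity
  · unfold h0
    rw [div_le_iff₀ hFb]
    have hb1 : b' ≤ 1 := hle.trans hN.lm_le
    have h1 : b' ^ π.k ≤ b' ^ 2 := pow_le_pow_of_le_one hb'.le hb1 hk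
    have h2 : π.m₀ * b' ^ π.k ≤ 1 * b' ^ 2 := mul_le_mul hN.m₀_le h1 (by positivity) (by norm_num)
    have h3 : b' * b' ≤ π.lm * b' := mul_le_mul_of_nonneg_right hle hb'.le
    have h4 : π.lm * b' ≤ π.lm * (π.F * b') := by
      apply mul_le_mul_of_nonneg_left _ hN.lm_pos.le
      nlinarith
    nlinarith

/-- numerics at the outer endpoint -/
theorem cov_outer_num {C₁ C₂ rs lm h₀ Ee Rr H P η δ : ℝ} (hC₁ : 1 ≤ C₁) (hC₁₂ : C₁ ≤ C₂) (hrs0 : 0 < rs)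
    (hrs1 : rs ≤ 1) (hh0 : 0 < h₀) (hh0le : h₀ ≤ lm)
    (hlm₁ : lm ^ 2 * (C₂ ^ 3 * Real.exp (5 * C₂ ^ 5)) ≤ rs ^ 2)
    (hE : 0 ≤ Ee) (hR : 0 ≤ Rr) (hER : Ee + Rr ≤ C₁ * ((C₂ * h₀) ^ 2 + rs ^ 2 * (C₂ * h₀) * (C₂ * h₀)))
    (hH : C₂⁻¹ * h₀ ^ 2 ≤ H) (hη0 : 0 ≤ η) (hη : η ≤ C₁)
    (habs : |P| ≤ C₁ * (Ee / H + rs ^ 2) + η * (Rr / H))
    (hHhi : H / rs ^ 2 ≤ C₁ * δ ^ 2) (hδ0 : 0 ≤ δ) (hδ : δ * rs ≤ C₂ * h₀) :
    |P| ≤ 5 * C₂ ^ 5 ∧ 5 * C₂ ^ 5 ≤ 2 * Real.log rs - Real.log H := by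
  have hC₂ : 1 ≤ C₂ := hC₁.trans hC₁₂
  have hC₂0 : 0 < C₂ := by linarith
  have hC₁0 : 0 < C₁ := by linarith
  have hHpos : 0 < H := lt_of_lt_of_le (by positivity) hH
  have hrs2 : rs ^ 2 ≤ 1 := pow_le_one₀ hrs0.le hrs1
  have hX : 0 ≤ C₁ * C₂ ^ 2 * h₀ ^ 2 := by positivity
  have hER' : Ee + Rr ≤ 2 * C₁ * C₂ ^ 3 * (C₂⁻¹ * h₀ ^ 2) := by
    have h1 : 2 * C₁ * C₂ ^ 3 * (C₂⁻¹ * h₀ ^ 2) = 2 * (C₁ * C₂ ^ 2 * h₀ ^ 2) := by
      field_simp
    have h2 : C₁ * ((C₂ * h₀) ^ 2 + rs ^ 2 * (C₂ * h₀) * (C₂ * h₀))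
        = C₁ * C₂ ^ 2 * h₀ ^ 2 + rs ^ 2 * (C₁ * C₂ ^ 2 * h₀ ^ 2) := by ring
    have h3 := mul_le_mul_of_nonneg_right hrs2 hX
    rw [h1]
    linarith
  have hM : 0 ≤ 2 * C₁ * C₂ ^ 3 := by positivity
  have hER'' : Ee + Rr ≤ 2 * C₁ * C₂ ^ 3 * H := hER'.trans (mul_le_mul_of_nonneg_left hH hM)
  have hn : Ee / H ≤ 2 * C₁ * C₂ ^ 3 := by
    rw [div_le_iff₀ hHpos]
    linarith
  have hq : Rr / H ≤ 2 * C₁ * C₂ ^ 3 := by
    rw [div_le_iff₀ hHpos]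
    linarith
  have hq0 : 0 ≤ Rr / H := div_nonneg hR hHpos.le
  have hp5 : C₁ ^ 2 * C₂ ^ 3 ≤ C₂ ^ 5 := by
    have h1 : C₁ ^ 2 ≤ C₂ ^ 2 := pow_le_pow_left₀ hC₁0.le hC₁₂ 2
    have h2 := mul_le_mul_of_nonneg_right h1 (by positivity : (0 : ℝ) ≤ C₂ ^ 3)
    calc C₁ ^ 2 * C₂ ^ 3 ≤ C₂ ^ 2 * C₂ ^ 3 := h2
      _ = C₂ ^ 5 := by ring
  have hp1 : C₂ ≤ C₂ ^ 5 := le_self_pow₀ hC₂ (by norm_num)
  constructor
  · have h1 : C₁ * (Ee / H + rs ^ 2) ≤ C₁ * (2 * C₁ * C₂ ^ 3 + 1) :=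
      mul_le_mul_of_nonneg_left (by linarith) hC₁0.le
    have h2 : η * (Rr / H) ≤ C₁ * (2 * C₁ * C₂ ^ 3) := mul_le_mul hη hq hq0 hC₁0.le
    have h3 : C₁ * (2 * C₁ * C₂ ^ 3 + 1) + C₁ * (2 * C₁ * C₂ ^ 3) = 4 * (C₁ ^ 2 * C₂ ^ 3) + C₁ := by ring
    linarith
  · have hlm0 : 0 < lm := lt_of_lt_of_le hh0 hh0le
    have h1 : H ≤ C₁ * δ ^ 2 * rs ^ 2 := by
      rwa [div_le_iff₀ (by positivity)] at hHhi
    have h2 : (δ * rs) ^ 2 ≤ (C₂ * lm) ^ 2 :=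
      pow_le_pow_left₀ (by positivity) (hδ.trans (mul_le_mul_of_nonneg_left hh0le hC₂0.le)) 2
    have h3 : H ≤ C₂ ^ 3 * lm ^ 2 := by
      have h4 : C₁ * (δ * rs) ^ 2 ≤ C₂ * (C₂ * lm) ^ 2 := mul_le_mul hC₁₂ h2 (by positivity) hC₂0.le
      calc H ≤ C₁ * δ ^ 2 * rs ^ 2 := h1
        _ = C₁ * (δ * rs) ^ 2 := by ring
        _ ≤ C₂ * (C₂ * lm) ^ 2 := h4
        _ = C₂ ^ 3 * lm ^ 2 := by ring
    have h5 : H * Real.exp (5 * C₂ ^ 5) ≤ rs ^ 2 := by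
      have := mul_le_mul_of_nonneg_right h3 (Real.exp_pos (5 * C₂ ^ 5)).le
      calc H * Real.exp (5 * C₂ ^ 5) ≤ C₂ ^ 3 * lm ^ 2 * Real.exp (5 * C₂ ^ 5) := this
        _ = lm ^ 2 * (C₂ ^ 3 * Real.exp (5 * C₂ ^ 5)) := by ring
        _ ≤ rs ^ 2 := hlm₁
    have h6 := Real.log_le_log (by positivity) h5
    rw [Real.log_mul hHpos.ne' (Real.exp_pos _).ne', Real.log_exp, Real.log_pow] at h6
    push_cast at h6
    linarith

theorem cov_Bs_measurable {u : E m → E n} (hu : Continuous u) (r : ℝ) : MeasurableSet (Bs u r) := by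
  have h : Continuous (rho u) := by
    unfold rho Fg
    simp only [mkHV_eq]
    fun_prop
  exact (isOpen_lt h continuous_const).measurableSet

theorem cov_phiR_bd (u : E m → E n) {r : ℝ} (hr : 0 < r) (y : E m) :
    |phiR u r y| ≤ 1 ∧ (y ∉ Bs u r → phiR u r y = 0) := by
  have h0 : 0 ≤ dep u r y := le_max_left _ _
  have h1 : dep u r y ≤ 1 := by
    have : 0 ≤ rho u y ^ 2 / r ^ 2 := by positivity
    exact max_le zero_le_one (by linarith)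
  constructor
  · unfold phiR
    rw [abs_of_nonneg (by positivity)]
    exact pow_le_one₀ h0 h1
  · intro hy
    have hy' : r ≤ rho u y := not_lt.1 hy
    have h2 : dep u r y = 0 := by
      unfold dep
      apply max_eq_left
      have : 1 ≤ rho u y ^ 2 / r ^ 2 := by
        rw [le_div_iff₀ (by positivity)]
        nlinarith
      linarith
    unfold phiR
    rw [h2]
    norm_num

theorem cov_abs_integral_le {X : Type*} [MeasurableSpace X] (μ : Measure X) (f : X → ℝ) (s : Set X)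
    {M : ℝ} (hM : 0 ≤ M) (hμ : μ s ≤ ENNReal.ofReal M) (hf : ∀ x, |f x| ≤ 1)
    (hf0 : ∀ x, x ∉ s → f x = 0) : |∫ x, f x ∂μ| ≤ M := by
  rw [← setIntegral_eq_integral_of_forall_compl_eq_zero hf0]
  have hfin : μ s < ⊤ := lt_of_le_of_lt hμ ENNReal.ofReal_lt_top
  have h := norm_setIntegral_le_of_norm_le_const (μ := μ) (s := s) (f := f) (C := 1) hfin
    (fun x _ => by simpa using hf x)
  rw [Real.norm_eq_abs] at h
  refine h.trans ?_
  rw [one_mul]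
  exact ENNReal.toReal_le_of_le_ofReal hM hμ

theorem cov_nu_le (N : NCyl m n) {A : Set (E m)} (hA : MeasurableSet A) :
    N.nu A ≤ N.μ {X | npr N.u X ∈ A} := by
  unfold NCyl.nu
  by_cases h : AEMeasurable (npr N.u) N.μ
  · rw [Measure.map_apply_of_aemeasurable h hA]
    rfl
  · rw [Measure.map_of_not_aemeasurable h]
    simp

theorem cov_continuous_vdens : Continuous (vdens : (E m →L[ℝ] E n) → ℝ) := by
  unfold vdens gmat
  refine Real.continuous_sqrt.comp (ContinuousLinearMap.continuous_det.comp ?_)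
  exact continuous_const.add ((ContinuousLinearMap.adjoint.continuous).clm_comp continuous_id)

theorem cov_volS_le (N : NCyl m n) {Cv : ℝ} (hv : ∀ y, vdens (fderiv ℝ N.u y) ≤ Cv) {r : ℝ} (hr : 0 < r)
    {A : Set (E m)} (hA : MeasurableSet A) (hAr : A ⊆ Metric.ball 0 r) :
    N.volS A ≤ ENNReal.ofReal (Cv * (kap m * r ^ m)) := by
  have hCv0 : 0 ≤ Cv := (Real.sqrt_nonneg _).trans (hv 0)
  unfold NCyl.volS
  rw [withDensity_apply _ hA]
  calc ∫⁻ y in A, ENNReal.ofReal (vdens (fderiv ℝ N.u y)) ∂(μH[(m : ℝ)]).restrict N.Ω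
      ≤ ∫⁻ _y in A, ENNReal.ofReal Cv ∂(μH[(m : ℝ)]).restrict N.Ω :=
        lintegral_mono fun y => ENNReal.ofReal_le_ofReal (hv y)
    _ = ENNReal.ofReal Cv * ((μH[(m : ℝ)]).restrict N.Ω) A := by
        rw [lintegral_const, Measure.restrict_apply_univ]
    _ ≤ ENNReal.ofReal Cv * (μH[(m : ℝ)] : Measure (E m)) (Metric.ball (0 : E m) r) := by
        gcongr ENNReal.ofReal Cv * ?_
        exact (Measure.restrict_le_self A).trans (measure_mono hAr)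
    _ = ENNReal.ofReal (Cv * (kap m * r ^ m)) := by
        rw [hausdorff_ball m 0 hr, ← ENNReal.ofReal_mul hCv0]

theorem cov_qA_tendsto (hI : Inputs m n Q α c π) (S : Start m n Q π) (hb : S.b = 0) :
    Tendsto (ode S.N π.C₁ α).A atBot (𝓝 0) := by
  have hN := hI.num
  have hC₁0 : 0 ≤ π.C₁ := by linarith [hN.C₁_ge]
  obtain ⟨Cv, hCv⟩ : ∃ Cv : ℝ, ∀ y, vdens (fderiv ℝ S.N.u y) ≤ Cv := by
    obtain ⟨C, hC⟩ := (isCompact_closedBall (0 : E m →L[ℝ] E n) (π.C * π.m₀)).exists_bound_of_continuousOn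
      cov_continuous_vdens.continuousOn
    refine ⟨C, fun y => (le_abs_self _).trans (hC _ ?_)⟩
    rw [mem_closedBall_zero_iff]
    exact S.ref.slope y
  have hCv0 : 0 ≤ Cv := (Real.sqrt_nonneg _).trans (hCv 0)
  have hkap : 0 ≤ kap m := ENNReal.toReal_nonneg
  have hu : Continuous S.N.u := S.ref.smooth.continuous
  have hbound : ∀ τ : ℝ, τ ≤ Real.log π.rs →
      ‖(ode S.N π.C₁ α).A τ‖ ≤ (π.C₁ + S.N.Q * (Cv * kap m)) * Real.exp τ ^ 2 := by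
    intro τ hτ
    rw [cov_ode_A, Real.norm_eq_abs]
    generalize hr : Real.exp τ = r
    have hr0 : 0 < r := hr ▸ Real.exp_pos τ
    have hrle : r ≤ π.rs := hr ▸ (Real.le_log_iff_exp_le hN.rs_pos).1 hτ
    have hW := hI.wts S r hr0 (by rw [hb]; linarith) (by linarith [hN.rs_pos])
    have hmB := cov_Bs_measurable hu r
    have h1 : |∫ y, phiR S.N.u r y ∂S.N.nu| ≤ π.C₁ * r ^ m :=
      cov_abs_integral_le _ _ (Bs S.N.u r) (by positivity) ((cov_nu_le S.N hmB).trans (Wt.mass hW))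
        (fun y => (cov_phiR_bd _ hr0 y).1) (fun y => (cov_phiR_bd _ hr0 y).2)
    have h2 : |∫ y, phiR S.N.u r y ∂S.N.volS| ≤ Cv * (kap m * r ^ m) :=
      cov_abs_integral_le _ _ (Bs S.N.u r) (by positivity)
        (cov_volS_le S.N hCv hr0 hmB (fun y hy => by
          rw [Metric.mem_ball, dist_zero_right]
          exact lt_of_le_of_lt (cov_norm_le_rho _ y) hy))
        (fun y => (cov_phiR_bd _ hr0 y).1) (fun y => (cov_phiR_bd _ hr0 y).2)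
    unfold qA NCyl.intM
    have hrm : 0 < r ^ m := by positivity
    have hQ0 : (0 : ℝ) ≤ S.N.Q := Nat.cast_nonneg _
    have h3 : |∫ y, phiR S.N.u r y ∂S.N.nu - S.N.Q * ∫ y, phiR S.N.u r y ∂S.N.volS|
        ≤ (π.C₁ + S.N.Q * (Cv * kap m)) * r ^ m := by
      have h4 := abs_sub (∫ y, phiR S.N.u r y ∂S.N.nu) (S.N.Q * ∫ y, phiR S.N.u r y ∂S.N.volS)
      rw [abs_mul, abs_of_nonneg hQ0] at h4
      have h5 := mul_le_mul_of_nonneg_left h2 hQ0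
      calc _ ≤ _ := h4
        _ ≤ π.C₁ * r ^ m + S.N.Q * (Cv * (kap m * r ^ m)) := add_le_add h1 h5
        _ = _ := by ring
    rw [abs_mul, abs_of_nonneg (by positivity : 0 ≤ r ^ 2 * (r ^ m)⁻¹)]
    calc r ^ 2 * (r ^ m)⁻¹ * _ ≤ r ^ 2 * (r ^ m)⁻¹ * ((π.C₁ + S.N.Q * (Cv * kap m)) * r ^ m) :=
          mul_le_mul_of_nonneg_left h3 (by positivity)
      _ = _ := by field_simp
  refine squeeze_zero_norm' (eventually_atBot.2 ⟨_, hbound⟩) ?_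
  have h := (Real.tendsto_exp_atBot.pow 2).const_mul (π.C₁ + S.N.Q * (Cv * kap m))
  simpa using h


/-- **Late intervals** (CO (4.22)).  Leaf `L-Freq-bound-restart` (real-analysis glue, no geometry).
PLAN, `h₀ = h0 π S'.b ≤ S'.b ≤ π.lm`, `τ_* = log r_*`, `D = ode S.N π.C₁ α`.
(a) `r qd(r) ≤ C₂ h₀` (`oup`, definition of `supz`).  (b) `tilt` at `r_*` with `d = κH = C₂ h₀`: `E + R ≤ 2 C₁ C₂² h₀²`.
(c) `olo`: `n, q ≤ 2 C₁ C₂³`.  (d) `ok.f_abs`, `η ≤ C₁` : `|P(τ_*)| ≤ 5 C₂⁵`.  (e) `Wts.H_hi` and `Num.lm₁`: `T(τ_*) ≥ 5 C₂⁵`, so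
`P(τ_*) ≤ T(τ_*)²`.  (f) `ode` on `I = fitI b r_*` (`Ok.mono`): upper bound `3 · 5 C₂⁵`; lower bound from `inner` if `b > 0`, from the
second item if `b = 0` (`|qA| ≤ C r²` by `Wts.mass`, see `qA_tendsto`).  (g) `η`: `qd ≤ min (C₁ r, C₂ h₀ / r)`, `Num.lm₂`. -/
theorem bound_of_restart (hI : Inputs m n Q α c π) (S' S : Start m n Q π) (h : IsRestart S' S) :
    ∀ τ ∈ fitI S.b π.rs, |(ode S.N π.C₁ α).P τ| ≤ π.C₀ ∧ (ode S.N π.C₁ α).η τ * (1 + π.C₀) ≤ 1 / 4 := by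
  have hN := hI.num
  have hk : 5 ≤ π.k := by
    have := hI.adm.k_gt
    omega
  have hC₁ := hN.C₁_ge
  have hC₁₂ := hN.C₂_ge
  have hC₂ : 1 ≤ π.C₂ := hC₁.trans hC₁₂
  have hC₁0 : 0 < π.C₁ := by linarith
  have hC₂0 : 0 < π.C₂ := by linarith
  have hrs := hN.rs_pos
  have hrs4 := hN.rs_le
  have hF0 : 0 < π.F := by
    unfold Par.F
    positivity
  obtain ⟨hpos, -⟩ := id h
  have hb'pos : 0 < S'.b := by
    by_contra hcon
    have hcon' : S'.b ≤ 0 := not_lt.1 hcon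
    nlinarith
  have hb'le : S'.b ≤ π.lm := bpar_le S'.isFail hN.lm_pos.le
  obtain ⟨hh0, hh0le⟩ := cov_h0 hN (by omega) hb'pos hb'le
  obtain ⟨hz, hHS⟩ := hI.oup S' S h
  have holo := hI.olo S' S h
  generalize h0 π S'.b = h₀ at hh0 hh0le hz hHS holo
  have hd0 : 0 ≤ π.C₂ * h₀ := by positivity
  have hb0 : 0 ≤ S.b := bpar_nonneg S.isFail
  have hble : S.b ≤ π.lm := bpar_le S.isFail hN.lm_pos.le
  have h100 : 100 * S.b ≤ π.rs := by linarith [hN.lm_rs, hN.lm_pos]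
  -- (a)
  have hqd : ∀ r : ℝ, 0 < r → qd S.N r * r ≤ π.C₂ * h₀ := by
    intro r hr
    unfold qd
    rw [mul_comm r⁻¹, mul_assoc, inv_mul_cancel₀ hr.ne', mul_one]
    exact cov_supz_le hd0 hz _
  -- the interval
  have hsub : fitI S.b π.rs ⊆ fitI S.b (4 * π.rs) := fun τ hτ => ⟨hτ.1, hτ.2.trans (by linarith)⟩
  have hOk := (hI.ok S).mono hsub
  have hexp : Real.exp (Real.log π.rs) = π.rs := Real.exp_log hrs
  have hτs : Real.log π.rs ∈ fitI S.b π.rs := ⟨by rw [hexp]; exact h100, by rw [hexp]⟩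
  have hle : ∀ τ ∈ fitI S.b π.rs, τ ≤ Real.log π.rs := fun τ hτ => (Real.le_log_iff_exp_le hrs).2 hτ.2
  -- (g)
  have hC₀0 : 0 ≤ π.C₀ := by
    unfold Par.C₀
    positivity
  have hη : ∀ τ ∈ fitI S.b π.rs, (ode S.N π.C₁ α).η τ * (1 + π.C₀) ≤ 1 / 4 := by
    intro τ hτ
    rw [cov_ode_η]
    obtain ⟨hτ1, hτ2⟩ := hτ
    have hr0 : 0 < Real.exp τ := Real.exp_pos τ
    generalize Real.exp τ = r at hτ1 hτ2 hr0
    have hW := hI.wts S r hr0 hτ1 (by linarith)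
    have hδ0 : 0 < qd S.N r := Wt.d_pos hW
    have hδ1 : qd S.N r ≤ π.C₁ * r ^ (π.k - 1) := Wt.d_le hW
    have hδ2 := hqd r hr0
    generalize qd S.N r = δ at hδ0 hδ1 hδ2
    refine cov_eta_small hC₁0 hC₀0 hI.α_pos hδ0.le ?_
    have hr1 : r ≤ 1 := by linarith
    have h1 : r ^ (π.k - 1) ≤ r := by
      calc r ^ (π.k - 1) ≤ r ^ 1 := pow_le_pow_of_le_one hr0.le hr1 (by omega)
        _ = r := pow_one r
    have h2 : δ ≤ π.C₁ * r := hδ1.trans (mul_le_mul_of_nonneg_left h1 hC₁0.le)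
    have h3 : δ ^ 2 ≤ π.δ₀ α ^ 2 := by
      have h4 : δ * δ ≤ π.C₁ * r * δ := mul_le_mul_of_nonneg_right h2 hδ0.le
      have h5 : π.C₁ * (δ * r) ≤ π.C₂ * (π.C₂ * π.lm) :=
        mul_le_mul hC₁₂ (hδ2.trans (mul_le_mul_of_nonneg_left hh0le hC₂0.le)) (by positivity) hC₂0.le
      have h6 := hN.lm₂
      nlinarith
    have hδ₀ : 0 ≤ π.δ₀ α := by
      unfold Par.δ₀
      positivity
    exact (pow_le_pow_iff_left₀ hδ0.le hδ₀ two_ne_zero).1 h3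
  -- (b)
  obtain ⟨hE, hR, hER⟩ := hI.tilt S π.rs (π.C₂ * h₀) (π.C₂ * h₀) hrs h100 (by linarith)
    (fun X hX _ => hz X hX) (fun y hy => hHS y (by
      rw [Metric.mem_ball, dist_zero_right]
      have : rho S.N.u y < 2 * π.rs := hy
      linarith [cov_norm_le_rho S.N.u y]))
  have hWs := hI.wts S π.rs hrs h100 (by linarith)
  have hδs0 : 0 < qd S.N π.rs := Wt.d_pos hWs
  have hδs := hqd π.rs hrs
  have hHhi := Wt.H_hi hWs
  have hC₂lm : π.C₂ * π.lm ≤ π.rs := by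
    have h1 : (π.C₂ * π.lm) ^ 2 ≤ π.rs ^ 2 := by
      have h2 := hN.lm₁
      have h3 : 1 ≤ Real.exp (5 * π.C₂ ^ 5) := Real.one_le_exp (by positivity)
      have h4 : π.C₂ ^ 2 ≤ π.C₂ ^ 3 := pow_le_pow_right₀ hC₂ (by norm_num)
      have h5 : π.C₂ ^ 2 * 1 ≤ π.C₂ ^ 3 * Real.exp (5 * π.C₂ ^ 5) :=
        mul_le_mul h4 h3 zero_le_one (by positivity)
      have h6 := mul_le_mul_of_nonneg_left h5 (sq_nonneg π.lm)
      nlinarith
    exact (pow_le_pow_iff_left₀ (by have := hN.lm_pos; positivity) hrs.le two_ne_zero).1 h1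
  have hδs1 : qd S.N π.rs ≤ 1 := by
    have h1 : qd S.N π.rs * π.rs ≤ 1 * π.rs := by
      rw [one_mul]
      exact hδs.trans ((mul_le_mul_of_nonneg_left hh0le hC₂0.le).trans hC₂lm)
    exact le_of_mul_le_mul_right h1 hrs
  have habs := hOk.f_abs _ hτs
  have hη0 := hOk.η_nonneg _ hτs
  have hηs : (ode S.N π.C₁ α).η (Real.log π.rs) ≤ π.C₁ := by
    rw [cov_ode_η, hexp]
    have := Real.rpow_le_one hδs0.le hδs1 hI.α_pos.le
    nlinarith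
  rw [cov_ode_n, cov_ode_q, hexp] at habs
  obtain ⟨hPs, hTs⟩ := cov_outer_num hC₁ hC₁₂ hrs (by linarith) hh0 hh0le hN.lm₁ hE hR hER holo hη0 hηs
    habs hHhi hδs0.le hδs
  have hstart : (ode S.N π.C₁ α).P (Real.log π.rs) ≤ (ode S.N π.C₁ α).T (Real.log π.rs) ^ 2 := by
    rw [cov_ode_T, hexp]
    have h1 : (1 : ℝ) ≤ 5 * π.C₂ ^ 5 := by
      have := one_le_pow₀ hC₂ (n := 5)
      linarith
    have h2 := (abs_le.1 hPs).2
    nlinarith
  obtain ⟨o1, o2, o3, -⟩ := hI.ode _ _ (fitI_ordConnected _ _) hOk hle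
  intro τ hτ
  refine ⟨?_, hη τ hτ⟩
  have hK := hN.K_le
  have hp1 : π.C₂ ≤ π.C₂ ^ 5 := le_self_pow₀ hC₂ (by norm_num)
  rw [abs_le]
  constructor
  · rcases hb0.eq_or_lt with hb | hb
    · have h1 := o2 (Real.log π.rs) (fun t ht => ⟨by rw [← hb]; simpa using (Real.exp_pos t).le,
        (Real.le_log_iff_exp_le hrs).1 ht⟩) (cov_qA_tendsto hI S hb.symm) τ (hle τ hτ)
      unfold Par.C₀
      linarith
    · have hb100 : 0 < 100 * S.b := by positivity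
      have hexpa : Real.exp (Real.log (100 * S.b)) = 100 * S.b := Real.exp_log hb100
      have ha : Real.log (100 * S.b) ∈ fitI S.b π.rs := ⟨by rw [hexpa], by rw [hexpa]; exact h100⟩
      have h1 := o1 _ ha τ hτ ((Real.log_le_iff_le_exp hb100).2 hτ.1)
      have h2 := hI.inner S hb
      have h3 : (ode S.N π.C₁ α).P (Real.log (100 * S.b)) = fP S.N (100 * S.b) := by
        rw [cov_ode_P, hexpa]
        rfl
      rw [h3] at h1
      have h4 := (abs_le.1 h2).1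
      have h5 : -π.C₂ ≤ min (fP S.N (100 * S.b)) (-(600 * π.C₁ ^ 2 * (1 + m))) :=
        le_min h4 (by linarith)
      unfold Par.C₀
      linarith
  · have h1 := o3 _ hτs τ hτ (hle τ hτ) hstart
    have h2 : max (600 * π.C₁ ^ 2 * (1 + m)) ((ode S.N π.C₁ α).P (Real.log π.rs)) ≤ 5 * π.C₂ ^ 5 :=
      max_le (by linarith) (abs_le.1 hPs).2
    have h3 : Real.exp 1 ≤ 3 := by
      have := Real.exp_one_lt_d9
      linarith
    have h4 : Real.exp 1 * max (600 * π.C₁ ^ 2 * (1 + m)) ((ode S.N π.C₁ α).P (Real.log π.rs))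
        ≤ 3 * (5 * π.C₂ ^ 5) :=
      mul_le_mul h3 h2 (le_max_of_le_left (by positivity)) (by norm_num)
    unfold Par.C₀
    linarith

/-- `A → 0` on an interval extending to zero (leaf `L-Freq-A-tendsto`: `|intM φ| ≤ ν(B_r) + Q vol_S(B_r) ≤ C r^m`). -/
theorem qA_tendsto (hI : Inputs m n Q α c π) (S : Start m n Q π) (hb : S.b = 0) :
    Tendsto (ode S.N π.C₁ α).A atBot (𝓝 0) := by
  exact cov_qA_tendsto hI S hb

/-- **An interval extending to zero.**  Leaf `L-Freq-bound-zero` (glue).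
PLAN.  `I = fitI 0 r_* = Iic (log r_*)`.  `ode`: lower bound `-K` (with `qA_tendsto`), a starting radius `τ₁`, upper bound inward.
`η = C₁ qd^α ≤ C₁ (C₁ r)^α → 0`. -/
theorem bound_of_zero (hI : Inputs m n Q α c π) (S : Start m n Q π) (hb : S.b = 0) :
    ∃ (C₀ τ₂ : ℝ), 0 ≤ C₀ ∧ τ₂ ≤ Real.log π.rs ∧ ∀ τ ≤ τ₂,
      |(ode S.N π.C₁ α).P τ| ≤ C₀ ∧ (ode S.N π.C₁ α).η τ * (1 + C₀) ≤ 1 / 4 := by
  have hN := hI.num
  have hk : 5 ≤ π.k := by
    have := hI.adm.k_gt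
    omega
  have hrs := hN.rs_pos
  have hrs4 := hN.rs_le
  have hC₁0 : 0 < π.C₁ := by linarith [hN.C₁_ge]
  have hsub : fitI S.b π.rs ⊆ fitI S.b (4 * π.rs) := fun τ hτ => ⟨hτ.1, hτ.2.trans (by linarith)⟩
  have hOk := (hI.ok S).mono hsub
  have hle : ∀ τ ∈ fitI S.b π.rs, τ ≤ Real.log π.rs := fun τ hτ => (Real.le_log_iff_exp_le hrs).2 hτ.2
  have hIic : Set.Iic (Real.log π.rs) ⊆ fitI S.b π.rs := fun t ht =>
    ⟨by rw [hb]; simpa using (Real.exp_pos t).le, (Real.le_log_iff_exp_le hrs).1 ht⟩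
  obtain ⟨-, o2, o3, o4⟩ := hI.ode _ _ (fitI_ordConnected _ _) hOk hle
  obtain ⟨τ₁, hτ₁, hst⟩ := o4 _ hIic
  have hlow := o2 _ hIic (cov_qA_tendsto hI S hb)
  have hK0 : (0 : ℝ) ≤ 600 * π.C₁ ^ 2 * (1 + m) := by positivity
  generalize 600 * π.C₁ ^ 2 * (1 + (m : ℝ)) = K at o3 hlow hK0
  have hmax : K ≤ max K ((ode S.N π.C₁ α).P τ₁) := le_max_left _ _
  have hC₀K : K ≤ Real.exp 1 * max K ((ode S.N π.C₁ α).P τ₁) := by
    have h1 : 1 ≤ Real.exp 1 := Real.one_le_exp zero_le_one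
    nlinarith
  have hup : ∀ τ ≤ τ₁, (ode S.N π.C₁ α).P τ ≤ Real.exp 1 * max K ((ode S.N π.C₁ α).P τ₁) :=
    fun τ hτ => o3 τ₁ (hIic hτ₁) τ (hIic (hτ.trans hτ₁)) hτ hst
  generalize Real.exp 1 * max K ((ode S.N π.C₁ α).P τ₁) = C₀ at hC₀K hup
  have hC₀0 : 0 ≤ C₀ := hK0.trans hC₀K
  have hδ₀ : 0 < (4 * π.C₁ * (1 + C₀)) ^ (-(1 / α)) := by positivity
  refine ⟨C₀, min τ₁ (Real.log ((4 * π.C₁ * (1 + C₀)) ^ (-(1 / α)) / π.C₁)), hC₀0,
    (min_le_left _ _).trans hτ₁, fun τ hτ => ⟨?_, ?_⟩⟩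
  · have hτ' : τ ≤ τ₁ := hτ.trans (min_le_left _ _)
    rw [abs_le]
    exact ⟨by linarith [hlow τ (hτ'.trans hτ₁)], hup τ hτ'⟩
  · rw [cov_ode_η]
    have hr0 : 0 < Real.exp τ := Real.exp_pos τ
    have hr1 : Real.exp τ ≤ π.rs := (Real.le_log_iff_exp_le hrs).1 ((hτ.trans (min_le_left _ _)).trans hτ₁)
    have hr2 : Real.exp τ ≤ (4 * π.C₁ * (1 + C₀)) ^ (-(1 / α)) / π.C₁ :=
      (Real.le_log_iff_exp_le (by positivity)).1 (hτ.trans (min_le_right _ _))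
    generalize Real.exp τ = r at hr0 hr1 hr2
    have hW := hI.wts S r hr0 (by rw [hb]; linarith) (by linarith)
    refine cov_eta_small hC₁0 hC₀0 hI.α_pos (Wt.d_pos hW).le ?_
    have h1 : r ^ (π.k - 1) ≤ r := by
      calc r ^ (π.k - 1) ≤ r ^ 1 := pow_le_pow_of_le_one hr0.le (by linarith) (by omega)
        _ = r := pow_one r
    have h2 : qd S.N r ≤ π.C₁ * r := (Wt.d_le hW).trans (mul_le_mul_of_nonneg_left h1 hC₁0.le)
    rw [le_div_iff₀ hC₁0] at hr2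
    linarith

/-- **Bounded frequency gives the fields of `TargetData`** (leaf `L-Freq-target-fields`: `OdeData.doubling`,
`OdeData.exists_q_le` on `[log (400 r), log (600 r)]`, `Ok.H_pos`; `Real.exp_log`). -/
theorem target_fields (hI : Inputs m n Q α c π) (C₀ : ℝ) (hC₀ : 0 ≤ C₀) :
    ∃ C' : ℝ, ∀ (S : Start m n Q π) (r : ℝ), 0 < r → 100 * S.b ≤ r → 1000 * r ≤ π.rs →
      (∀ τ, Real.log r ≤ τ → τ ≤ Real.log (1000 * r) →
        |(ode S.N π.C₁ α).P τ| ≤ C₀ ∧ (ode S.N π.C₁ α).η τ * (1 + C₀) ≤ 1 / 4) →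
      (∀ r', r ≤ r' → r' ≤ 1000 * r → 0 < qH S.N r') ∧
      (∀ r', r ≤ r' → r' ≤ 1000 * r → qH S.N r' ≤ C' * qH S.N r) ∧
      ∃ r', 400 * r ≤ r' ∧ r' ≤ 600 * r ∧ qE S.N r' ≤ C' * qH S.N r' ∧ qR S.N r' ≤ C' * qH S.N r' := by
  have hN := hI.num
  have hC₁ := hN.C₁_ge
  have hm0 : (0 : ℝ) ≤ m := Nat.cast_nonneg m
  have hrs4 := hN.rs_le
  have hL : 0 < Real.log 600 - Real.log 400 := by
    have := Real.log_lt_log (by norm_num : (0 : ℝ) < 400) (by norm_num : (400 : ℝ) < 600)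
    linarith
  have hl1000 : 0 ≤ Real.log 1000 := Real.log_nonneg (by norm_num)
  refine ⟨max (Real.exp (4 * C₀ + |2 * OdePt.dblC π.C₁ m C₀ + 7 + 6 * π.C₁| * Real.log 1000))
    (max (2 * OdePt.dblC π.C₁ m C₀ + 4 * C₀ / (Real.log 600 - Real.log 400) + 1)
      (2 * Real.sqrt (2 * OdePt.dblC π.C₁ m C₀ + 4 * C₀ / (Real.log 600 - Real.log 400) + 1) + 2 * π.C₁)),
    fun S r hr hbr hrr hPη => ?_⟩
  have hO := hI.ok S
  have hmem : ∀ r', r ≤ r' → r' ≤ 1000 * r → Real.log r' ∈ fitI S.b (4 * π.rs) := by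
    intro r' h1 h2
    have hr' : 0 < r' := lt_of_lt_of_le hr h1
    refine ⟨?_, ?_⟩
    · rw [Real.exp_log hr']
      linarith
    · rw [Real.exp_log hr']
      linarith [hN.rs_pos]
  have hmemτ : ∀ τ, Real.log r ≤ τ → τ ≤ Real.log (1000 * r) → τ ∈ fitI S.b (4 * π.rs) := by
    intro τ h1 h2
    refine ⟨?_, ?_⟩
    · have := (Real.log_le_iff_le_exp hr).1 h1
      linarith
    · have := (Real.le_log_iff_exp_le (by positivity)).1 h2
      linarith [hN.rs_pos]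
  have hHpos : ∀ r', r ≤ r' → r' ≤ 1000 * r → 0 < qH S.N r' := by
    intro r' h1 h2
    have h3 := hO.H_pos _ (hmem r' h1 h2)
    rwa [cov_ode_H, Real.exp_log (lt_of_lt_of_le hr h1)] at h3
  have hlog0 : ∀ r', 0 < r' → r' ≤ 1000 * r → Real.log r' ≤ 0 := fun r' h1 h2 =>
    Real.log_nonpos h1.le (by linarith)
  refine ⟨hHpos, ?_, ?_⟩
  · intro r' h1 h2
    have hr' : 0 < r' := lt_of_lt_of_le hr h1
    have hαβ : Real.log r ≤ Real.log r' := Real.log_le_log hr h1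
    have hβ : Real.log r' ≤ Real.log (1000 * r) := Real.log_le_log hr' h2
    have hd := (OdeData.doubling hC₁ hm0 hO (C₀ := C₀) hαβ
      (fun x hx => hmemτ x hx.1 (hx.2.trans hβ)) (hlog0 r' hr' h2)
      (fun x hx => (hPη x hx.1 (hx.2.trans hβ)).1) (fun x hx => (hPη x hx.1 (hx.2.trans hβ)).2)).2
    rw [cov_ode_H, cov_ode_H, Real.exp_log hr', Real.exp_log hr] at hd
    refine hd.trans (mul_le_mul_of_nonneg_right ((Real.exp_le_exp.2 ?_).trans (le_max_left _ _))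
      (hHpos r le_rfl (by linarith)).le)
    have h3 : Real.log r' - Real.log r ≤ Real.log 1000 := by
      rw [Real.log_mul (by norm_num) hr.ne'] at hβ
      linarith
    have h4 : 0 ≤ Real.log r' - Real.log r := by linarith
    have h5 : (2 * OdePt.dblC π.C₁ m C₀ + 7 + 6 * π.C₁) * (Real.log r' - Real.log r)
        ≤ |2 * OdePt.dblC π.C₁ m C₀ + 7 + 6 * π.C₁| * Real.log 1000 :=
      mul_le_mul (le_abs_self _) h3 h4 (abs_nonneg _)
    linarith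
  · have h400 : 0 < 400 * r := by positivity
    have h600 : 0 < 600 * r := by positivity
    have hαβ : Real.log (400 * r) < Real.log (600 * r) := Real.log_lt_log h400 (by linarith)
    have hα : Real.log r ≤ Real.log (400 * r) := Real.log_le_log hr (by linarith)
    have hβ : Real.log (600 * r) ≤ Real.log (1000 * r) := Real.log_le_log h600 (by linarith)
    obtain ⟨τ, hτ, hq, hn⟩ := OdeData.exists_q_le hC₁ hm0 hO (C₀ := C₀) hαβ
      (fun x hx => hmemτ x (hα.trans hx.1) (hx.2.trans hβ)) (hlog0 _ h600 (by linarith))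
      (fun x hx => (hPη x (hα.trans hx.1) (hx.2.trans hβ)).1)
      (fun x hx => (hPη x (hα.trans hx.1) (hx.2.trans hβ)).2)
    have hLL : Real.log (600 * r) - Real.log (400 * r) = Real.log 600 - Real.log 400 := by
      rw [Real.log_mul (by norm_num) hr.ne', Real.log_mul (by norm_num) hr.ne']
      ring
    rw [hLL] at hq hn
    have h1 : 400 * r ≤ Real.exp τ := ((Real.log_lt_iff_lt_exp h400).1 hτ.1).le
    have h2 : Real.exp τ ≤ 600 * r := ((Real.lt_log_iff_exp_lt h600).1 hτ.2).le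
    have hH := hHpos (Real.exp τ) (by linarith) (by linarith)
    rw [cov_ode_q, div_le_iff₀ hH] at hq
    rw [cov_ode_n, div_le_iff₀ hH] at hn
    refine ⟨Real.exp τ, h1, h2, hn.trans (mul_le_mul_of_nonneg_right ?_ hH.le),
      hq.trans (mul_le_mul_of_nonneg_right ?_ hH.le)⟩
    · exact (le_max_right _ _).trans (le_max_right _ _)
    · exact (le_max_left _ _).trans (le_max_right _ _)

end fixed

/-! ### starts of a given varifold -/

/-- a start of the varifold of `D` at the dyadic scale `2^{-j}` -/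
structure DStart {s : ℝ} (π : Par) (D : Flat.FlatData m n s) where
  j : ℕ
  O : E (m + n) ≃ₗᵢ[ℝ] E (m + n)
  S : Start m n D.Q π
  S_W : S.N.W = D.W.simil 0 ((2 : ℝ)⁻¹ ^ j) (by positivity) O

/-- the scale of a start -/
noncomputable def DStart.R {s : ℝ} {π : Par} {D : Flat.FlatData m n s} (σ : DStart π D) : ℝ := (2 : ℝ)⁻¹ ^ σ.j

/-- good dyadic scales -/
def GoodIdx {s : ℝ} (π : Par) (D : Flat.FlatData m n s) (j : ℕ) : Prop :=
  ∃ O : E (m + n) ≃ₗᵢ[ℝ] E (m + n), IsGood (D.W.simil 0 ((2 : ℝ)⁻¹ ^ j) (by positivity) O) D.Q π.eg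

/-- every good dyadic scale carries a start -/
theorem exists_dstart {s : ℝ} {π : Par} (D : Flat.FlatData m n s)
    (hS : ∀ W : SIV m n, IsGood W D.Q π.eg → ∃ S : StartData m n D.Q π.fit, S.N.W = W) (j : ℕ)
    (hj : GoodIdx π D j) : ∃ σ : DStart π D, σ.j = j := by
  obtain ⟨O, hO⟩ := hj
  obtain ⟨S, hSW⟩ := hS _ hO
  refine ⟨⟨j, O, ⟨S, hSW ▸ hO, ?_⟩, hSW⟩, rfl⟩
  rw [hSW, SIV.simil_sing]
  simpa [simInv] using D.zero_sing

section assembly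

variable {Q : ℕ} {α c : ℝ} {π : Par} {s : ℝ}

/-! #### helpers for `select` (helper269) -/

theorem cov_R_pos {D : Flat.FlatData m n s} (σ : DStart π D) : 0 < σ.R := by
  unfold DStart.R
  positivity

/-- the doubled scale of a late start is good -/
theorem cov_prev_good {b₀ η₀ : ℝ} (D : Flat.FlatData m n s)
    (htwo : ∀ S : Start m n D.Q π, S.b ≤ b₀ → Metric.closedBall 0 24000 ⊆ S.N.W.U →
      S.N.W.ratio 0 24000 ≤ D.Q + η₀ →
      ∃ O' : E (m + n) ≃ₗᵢ[ℝ] E (m + n), IsGood (S.N.W.simil 0 2 two_pos O') D.Q π.eg)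
    (σ : DStart π D) (hj : 1 ≤ σ.j) (hb : σ.S.b ≤ b₀)
    (hU : Metric.closedBall 0 (24000 * σ.R) ⊆ D.W.U) (hr : D.W.ratio 0 (24000 * σ.R) ≤ D.Q + η₀) :
    GoodIdx π D (σ.j - 1) := by
  have hR := cov_R_pos σ
  have hU' : Metric.closedBall 0 24000 ⊆ σ.S.N.W.U := by
    rw [σ.S_W]
    intro Y hY
    show simInv 0 _ σ.O Y ∈ D.W.U
    apply hU
    rw [mem_closedBall_zero_iff] at hY ⊢
    unfold simInv
    rw [zero_add, norm_smul, LinearIsometryEquiv.norm_map, Real.norm_of_nonneg (by positivity)]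
    have : (2 : ℝ)⁻¹ ^ σ.j = σ.R := rfl
    rw [this]
    nlinarith
  have hr' : σ.S.N.W.ratio 0 24000 ≤ D.Q + η₀ := by
    rw [σ.S_W, SIV.simil_ratio _ _ _ _ _ _ _ (by norm_num)]
    have h0 : simInv (0 : E (m + n)) ((2 : ℝ)⁻¹ ^ σ.j) σ.O 0 = 0 := by simp [simInv]
    rw [h0, mul_comm]
    exact hr
  obtain ⟨O', hO'⟩ := htwo σ.S hb hU' hr'
  refine ⟨σ.O.trans O', ?_⟩
  rw [σ.S_W, simil_simil] at hO'
  have h2 : (2 : ℝ)⁻¹ ^ σ.j * 2 = (2 : ℝ)⁻¹ ^ (σ.j - 1) := by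
    obtain ⟨k, hk⟩ := Nat.exists_eq_add_of_le hj
    rw [hk, Nat.add_sub_cancel_left, pow_add, pow_one, mul_comm ((2 : ℝ)⁻¹) _, mul_assoc,
      inv_mul_cancel₀ two_ne_zero, mul_one]
  rw [simil_congr D.W _ (by positivity) h2] at hO'
  exact hO'

theorem cov_isRestart {D : Flat.FlatData m n s} (σ' σ : DStart π D) (hb' : 0 < σ'.S.b)
    (h : σ.R = π.F * σ'.S.b * σ'.R) : IsRestart σ'.S σ.S := by
  have hF0 : 0 < π.F := by
    unfold Par.F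
    positivity
  have hR := cov_R_pos σ
  have hR' := cov_R_pos σ'
  refine ⟨mul_pos hF0 hb', σ'.O.symm.trans σ.O, ?_⟩
  rw [σ.S_W, σ'.S_W, simil_rel D.W _ ((2 : ℝ)⁻¹ ^ σ'.j) _ (by positivity) σ.O σ'.O]
  refine simil_congr _ _ _ ?_ _
  have h1 : (2 : ℝ)⁻¹ ^ σ.j = σ.R := rfl
  have h2 : (2 : ℝ)⁻¹ ^ σ'.j = σ'.R := rfl
  rw [h1, h2, h]
  field_simp

theorem cov_b_lt {b₀ Li : ℝ} {D : Flat.FlatData m n s} (σ : DStart π D)
    (hcomp : ∀ (R : ℝ) (hR : 0 < R) (O : E (m + n) ≃ₗᵢ[ℝ] E (m + n)) (S : Start m n D.Q π),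
      S.N.W = D.W.simil 0 R hR O → 100 * b₀ * R ≤ Li → Li ≤ π.rs / 1000 * R →
      ∀ x : E m, ‖x‖ < 5 → S.ℓ x < b₀)
    (hb0 : 0 < σ.S.b) (hlo : 100 * σ.S.b * σ.R ≤ Li) (hhi : Li ≤ π.rs / 1000 * σ.R) : σ.S.b < b₀ := by
  by_contra hcon
  have hcon' : b₀ ≤ σ.S.b := not_lt.1 hcon
  have hR := cov_R_pos σ
  have hℓ := hcomp σ.R hR σ.O σ.S σ.S_W (by nlinarith) hhi
  obtain ⟨x, hx5, -, hx⟩ := bpar_attained σ.S.isFail hb0
  have h1 := hℓ x hx5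
  rw [hx] at h1
  exact absurd h1 (not_lt.2 hcon')


/-- **Case A: one interval extends to zero.**  Leaf `L-Freq-caseA` (glue).
PLAN.  `bound_of_zero`, `target_fields`; `r i = L (i + i₀) / R`, `i₀` so large that `1000 r i ≤ min (r_*, exp τ₂)`;
`small` from `Wts.d_le`, `Wts.d_pos`. -/
theorem caseA (hI : Inputs m n Q α c π) (D : Flat.FlatData m n s) (hQ : D.Q = Q) (σ : DStart π D)
    (hb : σ.S.b = 0) : Nonempty (TargetData π D) := by
  subst hQ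
  have hN := hI.num
  have hk : 5 ≤ π.k := by
    have := hI.adm.k_gt
    omega
  have hC₁0 : 0 < π.C₁ := by linarith [hN.C₁_ge]
  obtain ⟨C₀, τ₂, hC₀, hτ₂, hbd⟩ := bound_of_zero hI σ.S hb
  obtain ⟨C', hC'⟩ := target_fields hI C₀ hC₀
  have hR : 0 < σ.R := by
    unfold DStart.R
    positivity
  have hthr : 0 < Real.exp τ₂ * σ.R / 1000 := by positivity
  obtain ⟨i₀, hi₀⟩ := eventually_atTop.1 (D.L_lim.eventually (Iio_mem_nhds hthr))
  have hr : ∀ i, 0 < D.L (i + i₀) / σ.R := fun i => div_pos (D.L_pos _) hR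
  have hr2 : ∀ i, 1000 * (D.L (i + i₀) / σ.R) ≤ Real.exp τ₂ := by
    intro i
    have h1 : D.L (i + i₀) < Real.exp τ₂ * σ.R / 1000 := hi₀ (i + i₀) (by omega)
    rw [← mul_div_assoc, div_le_iff₀ hR]
    linarith
  have hr3 : ∀ i, 1000 * (D.L (i + i₀) / σ.R) ≤ π.rs := fun i =>
    (hr2 i).trans ((Real.le_log_iff_exp_le hN.rs_pos).1 hτ₂)
  have hlo : ∀ i, 100 * σ.S.b ≤ D.L (i + i₀) / σ.R := fun i => by
    rw [hb]
    simpa using (hr i).le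
  have hF := fun i => hC' σ.S _ (hr i) (hlo i) (hr3 i) (fun τ _ h2 =>
    hbd τ (h2.trans ((Real.log_le_iff_le_exp (by have := hr i; positivity)).2 (hr2 i))))
  refine ⟨{ φ := fun i => i + i₀, φ_mono := fun a b h => Nat.add_lt_add_right h _, R := fun _ => σ.R,
            R_pos := fun _ => hR, O := fun _ => σ.O, S := fun _ => σ.S, S_W := fun _ => σ.S_W,
            r := fun i => D.L (i + i₀) / σ.R, r_eq := fun i => div_mul_cancel₀ _ hR.ne',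
            r_lo := hlo, r_hi := hr3, C₀ := C', H_pos := fun i => (hF i).1, dbl := fun i => (hF i).2.1,
            rad := fun i => (hF i).2.2, small := ?_ }⟩
  have hW := fun i => hI.wts σ.S (1000 * (D.L (i + i₀) / σ.R)) (by have := hr i; positivity)
    (by have := hlo i; have := hr i; linarith) (by have := hr3 i; linarith [hN.rs_pos])
  have hlim : Tendsto (fun i => π.C₁ * (1000 * (D.L (i + i₀) / σ.R))) atTop (𝓝 0) := by
    have h1 := (((D.L_lim.comp (tendsto_add_atTop_nat i₀)).div_const σ.R).const_mul 1000).const_mul π.C₁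
    simpa using h1
  refine squeeze_zero (fun i => (Wt.d_pos (hW i)).le) (fun i => ?_) hlim
  refine (Wt.d_le (hW i)).trans (mul_le_mul_of_nonneg_left ?_ hC₁0.le)
  have h0 : 0 < 1000 * (D.L (i + i₀) / σ.R) := by have := hr i; positivity
  have h1 : 1000 * (D.L (i + i₀) / σ.R) ≤ 1 := by have := hr3 i; linarith [hN.rs_le]
  calc (1000 * (D.L (i + i₀) / σ.R)) ^ (π.k - 1) ≤ (1000 * (D.L (i + i₀) / σ.R)) ^ 1 :=
        pow_le_pow_of_le_one h0.le h1 (by omega)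
    _ = _ := pow_one _

/-- **Case B: every covering start is an exact restart.**  Leaf `L-Freq-caseB` (glue).
PLAN.  `bound_of_restart`, `target_fields` with `C₀ = π.C₀`.  `small`: given `ε`, if `r i ≤ ρ₀(ε)` use `Wts.d_le`; otherwise `comp` with
`100 β₀ ≤ ρ₀` and `geo` give `qd (1000 r i) ≤ C m₀ β₀^k / (1000 ρ₀)`. -/
theorem caseB (hI : Inputs m n Q α c π) (D : Flat.FlatData m n s) (hQ : D.Q = Q) (φ : ℕ → ℕ)
    (hφ : StrictMono φ) (σ' σ : ℕ → DStart π D) (hres : ∀ i, IsRestart (σ' i).S (σ i).S)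
    (hlo : ∀ i, 100 * (σ i).S.b * (σ i).R ≤ D.L (φ i)) (hhi : ∀ i, D.L (φ i) ≤ π.rs / 1000 * (σ i).R) :
    Nonempty (TargetData π D) := by
  subst hQ
  have hN := hI.num
  have hk : 5 ≤ π.k := by
    have := hI.adm.k_gt
    omega
  have hC₁0 : 0 < π.C₁ := by linarith [hN.C₁_ge]
  have hC₀0 : 0 ≤ π.C₀ := by
    have : 0 < π.C₂ := by linarith [hN.C₁_ge, hN.C₂_ge]
    unfold Par.C₀
    positivity
  obtain ⟨C', hC'⟩ := target_fields hI π.C₀ hC₀0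
  have hR : ∀ i, 0 < (σ i).R := fun i => by
    unfold DStart.R
    positivity
  have hr : ∀ i, 0 < D.L (φ i) / (σ i).R := fun i => div_pos (D.L_pos _) (hR i)
  have hlo' : ∀ i, 100 * (σ i).S.b ≤ D.L (φ i) / (σ i).R := fun i => by
    rw [le_div_iff₀ (hR i)]
    exact hlo i
  have hhi' : ∀ i, 1000 * (D.L (φ i) / (σ i).R) ≤ π.rs := fun i => by
    rw [← mul_div_assoc, div_le_iff₀ (hR i)]
    have := hhi i
    linarith
  have hF := fun i => hC' (σ i).S _ (hr i) (hlo' i) (hhi' i) (fun τ h1 h2 =>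
    bound_of_restart hI (σ' i).S (σ i).S (hres i) τ
      ⟨(hlo' i).trans ((Real.log_le_iff_le_exp (hr i)).1 h1),
        ((Real.le_log_iff_exp_le (by have := hr i; positivity)).1 h2).trans (hhi' i)⟩)
  refine ⟨{ φ := φ, φ_mono := hφ, R := fun i => (σ i).R, R_pos := hR, O := fun i => (σ i).O,
            S := fun i => (σ i).S, S_W := fun i => (σ i).S_W,
            r := fun i => D.L (φ i) / (σ i).R, r_eq := fun i => div_mul_cancel₀ _ (hR i).ne',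
            r_lo := hlo', r_hi := hhi', C₀ := C', H_pos := fun i => (hF i).1, dbl := fun i => (hF i).2.1,
            rad := fun i => (hF i).2.2, small := ?_ }⟩
  have hW := fun i => hI.wts (σ i).S (1000 * (D.L (φ i) / (σ i).R)) (by have := hr i; positivity)
    (by have := hlo' i; have := hr i; linarith) (by have := hhi' i; linarith [hN.rs_pos])
  rw [Metric.tendsto_atTop]
  intro ε hε
  have hCm : 0 < π.C * π.m₀ := mul_pos (by linarith [hI.adm.C_ge]) hN.m₀_pos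
  -- thresholds
  obtain ⟨ρ₁, hρ₁def⟩ : ∃ ρ₁ : ℝ, ρ₁ = ε / 2 / π.C₁ := ⟨_, rfl⟩
  have hρ₁ : 0 < ρ₁ := by rw [hρ₁def]; positivity
  obtain ⟨β₀, hβ₀def⟩ : ∃ β₀ : ℝ, β₀ = min 1 (min (ρ₁ / 10 ^ 5) (ε / 2 * ρ₁ / (π.C * π.m₀))) := ⟨_, rfl⟩
  have hβ₀ : 0 < β₀ := by
    rw [hβ₀def]
    exact lt_min one_pos (lt_min (by positivity) (by positivity))
  have hβ1 : β₀ ≤ 1 := by rw [hβ₀def]; exact min_le_left _ _
  have hβ2 : β₀ ≤ ρ₁ / 10 ^ 5 := by rw [hβ₀def]; exact (min_le_right _ _).trans (min_le_left _ _)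
  have hβ3 : β₀ ≤ ε / 2 * ρ₁ / (π.C * π.m₀) := by
    rw [hβ₀def]; exact (min_le_right _ _).trans (min_le_right _ _)
  obtain ⟨i₁, hi₁⟩ := eventually_atTop.1 (hφ.tendsto_atTop.eventually (hI.comp s D rfl β₀ hβ₀))
  refine ⟨i₁, fun i hi => ?_⟩
  rw [Real.dist_eq, sub_zero, abs_of_pos (Wt.d_pos (hW i))]
  have h0 : 0 < 1000 * (D.L (φ i) / (σ i).R) := by have := hr i; positivity
  have h1 : 1000 * (D.L (φ i) / (σ i).R) ≤ 1 := by have := hhi' i; linarith [hN.rs_le]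
  by_cases hcase : 1000 * (D.L (φ i) / (σ i).R) ≤ ρ₁
  · have h2 : (1000 * (D.L (φ i) / (σ i).R)) ^ (π.k - 1) ≤ 1000 * (D.L (φ i) / (σ i).R) := by
      calc (1000 * (D.L (φ i) / (σ i).R)) ^ (π.k - 1) ≤ (1000 * (D.L (φ i) / (σ i).R)) ^ 1 :=
            pow_le_pow_of_le_one h0.le h1 (by omega)
        _ = _ := pow_one _
    have h3 : qd (σ i).S.N (1000 * (D.L (φ i) / (σ i).R)) ≤ π.C₁ * ρ₁ :=
      (Wt.d_le (hW i)).trans (mul_le_mul_of_nonneg_left (h2.trans hcase) hC₁0.le)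
    have h4 : π.C₁ * ρ₁ = ε / 2 := by
      rw [hρ₁def]
      field_simp
    linarith
  · have hcase' : ρ₁ < 1000 * (D.L (φ i) / (σ i).R) := not_le.1 hcase
    have hℓ := hi₁ i hi (σ i).R (hR i) (σ i).O (σ i).S (σ i).S_W (by
      have h2 : 100 * β₀ ≤ D.L (φ i) / (σ i).R := by
        have : 100 * β₀ ≤ ρ₁ / 1000 := by
          have := mul_le_mul_of_nonneg_left hβ2 (by norm_num : (0 : ℝ) ≤ 100)
          linarith
        linarith
      rwa [le_div_iff₀ (hR i)] at h2) (hhi i)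
    have hz : ∀ X, (σ i).S.In X → ‖zz (σ i).S.N.u X‖ ≤ π.C * π.m₀ * β₀ ^ π.k := fun X hX =>
      hI.geo (σ i).S X hX β₀ (fun x hx => (hℓ x hx).le) hβ₀.le
    have hs := cov_supz_le (by positivity) hz (Bs (σ i).S.N.u (1000 * (D.L (φ i) / (σ i).R)))
    have h2 : β₀ ^ π.k ≤ β₀ := by
      calc β₀ ^ π.k ≤ β₀ ^ 1 := pow_le_pow_of_le_one hβ₀.le hβ1 (by omega)
        _ = β₀ := pow_one _
    have h3 : π.C * π.m₀ * β₀ ^ π.k ≤ ε / 2 * ρ₁ := by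
      rw [le_div_iff₀ hCm] at hβ3
      have := mul_le_mul_of_nonneg_left h2 hCm.le
      linarith
    have h4 : qd (σ i).S.N (1000 * (D.L (φ i) / (σ i).R)) ≤ ε / 2 := by
      unfold qd
      rw [inv_mul_le_iff₀ h0]
      have h5 : ε / 2 * ρ₁ ≤ 1000 * (D.L (φ i) / (σ i).R) * (ε / 2) := by nlinarith
      linarith
    linarith

/-- **Selection of the covering starts** when no start has `b = 0`.  Leaf `L-Freq-select` (glue).
PLAN.  Choose a start `F j` for every good `j` (`exists_dstart`), `b j = (F j).S.b`.  `chain_cover` (hypotheses: `bpar_dyadic`,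
`bpar_le`, `Num.Flm`, `Num.F_gt`, `good_of_flat` with `l₁ = 2000 / r_*`, `l₂ = 4000 / r_*`).  The covering index `j(i) → ∞` because
`100 b_j R_j > 0` for each fixed `j`.  For late `i`: `j(i) ≠ j₀`; `b_{j(i)} < b₀` by `comp` (if `b ≥ b₀` then all `ℓ x < b₀`,
contradiction with `bpar_attained`); `flat_small` (`Λ = 24000`) and `two` and `simil_simil` give `GoodIdx (j(i) - 1)`;
`exact_restart`; `simil_rel` gives `IsRestart`. -/
theorem select (hm : 1 ≤ m) (hI : Inputs m n Q α c π) (D : Flat.FlatData m n s) (hQ : D.Q = Q)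
    (hS : ∀ W : SIV m n, IsGood W D.Q π.eg → ∃ S : StartData m n D.Q π.fit, S.N.W = W)
    (hb : ∀ σ : DStart π D, σ.S.b ≠ 0) :
    ∃ (φ : ℕ → ℕ) (σ' σ : ℕ → DStart π D), StrictMono φ ∧ (∀ i, IsRestart (σ' i).S (σ i).S) ∧
      (∀ i, 100 * (σ i).S.b * (σ i).R ≤ D.L (φ i)) ∧ (∀ i, D.L (φ i) ≤ π.rs / 1000 * (σ i).R) := by
  subst hQ
  classical
  have hN := hI.num
  have hrs := hN.rs_pos
  have hF : ∀ j, GoodIdx π D j → ∃ σ : DStart π D, σ.j = j := fun j h => exists_dstart D hS j h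
  choose F hFj using hF
  obtain ⟨b, hbj⟩ : ∃ b : ℕ → ℝ, ∀ j (h : GoodIdx π D j), b j = (F j h).S.b :=
    ⟨fun j => if h : GoodIdx π D j then (F j h).S.b else 0, fun j h => dif_pos h⟩
  have hFR : ∀ j h, (F j h).R = (2 : ℝ)⁻¹ ^ j := fun j h => by
    unfold DStart.R
    rw [hFj]
  have hbpos : ∀ j, GoodIdx π D j → 0 < b j := fun j h => by
    rw [hbj j h]
    exact lt_of_le_of_ne (bpar_nonneg (F j h).S.isFail) (Ne.symm (hb _))
  have hble : ∀ j, GoodIdx π D j → b j ≤ π.lm := fun j h => by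
    rw [hbj j h]
    exact bpar_le (F j h).S.isFail hN.lm_pos.le
  have hFb : ∀ j, GoodIdx π D j → (2 : ℝ) ^ π.f * b j < 1 / 4 := fun j h => by
    have h1 := hN.Flm
    unfold Par.F at h1
    have h2 := mul_le_mul_of_nonneg_left (hble j h) (by positivity : (0 : ℝ) ≤ 2 ^ π.f)
    linarith
  have hdy : ∀ j, GoodIdx π D j → b j = 0 ∨ ∃ a : ℕ, b j = (2 : ℝ)⁻¹ ^ a := fun j h => by
    rw [hbj j h]
    exact bpar_dyadic (F j h).S.isFail
  obtain ⟨j₀, hcov⟩ := chain_cover (GoodIdx π D) b π.f π.rs D.L hrs (by linarith [hN.rs_le]) hdy hFb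
    hN.F_gt D.L_pos D.L_lim (by
      filter_upwards [good_of_flat hm D (2000 / π.rs) (4000 / π.rs) π.eg (by positivity) hN.eg_pos]
        with i hi j h1 h2
      exact ⟨LinearIsometryEquiv.refl ℝ _, hi _ (by positivity) (by rw [div_mul_eq_mul_div]; exact h1)
        (by rw [div_mul_eq_mul_div]; exact h2)⟩)
  obtain ⟨b₀, η₀, hb₀, hη₀, htwo⟩ := hI.two
  obtain ⟨R₀, hR₀, hsm⟩ := flat_small hm D 24000 η₀ (by norm_num) hη₀
  obtain ⟨J, hJ⟩ := exists_pow_lt_of_lt_one hR₀ (by norm_num : (2 : ℝ)⁻¹ < 1)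
  have hlate : ∀ᶠ i in atTop, ∀ j ∈ Finset.range (max J (j₀ + 1)), GoodIdx π D j →
      D.L i < 100 * b j * (2 : ℝ)⁻¹ ^ j := by
    rw [Filter.eventually_all_finset]
    intro j _
    by_cases h : GoodIdx π D j
    · have h0 : 0 < 100 * b j * (2 : ℝ)⁻¹ ^ j := by
        have := hbpos j h
        positivity
      filter_upwards [D.L_lim.eventually (Iio_mem_nhds h0)] with i hi _ using hi
    · exact Eventually.of_forall fun i h' => absurd h' h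
  have hev : ∀ᶠ i in atTop, ∃ σ' σ : DStart π D, IsRestart σ'.S σ.S ∧
      100 * σ.S.b * σ.R ≤ D.L i ∧ D.L i ≤ π.rs / 1000 * σ.R := by
    filter_upwards [hcov, hlate, hI.comp s D rfl b₀ hb₀] with i hi hl hc
    obtain ⟨j, hj, h1, h2, h3⟩ := hi
    have hjJ : max J (j₀ + 1) ≤ j := by
      by_contra hcon
      have := hl j (Finset.mem_range.2 (not_le.1 hcon)) hj
      linarith
    have hjJ1 : J ≤ j := (le_max_left _ _).trans hjJ
    have hjJ2 : j₀ + 1 ≤ j := (le_max_right _ _).trans hjJ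
    rcases h3 with h3 | ⟨j', hj', hbj', hle, hmin⟩
    · omega
    · have h1' : 100 * (F j hj).S.b * (F j hj).R ≤ D.L i := by
        rw [← hbj j hj, hFR]
        exact h1
      have h2' : D.L i ≤ π.rs / 1000 * (F j hj).R := by
        rw [hFR]
        exact h2
      refine ⟨F j' hj', F j hj, ?_, h1', h2'⟩
      obtain ⟨a, ha⟩ : ∃ a : ℕ, b j' = (2 : ℝ)⁻¹ ^ a := by
        rcases hdy j' hj' with h0 | h0
        · rw [h0] at hbj'
          exact absurd hbj' (lt_irrefl _)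
        · exact h0
      have hsmall : (F j hj).S.b < b₀ :=
        cov_b_lt (F j hj) hc (by rw [← hbj j hj]; exact hbpos j hj) h1' h2'
      have hRR₀ : (F j hj).R ≤ R₀ := by
        rw [hFR]
        exact (pow_le_pow_of_le_one (by norm_num) (by norm_num) hjJ1).trans hJ.le
      obtain ⟨hU, hr⟩ := hsm (F j hj).R (cov_R_pos _) hRR₀
      have hprev : GoodIdx π D (j - 1) := by
        have := cov_prev_good D htwo (F j hj) (by rw [hFj]; omega) hsmall.le hU hr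
        rwa [hFj] at this
      have hex := exact_restart (good := GoodIdx π D) (j := j) (j' := j') (f := π.f) (a := a)
        (by rw [← ha]; exact hle) (by rw [← ha]; exact hFb j' hj')
        (fun j'' hj'' h'' => hmin j'' hj'' (by rw [ha]; exact h'')) (by omega) hprev
      refine cov_isRestart _ _ (by rw [← hbj j' hj']; exact hbj') ?_
      rw [hFR, hFR, ← hbj j' hj', ha]
      exact hex
  obtain ⟨φ, hφ, hP⟩ := extraction_of_eventually_atTop hev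
  choose σ' σ h1 h2 h3 using hP
  exact ⟨φ, σ', σ, hφ, h1, h2, h3⟩

end assembly

/-- **CO Proposition 4.5.** -/
theorem cover_main (m n Q : ℕ) (hm : 1 ≤ m) (hn : 1 ≤ n) (hQ : 1 ≤ Q) : CoverStmt m n Q := by
  obtain ⟨J₁, α, c, h⟩ := inputs_ev m n Q hm hn hQ
  refine ⟨J₁, fun B hJ hB => (h B hJ hB).mono fun π _ hI hS s D hDQ => ?_⟩
  subst hDQ
  by_cases hb : ∃ σ : DStart π D, σ.S.b = 0
  · obtain ⟨σ, hσ⟩ := hb
    exact caseA hI D rfl σ hσ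
  · push Not at hb
    obtain ⟨φ, σ', σ, hφ, h1, h2, h3⟩ := select hm hI D rfl hS hb
    exact caseB hI D rfl φ hφ σ' σ h1 h2 h3

end Claimed.Agent.R322.Freq
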