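import Claimed.Agent.R322.Pack056
import Claimed.Agent.R322.Freq.Bulk
import Claimed.Agent.R322.Pack057

/-!
# CO Lemma 4.2 (weighted bounds)

Owner: helper109 (package BP-CO4-weights).  Leaves `L-Freq-wt-*`.  `frame` and `weights` are PROVED from the leaves.

All constants of the leaves are EXPLICIT in the fitting parameters (`π.C`, `π.c`, `π.m₀`, `π.k`, `Cmass m Q`); only the final statements use `π.Ca`.

* `S.Rg r` : the fitting range `0 < r`, `100 b ≤ r ≤ 4 r_*`.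
* `S.Wit w x` : `x` is a witness of `t(w) > 0`: `ℓ_x - |w - x| > t(w)/2 > 0`.
* `paying` : the paying set of a witness (CO "we next locate the height that pays for a witness").
-/

set_option autoImplicit false

open scoped ENNReal ContDiff
open MeasureTheory Filter Topology

namespace Claimed.Agent.R322.Freq

open Claimed.Agent.R322.Tube Claimed.Agent.R322.Tool

variable {m n : ℕ}

/-- the fitting range of radii -/
def Start.Rg {Q : ℕ} {π : Par} (S : Start m n Q π) (r : ℝ) : Prop := 0 < r ∧ 100 * S.b ≤ r ∧ r ≤ 4 * π.rs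

/-- witnesses -/
def Start.Wit {Q : ℕ} {π : Par} (S : Start m n Q π) (w x : E m) : Prop :=
  ‖x‖ < 5 ∧ 0 < tent S.ℓ w ∧ tent S.ℓ w / 2 < S.ℓ x - ‖w - x‖

/-! ### heights, masses, positivity of `δ` -/

/-- qualitative facts of the working cylinder of a start -/
theorem wtk_frOK {Q : ℕ} (hm : 1 ≤ m) (B : FitBase) (hB : B.Adm m) (hJ : 4 ≤ B.J) :
    Ev B (fun π => ∀ S : Start m n Q π, FrOK (π.C * π.m₀) S.N) := by
  obtain ⟨h₀, hh₀, H⟩ := Lin.exists_cylOK m n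
  refine ((start_geo (n := n) (Q := Q) hm B hB hJ).and
    (Ev.hc_lt B (min (2 / 9) h₀) (lt_min (by norm_num) hh₀))).mono ?_
  rintro π - ⟨h1, h2⟩ S
  have hG := (h1 S).1
  have hh : S.N.h = π.hc := S.N_h
  exact ⟨hG, H _ S.N hG (by rw [hh]; exact h2.le.trans (min_le_right _ _)),
    fun X hX => ⟨npr S.N.u X, hX.2.trans_le (by rw [hh]; exact h2.le.trans (min_le_left _ _))⟩⟩

/-- (leaf `L-Freq-wt-height`)  PLAN.  `S.height_p`, `tent_le_add`: `t(npr X) ≤ b + |npr X| ≤ r/100 + ρ < 2 r` (`rho_facts`, `start_geo`);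
`qd = r⁻¹ sSup ...`: `csSup_le` (nonempty or `sSup ∅ = 0`), `le_csSup` (bounded by `N.h`). -/
theorem wt_height {Q : ℕ} (hm : 1 ≤ m) (B : FitBase) (hB : B.Adm m) (hJ : 4 ≤ B.J) :
    Ev B (fun π => ∀ (S : Start m n Q π) (r : ℝ), S.Rg r →
      (∀ X, S.In X → npr S.N.u X ∈ Bs S.N.u r → ‖zz S.N.u X‖ ≤ qd S.N r * r) ∧
      0 ≤ qd S.N r ∧ qd S.N r ≤ π.C * π.m₀ * 2 ^ π.k * r ^ (π.k - 1)) := by
  refine ((start_geo (n := n) (Q := Q) hm B hB hJ).and (Ev.pos B)).mono ?_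
  rintro π hπ ⟨h₁, h₂⟩ S r hr
  obtain ⟨hr0, hrb, -⟩ := hr
  obtain ⟨hgeo, -⟩ := h₁ S
  have hm₀ : 0 < π.m₀ := h₂.2.2.1
  have hC : 1 ≤ π.C := by have := hB.C_ge; rw [← hπ] at this; exact this
  have hk : 1 ≤ π.k := by
    have := hB.k_gt
    rw [← hπ] at this
    have h' : 8 + m < 2 * π.k := this
    omega
  set A : Set ℝ := {t : ℝ | ∃ X ∈ S.N.W.support, X ∈ Cyl S.N.u S.N.Ω S.N.h ∧
    npr S.N.u X ∈ Bs S.N.u r ∧ t = ‖zz S.N.u X‖} with hA
  have hsupz : S.N.supz (Bs S.N.u r) = sSup A := rfl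
  have hbdd : BddAbove A := ⟨S.N.h, by rintro t ⟨X, -, hX, -, rfl⟩; exact hX.2.le⟩
  have hqd : qd S.N r * r = sSup A := by
    rw [qd, hsupz]; field_simp
  have hub : ∀ t ∈ A, t ≤ π.C * π.m₀ * (2 * r) ^ π.k := by
    rintro t ⟨X, hXs, hXc, hXb, rfl⟩
    have hXc' : X ∈ Cyl S.N.u (Metric.ball 0 4) π.fit.hc := by rw [← S.N_Ω, ← S.N_h]; exact hXc
    have h3 : ‖zz S.N.u X‖ ≤ π.C * π.m₀ * tent S.ℓ (npr S.N.u X) ^ π.k := S.height_p X hXs hXc'
    have h4 := tent_le_add S.isFail (npr S.N.u X)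
    have h5 := ((rho_facts hgeo).2.1 (npr S.N.u X)).1
    have h6 : rho S.N.u (npr S.N.u X) < r := hXb
    have h7 : tent S.ℓ (npr S.N.u X) ≤ 2 * r := by
      have : bpar S.ℓ = S.b := rfl
      linarith
    have h8 := tent_nonneg S.isFail (npr S.N.u X)
    refine h3.trans ?_
    gcongr
  refine ⟨fun X hX hXb => ?_, ?_, ?_⟩
  · rw [hqd]
    refine le_csSup hbdd ⟨X, hX.1, ?_, hXb, rfl⟩
    rw [S.N_Ω, S.N_h]
    exact hX.2
  · rw [qd, hsupz]
    refine mul_nonneg (by positivity) (Real.sSup_nonneg ?_)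
    rintro t ⟨X, -, -, -, rfl⟩
    exact norm_nonneg _
  · have h9 : sSup A ≤ π.C * π.m₀ * (2 * r) ^ π.k := Real.sSup_le hub (by positivity)
    rw [qd, hsupz]
    calc r⁻¹ * sSup A ≤ r⁻¹ * (π.C * π.m₀ * (2 * r) ^ π.k) := by gcongr
      _ = π.C * π.m₀ * 2 ^ π.k * r ^ (π.k - 1) := by
        obtain ⟨k', hk'⟩ : ∃ k', π.k = k' + 1 := ⟨π.k - 1, by omega⟩
        rw [hk', mul_pow, Nat.add_sub_cancel, pow_succ r k']
        field_simp

/-- **upper mass bounds** (leaf `L-Freq-wt-mass`).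
PLAN.  `IsGood.ratio`, `IsGood.dom`.  Ball `B_s(X)`, `|X| ≤ 3`, `s ≤ 1`: if it contains no support point its measure is `0` (`W.μ_compl_support`); otherwise
`B_s(X) ⊆ B_{2s}(X')`, `X'` a support point, `W.upper_mass` from `2 s` to `100`, `W.ratio_le_of_dist` (`δ = 4`, centre `0`, radius `104`), `W.ratio_mono` up to `1000`:
`μ(B_s(X)) ≤ (1.04)^m (Q + 1) kap (2 s)^m ≤ Cmass s^m`.  Disc: a support point of the cylinder over `Bs r` has `|X| ≤ δ r + r + |u 0| < 3 r`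
(`wt_height`, `start_geo`), `μ(B_{3r}(0)) ≤ (Q + 1) kap (3 r)^m`. -/
theorem wt_mass {Q : ℕ} (hm : 1 ≤ m) (B : FitBase) (hB : B.Adm m) (hJ : 4 ≤ B.J) :
    Ev B (fun π => ∀ S : Start m n Q π,
      (∀ (X : E (m + n)) (s : ℝ), ‖X‖ ≤ 3 → 0 < s → s ≤ 1 →
        S.N.W.μ (Metric.ball X s) ≤ ENNReal.ofReal (Cmass m Q * s ^ m)) ∧
      ∀ r : ℝ, S.Rg r → S.N.μ {X | npr S.N.u X ∈ Bs S.N.u r} ≤ ENNReal.ofReal (Cmass m Q * r ^ m)) := by
  refine (((((start_geo (n := n) (Q := Q) hm B hB hJ).and (wt_height (n := n) (Q := Q) hm B hB hJ)).and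
    (Ev.pos B)).and (Ev.hc_lt B (2 / 9) (by norm_num))).and
    (Ev.m₀_lt B (fun _ => 1 / (B.C * 8 ^ B.k)) (fun _ => by have := hB.C_ge; positivity))).mono ?_
  rintro π hπ ⟨⟨⟨⟨h₁, h₂⟩, h₃⟩, h₄⟩, h₅⟩ S
  subst hπ
  obtain ⟨hgeo, -, hu0, -⟩ := h₁ S
  obtain ⟨-, -, hm₀, -, -, hrs0, hrs1, -, -, hlm0, hlm1, heg0, heg1⟩ := h₃
  have hC : 1 ≤ π.C := hB.C_ge
  have hk : 5 ≤ π.k := by have := hB.k_gt; omega
  have hkap := kap_pos m
  have hdom := S.good.dom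
  have hratio : S.N.W.ratio 0 1000 ≤ Q + 1 := S.good.ratio.trans (by linarith)
  have hsub1000 : Metric.closedBall (0 : E (m + n)) 1000 ⊆ S.N.W.U :=
    (Metric.closedBall_subset_closedBall (by norm_num)).trans hdom
  constructor
  · intro X s hX hs0 hs1
    have hsubX : Metric.closedBall X 100 ⊆ S.N.W.U := by
      refine (Metric.closedBall_subset_closedBall' ?_).trans hdom
      rw [dist_zero_right]; linarith
    have e1 := S.N.W.upper_mass hm hs0 (by linarith : s ≤ 100) hsubX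
    have e2 : S.N.W.ratio X 100 ≤ (1 + 3 / 100) ^ m * S.N.W.ratio 0 (100 + 3) :=
      S.N.W.ratio_le_of_dist (by norm_num) (by rw [dist_zero_right]; exact hX)
        ((Metric.closedBall_subset_closedBall (by norm_num)).trans hdom)
    have e3 : S.N.W.ratio 0 (100 + 3) ≤ S.N.W.ratio 0 1000 :=
      S.N.W.ratio_mono hm (by norm_num) (by norm_num) hsub1000
    refine e1.trans (ENNReal.ofReal_le_ofReal ?_)
    have e4 : S.N.W.ratio X 100 ≤ 4 ^ m * (Q + 1) := by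
      refine e2.trans ?_
      have : ((1 : ℝ) + 3 / 100) ^ m ≤ 4 ^ m := by gcongr; norm_num
      exact mul_le_mul this (e3.trans hratio) (S.N.W.ratio_nonneg _ (by norm_num)) (by positivity)
    calc S.N.W.ratio X 100 * (kap m * s ^ m) ≤ 4 ^ m * (Q + 1) * (kap m * s ^ m) := by gcongr
      _ = Cmass m Q * s ^ m := by unfold Cmass; ring
  · intro r hr
    obtain ⟨hz, hd0, hd1⟩ := h₂ S r hr
    obtain ⟨hr0, hrb, hr4⟩ := hr
    have hNh : S.N.h ≤ 2 / 9 := by rw [S.N_h]; exact h₄.le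
    have hopen := cyla_isOpen hgeo S.N.isOpen_Ω hNh
    have hCm₀ : π.C * π.m₀ * 8 ^ π.k < 1 := by
      have h6 : π.m₀ < 1 / (π.C * 8 ^ π.k) := h₅
      rw [lt_div_iff₀ (by positivity)] at h6
      linarith
    have hr4' : r ≤ 4 := by linarith
    have hd : qd S.N r ≤ 1 := by
      refine hd1.trans ?_
      have a1 : r ^ (π.k - 1) ≤ 4 ^ (π.k - 1) := by gcongr
      have a2 : (4 : ℝ) ^ (π.k - 1) ≤ 4 ^ π.k := pow_le_pow_right₀ (by norm_num) (by omega)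
      have a3 : (2 : ℝ) ^ π.k * 4 ^ π.k = 8 ^ π.k := by rw [← mul_pow]; norm_num
      calc π.C * π.m₀ * 2 ^ π.k * r ^ (π.k - 1) ≤ π.C * π.m₀ * 2 ^ π.k * 4 ^ π.k := by
            gcongr; exact a1.trans a2
        _ = π.C * π.m₀ * 8 ^ π.k := by rw [mul_assoc, a3]
        _ ≤ 1 := hCm₀.le
    have hb0 : 0 ≤ S.b := bpar_nonneg S.isFail
    have hb1 : S.b ≤ 1 := (bpar_le S.isFail hlm0.le).trans hlm1
    have hu0' : ‖S.N.u 0‖ ≤ r / 100 := by
      refine hu0.trans ?_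
      have a1 : S.b ^ π.k ≤ S.b := by
        calc S.b ^ π.k ≤ S.b ^ 1 := pow_le_pow_of_le_one hb0 hb1 (by omega)
          _ = S.b := pow_one _
      have a2 : π.C * π.m₀ ≤ 1 := by
        have h8 : (1 : ℝ) ≤ 8 ^ π.k := one_le_pow₀ (by norm_num)
        have h9 : 0 < π.C * π.m₀ := by positivity
        nlinarith
      calc π.C * π.m₀ * S.b ^ π.k ≤ 1 * S.b := mul_le_mul a2 a1 (by positivity) zero_le_one
        _ ≤ r / 100 := by linarith
    have hsub : {X | npr S.N.u X ∈ Bs S.N.u r} ∩ Cyl S.N.u S.N.Ω S.N.h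
        ⊆ S.N.W.supportᶜ ∪ Metric.ball 0 (3 * r) := by
      rintro X ⟨hXb, hXc⟩
      by_cases hXs : X ∈ S.N.W.support
      · right
        have hIn : S.In X := ⟨hXs, by rw [S.N_Ω, S.N_h] at hXc; exact hXc⟩
        have a1 := hz X hIn hXb
        have a2 : rho S.N.u (npr S.N.u X) < r := hXb
        have a3 : ‖Fg S.N.u 0‖ = ‖S.N.u 0‖ := by
          have := norm_sq_mkHV (0 : E m) (S.N.u 0)
          rw [norm_zero] at this
          have h' : ‖Fg S.N.u 0‖ ^ 2 = ‖S.N.u 0‖ ^ 2 := by rw [Fg, this]; ring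
          exact (pow_left_inj₀ (norm_nonneg _) (norm_nonneg _) two_ne_zero).1 h'
        have a4 : X = zz S.N.u X + (Fg S.N.u (npr S.N.u X) - Fg S.N.u 0) + Fg S.N.u 0 := by
          unfold zz; abel
        have a5 : ‖Fg S.N.u (npr S.N.u X) - Fg S.N.u 0‖ = rho S.N.u (npr S.N.u X) := rfl
        rw [Metric.mem_ball, dist_zero_right]
        calc ‖X‖ = ‖zz S.N.u X + (Fg S.N.u (npr S.N.u X) - Fg S.N.u 0) + Fg S.N.u 0‖ := by rw [← a4]
          _ ≤ ‖zz S.N.u X‖ + ‖Fg S.N.u (npr S.N.u X) - Fg S.N.u 0‖ + ‖Fg S.N.u 0‖ := norm_add₃_le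
          _ < 3 * r := by
            rw [a3, a5]
            nlinarith
      · left; exact hXs
    calc S.N.μ {X | npr S.N.u X ∈ Bs S.N.u r}
        = S.N.W.μ ({X | npr S.N.u X ∈ Bs S.N.u r} ∩ Cyl S.N.u S.N.Ω S.N.h) :=
          Measure.restrict_apply' hopen.measurableSet
      _ ≤ S.N.W.μ (S.N.W.supportᶜ ∪ Metric.ball 0 (3 * r)) := measure_mono hsub
      _ ≤ S.N.W.μ S.N.W.supportᶜ + S.N.W.μ (Metric.ball 0 (3 * r)) := measure_union_le _ _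
      _ = S.N.W.μ (Metric.ball 0 (3 * r)) := by rw [S.N.W.μ_compl_support, zero_add]
      _ ≤ ENNReal.ofReal (S.N.W.ratio 0 1000 * (kap m * (3 * r) ^ m)) :=
          S.N.W.upper_mass hm (by positivity) (by linarith) hsub1000
      _ ≤ ENNReal.ofReal (Cmass m Q * r ^ m) := by
        refine ENNReal.ofReal_le_ofReal ?_
        have h3 : (3 : ℝ) ^ m ≤ 4 ^ m := by gcongr; norm_num
        calc S.N.W.ratio 0 1000 * (kap m * (3 * r) ^ m) ≤ (Q + 1) * (kap m * (3 * r) ^ m) := by gcongr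
          _ = (Q + 1) * kap m * 3 ^ m * r ^ m := by rw [mul_pow]; ring
          _ ≤ (Q + 1) * kap m * 4 ^ m * r ^ m := by gcongr
          _ = Cmass m Q * r ^ m := by unfold Cmass; ring

/-- **`δ > 0`** (leaf `L-Freq-wt-dpos`).
PLAN.  `Base.Exit.exists_exit m n` gives `J₀, ε₀`.  If `qd S.N r ≤ 0` then every `X` with `S.In X`, `npr X ∈ Bs r` has `zz X = 0` (`wt_height`), i.e. `X = F(npr X)`,
`prV X = u (prH X)`.  `A = ball 0 (r/4)`: support points of `A` satisfy `S.In X`, `ρ(npr X) ≤ 2|X| + b < r` (`start_geo`).  So `0` is regular, contradicting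
`S.sing`.  (`0 ∈ support` is part of `S.sing`; slope `≤ C m₀ ≤ ε₀` by `Ev.m₀_lt`.) -/
theorem wt_dpos (m n Q : ℕ) (hm : 1 ≤ m) : ∃ J₁ : ℕ, ∀ B : FitBase, J₁ ≤ B.J → B.Adm m →
    Ev B (fun π => ∀ (S : Start m n Q π) (r : ℝ), S.Rg r → 0 < qd S.N r) := by
  obtain ⟨J₀, ε₀, -, hε₀, hexit⟩ := Base.Exit.exists_exit m n
  refine ⟨J₀ + 4, fun B hJ hB => ?_⟩
  have hJ4 : 4 ≤ B.J := by omega
  refine ((((start_geo (n := n) (Q := Q) hm B hB hJ4).and (wt_height (n := n) (Q := Q) hm B hB hJ4)).and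
    (Ev.pos B)).and
    (Ev.m₀_lt B (fun _ => ε₀ / B.C) (fun _ => by have := hB.C_ge; positivity))).mono ?_
  rintro π hπ ⟨⟨⟨h₁, h₂⟩, h₃⟩, h₄⟩ S r hr
  subst hπ
  obtain ⟨hgeo, -, -, hnear, -⟩ := h₁ S
  obtain ⟨hz, hd0, -⟩ := h₂ S r hr
  obtain ⟨hr0, hrb, hr4⟩ := hr
  have hrs1 : π.rs ≤ 1 := h₃.2.2.2.2.2.2.1
  have hC : 1 ≤ π.C := hB.C_ge
  by_contra hcon
  have hd : qd S.N r = 0 := le_antisymm (not_lt.1 hcon) hd0
  refine S.sing.2 (hexit S.N.W 0 (Metric.ball 0 (r / 4)) S.N.u S.sing.1 Metric.isOpen_ball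
    (Metric.mem_ball_self (by positivity)) ?_ ?_ ?_ ?_)
  · refine (Metric.ball_subset_closedBall.trans (Metric.closedBall_subset_closedBall ?_)).trans S.good.dom
    linarith
  · have h5 : ContDiff ℝ π.J S.N.u := S.ref.smooth
    exact h5.of_le (by exact_mod_cast (by omega : J₀ ≤ π.J))
  · intro X _
    have h5 : ‖fderiv ℝ S.N.u (prH m n X)‖ ≤ π.C * π.m₀ := S.ref.slope _
    have h6 : π.m₀ < ε₀ / π.C := h₄
    rw [lt_div_iff₀ (by linarith)] at h6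
    linarith
  · intro X hXs hXA
    rw [Metric.mem_ball, dist_zero_right] at hXA
    obtain ⟨hIn, -, -, hρ⟩ := hnear X hXs (by linarith)
    have hXb : npr S.N.u X ∈ Bs S.N.u r := by
      show rho S.N.u (npr S.N.u X) < r
      linarith
    have h5 := hz X hIn hXb
    rw [hd, zero_mul] at h5
    have h6 : zz S.N.u X = 0 := norm_le_zero_iff.1 h5
    have h7 : X = mkHV (npr S.N.u X) (S.N.u (npr S.N.u X)) := by
      have : X - Fg S.N.u (npr S.N.u X) = 0 := h6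
      exact sub_eq_zero.1 this
    have h8 : prH m n X = npr S.N.u X := by
      conv_lhs => rw [h7]
      exact prH_mkHV _ _
    have h9 : prV m n X = S.N.u (npr S.N.u X) := by
      conv_lhs => rw [h7]
      exact prV_mkHV _ _
    rw [h8, h9]

/-! ### witnesses and paying sets -/

/-- elementary facts on witnesses (leaf `L-Freq-wt-wit`; `Freq/Tent.lean`: `tent_lip`, `witness_size`, `tent_witness`; `|w| ≤ ρ(w) < r`, `b ≤ r/100`) -/
theorem wit_facts {Q : ℕ} {π : Par} {κ : ℝ} (S : Start m n Q π) (hu : Geo κ S.N.u) {r : ℝ} (hr : 100 * S.b ≤ r) {w x : E m}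
    (hw : w ∈ Bs S.N.u r) (h : S.Wit w x) :
    0 < S.ℓ x ∧ ‖w - x‖ < S.ℓ x ∧ tent S.ℓ w < 2 * S.ℓ x ∧ S.ℓ x ≤ r / 15 ∧
    (∀ y, tent S.ℓ y ≤ 2 * S.ℓ x + ‖y - w‖) ∧ ∃ j : ℕ, S.ℓ x = (2 : ℝ)⁻¹ ^ j := by
  obtain ⟨hx5, ht, hwx⟩ := h
  have hn := norm_nonneg (w - x)
  have hpos : 0 < S.ℓ x := by linarith
  have htw : tent S.ℓ w < 2 * S.ℓ x := by linarith
  have hρ : rho S.N.u w < r := hw
  have hwr : ‖w‖ < r := lt_of_le_of_lt ((rho_facts hu).2.1 w).1 hρ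
  have hb0 : 0 ≤ S.b := bpar_nonneg S.isFail
  refine ⟨hpos, by linarith, htw, ?_, fun y => ?_, ?_⟩
  · have h1 := witness_size S.isFail (w := w) hx5 (by linarith)
    refine h1.trans (max_le ?_ ?_)
    · have : bpar S.ℓ = S.b := rfl
      rw [this]
      linarith [norm_nonneg w]
    · linarith
  · have := tent_le_tent_add S.isFail y w
    linarith
  · rcases S.ℓ_dyadic x with h0 | h0
    · rw [h0] at hpos
      exact absurd hpos (lt_irrefl _)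
    · exact h0

/-- **position of the paying ball** (leaf `L-Freq-wt-paygeo`; base geometry only).
PLAN.  If `|w| < r/2`: `y₀ = w`; then `ρ ≤ (9/8)(r/2 + l/10) ≤ 0.57 r`, `dep ≥ 1/2`.  If `|w| ≥ r/2`: `y₀ = (1 - 4 l/|w|) w`; last item of `rho_facts`:
`ρ(w)² - ρ(y₀)² ≥ (3/4)(1 - t²)|w|² ≥ 3 l |w| ≥ (3/2) l r`, so `dep y₀ ≥ dep w + (3/2) l/r`; `dep` is `(9/4)/r`-Lipschitz (`ker_facts`):
`dep y ≥ dep w + 1.27 l/r` on `ball y₀ (l/10)`, `dep w' ≤ dep w + 0.57 l/r` on `ball w (l/4)`. -/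
theorem pay_geo {κ : ℝ} {u : E m → E n} (hu : Geo κ u) {r l : ℝ} (hl : 0 < l) (hlr : l ≤ r / 15) {w : E m} (hw : w ∈ Bs u r) :
    ∃ y₀ : E m, ‖y₀ - w‖ ≤ 4 * l ∧ ∀ y ∈ Metric.ball y₀ (l / 10),
      y ∈ Bs u r ∧ l / r ≤ dep u r y ∧ ∀ w' ∈ Metric.ball w (l / 4), dep u r w' ≤ 2 * dep u r y := by
  have hr : 0 < r := by linarith
  obtain ⟨k1, k2, k3, k4, -⟩ := ker_facts hu hr
  obtain ⟨r1, r2, r3, r4, r5⟩ := rho_facts hu
  have hlr' : l / r ≤ 1 / 15 := by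
    rw [div_le_iff₀ hr]; linarith
  have hlr0 : 0 < l / r := div_pos hl hr
  by_cases hc : ‖w‖ < r / 2
  · refine ⟨w, by simp [hl.le], fun y hy => ?_⟩
    rw [mem_ball_iff_norm] at hy
    have hy1 : ‖y‖ ≤ ‖w‖ + ‖y - w‖ := by
      calc ‖y‖ = ‖w + (y - w)‖ := by congr 1; abel
        _ ≤ _ := norm_add_le _ _
    have hy2 : rho u y ≤ 0.57 * r := by
      refine (r2 y).2.trans ?_
      linarith
    have hρ0 := rho_nonneg u y
    have hdep : 1 / 2 ≤ dep u r y := by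
      unfold dep
      refine le_trans ?_ (le_max_right _ _)
      have : rho u y ^ 2 / r ^ 2 ≤ 1 / 2 := by
        rw [div_le_iff₀ (by positivity)]
        nlinarith
      linarith
    refine ⟨?_, by linarith, fun w' _ => by linarith [(k1 w').2]⟩
    show rho u y < r
    linarith
  · push Not at hc
    have hw0 : 0 < ‖w‖ := by linarith
    set t : ℝ := 1 - 4 * l / ‖w‖ with ht
    have hq : 4 * l / ‖w‖ ≤ 1 := by
      rw [div_le_one hw0]; linarith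
    have hq0 : 0 < 4 * l / ‖w‖ := by positivity
    have ht0 : 0 ≤ t := by rw [ht]; linarith
    have ht1 : t ≤ 1 := by rw [ht]; linarith
    have hyw : ‖t • w - w‖ = 4 * l := by
      have : t • w - w = (-(4 * l / ‖w‖)) • w := by
        rw [ht, sub_smul, one_smul, neg_smul]; abel
      rw [this, norm_smul, norm_neg, Real.norm_of_nonneg hq0.le]
      field_simp
    have hgain : 3 / 2 * l * r ≤ rho u w ^ 2 - rho u (t • w) ^ 2 := by
      refine le_trans ?_ (r5 w t ht0 ht1)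
      have e1 : (1 - t ^ 2) * ‖w‖ ^ 2 = (1 + t) * (4 * l * ‖w‖) := by
        rw [ht]; field_simp; ring
      have e2 : 3 / 4 * (1 - t ^ 2) * ‖w‖ ^ 2 = 3 / 4 * ((1 - t ^ 2) * ‖w‖ ^ 2) := by ring
      rw [e2, e1]
      have : 4 * l * (r / 2) ≤ 4 * l * ‖w‖ := by gcongr
      have h3 : 0 ≤ t * (4 * l * ‖w‖) := by positivity
      nlinarith
    have hdw : dep u r w = 1 - rho u w ^ 2 / r ^ 2 := by
      unfold dep
      refine max_eq_right ?_
      have hρ : rho u w < r := hw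
      have hρ0 := rho_nonneg u w
      have : rho u w ^ 2 / r ^ 2 ≤ 1 := by
        rw [div_le_one (by positivity)]
        nlinarith
      linarith
    have hd0 : dep u r w + 3 / 2 * (l / r) ≤ dep u r (t • w) := by
      rw [hdw]
      unfold dep
      refine le_trans ?_ (le_max_right _ _)
      have : 3 / 2 * (l / r) = 3 / 2 * l * r / r ^ 2 := by field_simp
      rw [this]
      have h4 : 3 / 2 * l * r / r ^ 2 ≤ (rho u w ^ 2 - rho u (t • w) ^ 2) / r ^ 2 := by gcongr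
      rw [sub_div] at h4
      linarith
    refine ⟨t • w, hyw.le, fun y hy => ?_⟩
    rw [mem_ball_iff_norm] at hy
    have hy1 : dep u r (t • w) - 9 / 40 * (l / r) ≤ dep u r y := by
      have h5 := k4 (t • w) y
      rw [norm_sub_rev] at h5
      have h6 : 9 / 4 * ‖y - t • w‖ / r ≤ 9 / 4 * (l / 10) / r := by gcongr
      have h7 : 9 / 4 * (l / 10) / r = 9 / 40 * (l / r) := by ring
      have := (abs_le.1 h5).2
      linarith
    have hdw0 := (k1 w).1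
    have hpos : 0 < dep u r y := by linarith
    refine ⟨?_, by linarith, fun w' hw' => ?_⟩
    · by_contra hcon
      rw [k2 y hcon] at hpos
      exact lt_irrefl _ hpos
    · rw [mem_ball_iff_norm] at hw'
      have h5 := k4 w' w
      have h6 : 9 / 4 * ‖w' - w‖ / r ≤ 9 / 4 * (l / 4) / r := by gcongr
      have h7 : 9 / 4 * (l / 4) / r = 9 / 16 * (l / r) := by ring
      have := (abs_le.1 h5).2
      linarith

/-- horizontal argument against projected argument (leaf `L-Freq-wt-nprclose`).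
PLAN.  `X = F y + z`, `P_h(y) z = 0` (`Tube.tube_unique`): `⟨z, dF a⟩ = 0` for all `a`, i.e. `prH z = - (Du y)ᵀ prV z`; `prH X - y = prH z`. -/
theorem npr_close (m n : ℕ) : ∃ h₀ : ℝ, 0 < h₀ ∧ ∀ (κ : ℝ) (u : E m → E n), Geo κ u → ∀ X ∈ Tub u h₀,
    ‖prH m n X - npr u X‖ ≤ ‖fderiv ℝ u (npr u X)‖ * ‖zz u X‖ := by
  obtain ⟨h₀, hh₀, H⟩ := tube_unique m n
  refine ⟨h₀, hh₀, fun κ u hu X hX => ?_⟩
  have h3 := (H κ u hu X hX).2.2.1
  have e1 : prH m n X - npr u X = prH m n (zz u X) := by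
    unfold zz Fg
    rw [map_sub, prH_mkHV]
  have e2 : ContinuousLinearMap.adjoint (dF (fderiv ℝ u (npr u X))) (zz u X) = 0 :=
    (PhA_eq_zero_iff _ _).1 h3
  rw [adjoint_dF_apply] at e2
  have e3 : prH m n (zz u X) = - ContinuousLinearMap.adjoint (fderiv ℝ u (npr u X)) (prV m n (zz u X)) :=
    eq_neg_of_add_eq_zero_left e2
  rw [e1, e3, norm_neg]
  calc ‖ContinuousLinearMap.adjoint (fderiv ℝ u (npr u X)) (prV m n (zz u X))‖
      ≤ ‖ContinuousLinearMap.adjoint (fderiv ℝ u (npr u X))‖ * ‖prV m n (zz u X)‖ :=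
        ContinuousLinearMap.le_opNorm _ _
    _ = ‖fderiv ℝ u (npr u X)‖ * ‖prV m n (zz u X)‖ := by
        rw [LinearIsometryEquiv.norm_map]
    _ ≤ _ := by
        gcongr
        exact norm_prV_le _

theorem wtk_norm_le_add (X : E (m + n)) : ‖X‖ ≤ ‖prH m n X‖ + ‖prV m n X‖ := by
  calc ‖X‖ = ‖inH m n (prH m n X) + inV m n (prV m n X)‖ := by rw [inH_prH_add_inV_prV]
    _ ≤ ‖inH m n (prH m n X)‖ + ‖inV m n (prV m n X)‖ := norm_add_le _ _
    _ = _ := by rw [norm_inH, norm_inV]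

/-- **the paying set of a witness** (leaf `L-Freq-wt-paying`).
PLAN.  `l = ℓ_x`.  `y₀` from `pay_geo`; `|y₀ - x| < 5 l < 30 l`.  `S.sep x _ _ y₀ _ (gr u) _` (`ConeSet` by `start_geo`, `C m₀ ≤ ε₁`) gives the set `𝒫` of mass `≥ c l^m`.
`A = 𝒫 ∩ support ∩ {hwt ≥ 1/2}` has the same measure (`W.μ_compl_support`, `lowtilt_hwt`, `ε₀ ≤ 1/100`; outer measure: `measure_inter_conull`-type).
For `X ∈ A`: `|X| ≤ 10`, `|prH X| < 3` (`|y₀| ≤ |w| + 4 l ≤ 2`), so `X` is in the cylinder (`S.cover`), hence `N.μ A = W.μ A`;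
`|z| ≤ C m₀ t(prH X)^k ≤ C m₀ (7 l)^k` (`S.height_h`, `wit_facts`); `|npr X - prH X| ≤ |z|/2 ≤ l/20` for `m₀` small (`npr_close`, `Ev.m₀_lt`);
so `npr X ∈ ball y₀ (l/10)`.  `|z| = |X - F(npr X)| ≥ c m₀ l^k` because `F(npr X) ∈ gr u`. -/
theorem paying (m n Q : ℕ) (hm : 1 ≤ m) (B : FitBase) (hB : B.Adm m) (hJ : 4 ≤ B.J) :
    Ev B (fun π => ∀ (S : Start m n Q π) (r : ℝ) (w x : E m), S.Rg r → w ∈ Bs S.N.u r → S.Wit w x →
      ∃ A : Set (E (m + n)), ENNReal.ofReal (π.c * S.ℓ x ^ m) ≤ S.N.μ A ∧ ∀ X ∈ A,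
        S.In X ∧ npr S.N.u X ∈ Bs S.N.u r ∧ ‖npr S.N.u X - w‖ ≤ 5 * S.ℓ x ∧
        S.ℓ x / r ≤ dep S.N.u r (npr S.N.u X) ∧
        (∀ w' ∈ Metric.ball w (S.ℓ x / 4), phiR S.N.u r w' ≤ 2 ^ 10 * phiR S.N.u r (npr S.N.u X)) ∧
        π.c * π.m₀ * S.ℓ x ^ π.k ≤ ‖zz S.N.u X‖ ∧ 1 / 2 ≤ hwt S.N.u (S.N.W.P X) X) := by
  obtain ⟨κ₀, hκ₀, Hlow⟩ := lowtilt_hwt m n hm
  obtain ⟨h₀, hh₀, Hnpr⟩ := npr_close m n
  have hC0 : 0 < B.C := lt_of_lt_of_le one_pos hB.C_ge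
  have e₁ := start_geo (n := n) (Q := Q) hm B hB hJ
  have e₂ := wtk_frOK (n := n) (Q := Q) hm B hB hJ
  have e₃ := Ev.pos B
  have e₄ := Ev.hc_lt B (min κ₀ h₀) (lt_min hκ₀ hh₀)
  have e₅ := Ev.m₀_lt B (fun _ => min (min κ₀ B.ε₁) (1 / (10 * 7 ^ B.k)) / B.C)
    (fun _ => div_pos (lt_min (lt_min hκ₀ hB.ε₁_pos) (by positivity)) hC0)
  have e₆ := Ev.rs_lt B (fun _ _ _ _ => 1 / 4) (fun _ _ _ _ => by norm_num)
  refine (((((e₁.and e₂).and e₃).and e₄).and e₅).and e₆).mono ?_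
  rintro π hπ ⟨⟨⟨⟨⟨a₁, a₂⟩, a₃⟩, a₄⟩, a₅⟩, a₆⟩ S r w x hr hw hx
  subst hπ
  obtain ⟨-, -, hm₀, -⟩ := a₃
  have hG := (a₁ S).1
  have hcone := (a₁ S).2.1
  have hok := a₂ S
  have hr0 : 0 < r := hr.1
  have hr1 : r ≤ 1 := by
    have h1 : π.rs < 1 / 4 := a₆
    linarith [hr.2.2]
  obtain ⟨l0, l1, l2, l3, l4, -⟩ := wit_facts S hG hr.2.1 hw hx
  set l : ℝ := S.ℓ x with hl
  have hl1 : l ≤ 1 := by linarith
  obtain ⟨y₀, hy₀, Hy₀⟩ := pay_geo hG l0 l3 hw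
  have hCm : π.C * π.m₀ ≤ min (min κ₀ π.ε₁) (1 / (10 * 7 ^ π.k)) := by
    have h1 : π.m₀ < min (min κ₀ π.ε₁) (1 / (10 * 7 ^ π.k)) / π.C := a₅
    rw [lt_div_iff₀ hC0] at h1
    linarith
  have hCm1 : π.C * π.m₀ ≤ κ₀ := hCm.trans ((min_le_left _ _).trans (min_le_left _ _))
  have hCm2 : π.C * π.m₀ ≤ π.ε₁ := hCm.trans ((min_le_left _ _).trans (min_le_right _ _))
  have hCm3 : π.C * π.m₀ ≤ 1 / (10 * 7 ^ π.k) := hCm.trans (min_le_right _ _)
  have hy₀x : ‖y₀ - x‖ < 30 * l := by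
    have : ‖y₀ - x‖ ≤ ‖y₀ - w‖ + ‖w - x‖ := norm_sub_le_norm_sub_add_norm_sub _ _ _
    linarith
  have hΓ : ConeSet π.ε₁ (gr S.N.u) := fun p hp p' hp' =>
    (hcone p hp p' hp').trans (mul_le_mul_of_nonneg_right hCm2 (norm_nonneg _))
  have hsep : ENNReal.ofReal (π.c * l ^ m) ≤ S.N.W.μ {X | ‖prH m n X - y₀‖ < π.c₀ * l ∧ ‖prV m n X‖ ≤ 1 ∧
      ‖S.N.W.P X - PH m n‖ ≤ π.ε₀ ∧ ∀ P ∈ gr S.N.u, π.c * π.m₀ * l ^ π.k ≤ ‖X - P‖} :=
    S.sep x hx.1 l0 y₀ hy₀x (gr S.N.u) hΓ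
  set PP : Set (E (m + n)) := {X | ‖prH m n X - y₀‖ < π.c₀ * l ∧ ‖prV m n X‖ ≤ 1 ∧
      ‖S.N.W.P X - PH m n‖ ≤ π.ε₀ ∧ ∀ P ∈ gr S.N.u, π.c * π.m₀ * l ^ π.k ≤ ‖X - P‖} with hPP
  have hh : S.N.h = π.hc := S.N_h
  have hlow := Hlow (π.C * π.m₀) S.N hG hCm1 (by rw [hh]; exact a₄.le.trans (min_le_left _ _)) S.ref.slope
  set G : Set (E (m + n)) := {X | rho S.N.u (npr S.N.u X) ≤ 1 → ‖S.N.W.P X - PH m n‖ ≤ 1 / 20 →
    1 / 2 ≤ hwt S.N.u (S.N.W.P X) X} with hGdef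
  have hG0 : S.N.μ Gᶜ = 0 := ae_iff.1 hlow
  have hc₀ : π.c₀ ≤ 1 / 100 := hB.c₀_le
  have hc₀l : π.c₀ * l ≤ l / 100 := by nlinarith
  have hwr : ‖w‖ < r := lt_of_le_of_lt ((rho_facts hG).2.1 w).1 hw
  have hcyl : ∀ X ∈ PP ∩ S.N.W.support, X ∈ Cyl S.N.u (Metric.ball 0 4) π.hc := by
    rintro X ⟨hX, hXs⟩
    have h1 : ‖prH m n X‖ < 3 := by
      have h2 : ‖prH m n X‖ ≤ ‖prH m n X - y₀‖ + ‖y₀‖ := by
        calc ‖prH m n X‖ = ‖(prH m n X - y₀) + y₀‖ := by rw [sub_add_cancel]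
          _ ≤ _ := norm_add_le _ _
      have h3 : ‖y₀‖ ≤ ‖y₀ - w‖ + ‖w‖ := by
        calc ‖y₀‖ = ‖(y₀ - w) + w‖ := by rw [sub_add_cancel]
          _ ≤ _ := norm_add_le _ _
      linarith [hX.1]
    refine S.cover X hXs ?_ h1
    linarith [wtk_norm_le_add X, hX.2.1]
  refine ⟨(PP ∩ S.N.W.support) ∩ G, ?_, ?_⟩
  · rw [measure_inter_conull hG0]
    have e1 : S.N.μ (PP ∩ S.N.W.support) = S.N.W.μ ((PP ∩ S.N.W.support) ∩ Cyl S.N.u S.N.Ω S.N.h) :=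
      Measure.restrict_apply' hok.ok.measurableSet
    have e2 : (PP ∩ S.N.W.support) ∩ Cyl S.N.u S.N.Ω S.N.h = PP ∩ S.N.W.support := by
      refine Set.inter_eq_left.2 fun X hX => ?_
      rw [S.N_Ω, hh]
      exact hcyl X hX
    rw [e1, e2, measure_inter_conull S.N.W.μ_compl_support]
    exact hsep
  · rintro X ⟨⟨hX, hXs⟩, hXG⟩
    have hXc := hcyl X ⟨hX, hXs⟩
    have ht : tent S.ℓ (prH m n X) ≤ 7 * l := by
      have h1 := l4 (prH m n X)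
      have h2 : ‖prH m n X - w‖ ≤ ‖prH m n X - y₀‖ + ‖y₀ - w‖ := norm_sub_le_norm_sub_add_norm_sub _ _ _
      linarith [hX.1]
    have hk : π.k ≠ 0 := by
      have := hB.k_gt
      omega
    have hz : ‖zz S.N.u X‖ ≤ l / 10 := by
      have h1 : ‖zz S.N.u X‖ ≤ π.C * π.m₀ * tent S.ℓ (prH m n X) ^ π.k := S.height_h X hXs hXc
      have h2 : tent S.ℓ (prH m n X) ^ π.k ≤ (7 * l) ^ π.k :=
        pow_le_pow_left₀ (tent_nonneg S.isFail _) ht _
      have h3 : l ^ π.k ≤ l := pow_le_of_le_one l0.le hl1 hk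
      have h4 : 0 ≤ π.C * π.m₀ := by positivity
      calc ‖zz S.N.u X‖ ≤ π.C * π.m₀ * (7 * l) ^ π.k := h1.trans (mul_le_mul_of_nonneg_left h2 h4)
        _ = (π.C * π.m₀ * 7 ^ π.k) * l ^ π.k := by rw [mul_pow]; ring
        _ ≤ (1 / (10 * 7 ^ π.k) * 7 ^ π.k) * l := by gcongr
        _ = l / 10 := by field_simp
    have hXT : X ∈ Tub S.N.u h₀ := ⟨npr S.N.u X, hXc.2.trans_le (a₄.le.trans (min_le_right _ _))⟩
    have hnp : ‖prH m n X - npr S.N.u X‖ ≤ l / 20 := by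
      refine (Hnpr _ _ hG X hXT).trans ?_
      have := hG.slope (npr S.N.u X)
      nlinarith [norm_nonneg (zz S.N.u X), norm_nonneg (fderiv ℝ S.N.u (npr S.N.u X))]
    have hball : npr S.N.u X ∈ Metric.ball y₀ (l / 10) := by
      rw [mem_ball_iff_norm]
      have h1 : ‖npr S.N.u X - y₀‖ ≤ ‖npr S.N.u X - prH m n X‖ + ‖prH m n X - y₀‖ :=
        norm_sub_le_norm_sub_add_norm_sub _ _ _
      rw [norm_sub_rev] at hnp
      linarith [hX.1]
    obtain ⟨b1, b2, b3⟩ := Hy₀ _ hball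
    refine ⟨⟨hXs, hXc⟩, b1, ?_, b2, fun w' hw' => ?_, ?_, ?_⟩
    · rw [mem_ball_iff_norm] at hball
      have h1 : ‖npr S.N.u X - w‖ ≤ ‖npr S.N.u X - y₀‖ + ‖y₀ - w‖ := norm_sub_le_norm_sub_add_norm_sub _ _ _
      linarith
    · unfold phiR
      rw [← mul_pow]
      exact pow_le_pow_left₀ ((ker_facts hG hr0).1 w').1 (b3 w' hw') 10
    · exact hX.2.2.2 (Fg S.N.u (npr S.N.u X)) ⟨npr S.N.u X, rfl⟩
    · refine hXG ?_ (hX.2.2.1.trans ?_)
      · have : rho S.N.u (npr S.N.u X) < r := b1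
        linarith
      · have := hB.ε₀_le
        linarith

/-! ### (4.9), (4.10) -/

/-- every witness scale is paid by the height: `δ r ≥ c m₀ ℓ^k`.  PROVED from `paying`, `wt_height`. -/
theorem pay_point (m n Q : ℕ) (hm : 1 ≤ m) (B : FitBase) (hB : B.Adm m) (hJ : 4 ≤ B.J) :
    Ev B (fun π => ∀ (S : Start m n Q π) (r : ℝ) (w x : E m), S.Rg r → w ∈ Bs S.N.u r → S.Wit w x →
      π.c * π.m₀ * S.ℓ x ^ π.k ≤ qd S.N r * r) := by
  refine ((paying m n Q hm B hB hJ).and ((wt_height (n := n) (Q := Q) hm B hB hJ).and (Ev.pos B))).mono ?_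
  rintro π hπ ⟨h₁, h₂, h₃⟩ S r w x hr hw hx
  obtain ⟨A, hA, hA'⟩ := h₁ S r w x hr hw hx
  have hc : 0 < π.c := by
    have := hB.c_pos
    rw [← hπ] at this
    exact this
  have hgeo : 0 < S.ℓ x := by
    have h1 := hx.2.2
    have h2 := hx.2.1
    have h3 := norm_nonneg (w - x)
    linarith
  have hne : A.Nonempty := by
    by_contra hcon
    rw [Set.not_nonempty_iff_eq_empty] at hcon
    rw [hcon, measure_empty, nonpos_iff_eq_zero, ENNReal.ofReal_eq_zero] at hA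
    have : 0 < π.c * S.ℓ x ^ m := by positivity
    linarith
  obtain ⟨X, hX⟩ := hne
  obtain ⟨i1, i2, -, -, -, i6, -⟩ := hA' X hX
  exact i6.trans ((h₂ S r hr).1 X i1 i2)

/-- Markov's inequality for a set which need not be measurable -/
theorem wt_integral_ge {α : Type*} [MeasurableSpace α] {μ : Measure α} {f : α → ℝ} (hf : Integrable f μ)
    (hf0 : ∀ x, 0 ≤ f x) (A : Set α) (a t : ℝ) (ha : 0 ≤ a)
    (hA : ENNReal.ofReal t ≤ μ A) (h : ∀ x ∈ A, a ≤ f x) : a * t ≤ ∫ x, f x ∂μ := by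
  have h1 : ENNReal.ofReal a * μ {x | ENNReal.ofReal a ≤ ENNReal.ofReal (f x)}
      ≤ ∫⁻ x, ENNReal.ofReal (f x) ∂μ :=
    mul_meas_ge_le_lintegral₀ hf.aemeasurable.ennreal_ofReal _
  have h2 : μ A ≤ μ {x | ENNReal.ofReal a ≤ ENNReal.ofReal (f x)} :=
    measure_mono fun x hx => ENNReal.ofReal_le_ofReal (h x hx)
  have h3 : ENNReal.ofReal (a * t) ≤ ENNReal.ofReal (∫ x, f x ∂μ) := by
    rw [ofReal_integral_eq_lintegral_ofReal hf (Filter.Eventually.of_forall hf0), ENNReal.ofReal_mul ha]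
    exact le_trans (mul_le_mul_right (hA.trans h2) _) h1
  exact (ENNReal.ofReal_le_ofReal_iff (integral_nonneg hf0)).1 h3

/-- integrability of the integrand of `H` -/
theorem FrOK.integrable_H {κ : ℝ} {N : NCyl m n} (h : FrOK κ N) {r : ℝ} (hr : 0 < r)
    (hfin : N.μ {X | npr N.u X ∈ Bs N.u r} ≠ ⊤) :
    Integrable (fun X => psiR N.u r (npr N.u X) * ‖zz N.u X‖ ^ 2 * hwt N.u (N.W.P X) X) N.μ := by
  obtain ⟨hdep, hdep0, -, -, -, hψc, -⟩ := ker_facts h.geo hr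
  have hM := h.meas
  have hρc : Continuous (rho N.u) :=
    ((contDiff_Fg_of (k := 4) h.geo.smooth).continuous.sub continuous_const).norm
  have hmeas : AEStronglyMeasurable
      (fun X => psiR N.u r (npr N.u X) * ‖zz N.u X‖ ^ 2 * hwt N.u (N.W.P X) X) N.μ := by
    unfold hwt
    exact ((hM.mComp _ hψc.continuous.measurable).mul (hM.mZz.norm.pow 2)).mul
      (((hM.mPV.norm.pow 2).aemeasurable.div
        ((hM.mComp _ hρc.measurable).pow 2).aemeasurable).aestronglyMeasurable)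
  set T := toMeasurable N.μ {X | npr N.u X ∈ Bs N.u r} with hT
  have hTm : MeasurableSet T := measurableSet_toMeasurable _ _
  have hTfin : N.μ T ≠ ⊤ := by rw [hT, measure_toMeasurable]; exact hfin
  refine Integrable.mono' ((integrable_indicator_iff hTm).2
    (integrableOn_const (C := 20 * N.h ^ 2 * 4) hTfin)) hmeas ?_
  filter_upwards [h.ok.ae_cyl] with X hX
  obtain ⟨-, -, -, h2, h3, -⟩ := proj_facts_of_le h.geo (h.tub hX) (N.W.P_proj X)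
  have h5 : 0 ≤ psiR N.u r (npr N.u X) := by
    unfold psiR
    have := (hdep (npr N.u X)).1
    positivity
  rw [Real.norm_of_nonneg (by positivity)]
  by_cases hXS : npr N.u X ∈ Bs N.u r
  · have hXT : X ∈ T := subset_toMeasurable N.μ {X | npr N.u X ∈ Bs N.u r} hXS
    rw [Set.indicator_of_mem hXT]
    have h4 : psiR N.u r (npr N.u X) ≤ 20 := by
      unfold psiR
      have := pow_le_one₀ (n := 9) (hdep (npr N.u X)).1 (hdep (npr N.u X)).2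
      linarith
    have h6 : ‖zz N.u X‖ ^ 2 ≤ N.h ^ 2 := by
      have := hX.2.le
      gcongr
    gcongr
  · have h1 : psiR N.u r (npr N.u X) = 0 := by
      unfold psiR
      rw [hdep0 _ hXS]; simp
    rw [h1, zero_mul, zero_mul]
    exact Set.indicator_nonneg (fun _ _ => by positivity) X

/-- **(4.9), lower bound** (leaf `L-Freq-wt-Hlo`).
PLAN.  `δ > 0` (`wt_dpos`): choose `X`, `S.In X`, `w = npr X ∈ Bs r`, `|z| ≥ δ r/2` (`exists_lt_of_lt_csSup`).  `S.height_p`: `δ r/2 ≤ C m₀ t(w)^k`, so `t(w) > 0`; witness `x`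
(`tent_witness`), `l = ℓ_x`, `t(w) < 2 l`: `δ r ≤ 2 C m₀ (2 l)^k`.  `paying`: `r^m H ≥ ∫_A ψ |z|² hwt ≥ c l^m · 20 (l/r)⁹ · (c m₀ l^k)² / 2` (Markov / `setIntegral` over a
measurable hull of `A`; integrand `≥ 0`, integrable by `ints`-type arguments: bounded, finite mass).  `(l/r)^{m+9} ≥ (l/r)^{2k}` (`l ≤ r`, `m + 9 ≤ 2k`), `r ≤ 1`:
`H/r² ≥ 10 c³ m₀² l^{4k} r^{-2k-2} ≥ 10 c³ m₀² (δ/(2^{k+1} C m₀))⁴ m₀^{...}`; the final constant is explicit. -/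
theorem wt_Hlo (m n Q : ℕ) (hm : 1 ≤ m) : ∃ J₁ : ℕ, ∀ B : FitBase, J₁ ≤ B.J → B.Adm m →
    Ev B (fun π => ∀ (S : Start m n Q π) (r : ℝ), S.Rg r →
      10 * π.c ^ 3 * π.m₀ ^ 2 / (2 ^ (π.k + 1) * π.C * π.m₀) ^ 4 * qd S.N r ^ 4 ≤ qH S.N r / r ^ 2) := by
  obtain ⟨J₁, h₁⟩ := wt_dpos m n Q hm
  refine ⟨J₁ + 4, fun B hJ hB => ?_⟩
  have hJ4 : 4 ≤ B.J := by omega
  refine (((((((h₁ B (by omega) hB).and (wtk_frOK (n := n) (Q := Q) hm B hB hJ4)).and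
    (wt_mass (n := n) (Q := Q) hm B hB hJ4)).and (paying m n Q hm B hB hJ4)).and (Ev.pos B)).and
    (Ev.rs_lt B (fun _ _ _ _ => 1 / 4) (fun _ _ _ _ => by norm_num)))).mono ?_
  rintro π hπ ⟨⟨⟨⟨⟨a₁, a₂⟩, a₃⟩, a₄⟩, a₅⟩, a₆⟩ S r hr
  subst hπ
  have hok := a₂ S
  have hgeo := hok.geo
  have hδ : 0 < qd S.N r := a₁ S r hr
  have hr0 : 0 < r := hr.1
  have hr1 : r ≤ 1 := by
    have : π.rs < 1 / 4 := a₆
    linarith [hr.2.2]
  have hm₀ : 0 < π.m₀ := a₅.2.2.1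
  have hC : 1 ≤ π.C := hB.C_ge
  have hc : 0 < π.c := hB.c_pos
  have hk : 8 + m < 2 * π.k := hB.k_gt
  have hfin : S.N.μ {X | npr S.N.u X ∈ Bs S.N.u r} ≠ ⊤ :=
    (lt_of_le_of_lt ((a₃ S).2 r hr) ENNReal.ofReal_lt_top).ne
  have hint := hok.integrable_H hr0 hfin
  obtain ⟨hdep, -⟩ := ker_facts hgeo hr0
  -- a point of almost maximal height
  set A₀ : Set ℝ := {t : ℝ | ∃ X ∈ S.N.W.support, X ∈ Cyl S.N.u S.N.Ω S.N.h ∧
    npr S.N.u X ∈ Bs S.N.u r ∧ t = ‖zz S.N.u X‖} with hA₀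
  have hqd : qd S.N r * r = sSup A₀ := by
    have : S.N.supz (Bs S.N.u r) = sSup A₀ := rfl
    rw [qd, this]; field_simp
  have hpos : 0 < sSup A₀ := by rw [← hqd]; positivity
  have hne : A₀.Nonempty := by
    by_contra hcon
    rw [Set.not_nonempty_iff_eq_empty] at hcon
    rw [hcon, Real.sSup_empty] at hpos
    exact lt_irrefl _ hpos
  obtain ⟨t, ⟨X, hXs, hXc, hXb, rfl⟩, ht⟩ := exists_lt_of_lt_csSup hne (half_lt_self hpos)
  set w := npr S.N.u X with hw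
  have hXc' : X ∈ Cyl S.N.u (Metric.ball 0 4) π.fit.hc := by rw [← S.N_Ω, ← S.N_h]; exact hXc
  have hhp : ‖zz S.N.u X‖ ≤ π.C * π.m₀ * tent S.ℓ w ^ π.k := S.height_p X hXs hXc'
  have htw : 0 < tent S.ℓ w := by
    rcases (tent_nonneg S.isFail w).eq_or_lt with h0 | h0
    · rw [← h0, zero_pow (by omega), mul_zero] at hhp
      linarith
    · exact h0
  obtain ⟨x, hx5, hx⟩ := tent_witness S.isFail htw
  have hwit : S.Wit w x := ⟨hx5, htw, hx⟩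
  set l := S.ℓ x with hl
  have hl0 : 0 < l := by linarith [norm_nonneg (w - x)]
  have ht2 : tent S.ℓ w ≤ 2 * l := by linarith [norm_nonneg (w - x)]
  have hlr : l ≤ r := by
    have := (wit_facts S hgeo hr.2.1 hXb hwit).2.2.2.1
    linarith
  set L := l ^ π.k with hL
  have hL0 : 0 < L := by positivity
  set K := 2 ^ (π.k + 1) * π.C * π.m₀ with hK
  have hK0 : 0 < K := by positivity
  have e1 : qd S.N r * r ≤ K * L := by
    have h1 : tent S.ℓ w ^ π.k ≤ (2 * l) ^ π.k := by gcongr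
    have h2 : sSup A₀ / 2 < π.C * π.m₀ * (2 * l) ^ π.k :=
      lt_of_lt_of_le ht (hhp.trans (mul_le_mul_of_nonneg_left h1 (by positivity)))
    rw [hqd, hK, hL, pow_succ]
    rw [mul_pow] at h2
    nlinarith
  -- the paying set
  obtain ⟨A, hA, hA'⟩ := a₄ S r w x hr hXb hwit
  have e2 : 10 * (l / r) ^ 9 * (π.c * π.m₀ * L) ^ 2 * (π.c * l ^ m)
      ≤ ∫ X, psiR S.N.u r (npr S.N.u X) * ‖zz S.N.u X‖ ^ 2 * hwt S.N.u (S.N.W.P X) X ∂S.N.μ := by
    refine wt_integral_ge hint (fun Y => ?_) A _ _ (by positivity) hA fun Y hY => ?_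
    · have h1 := (hdep (npr S.N.u Y)).1
      unfold psiR hwt
      positivity
    · obtain ⟨-, -, -, i4, -, i6, i7⟩ := hA' Y hY
      have h1 : (l / r) ^ 9 ≤ dep S.N.u r (npr S.N.u Y) ^ 9 := by gcongr
      have h2 : (π.c * π.m₀ * L) ^ 2 ≤ ‖zz S.N.u Y‖ ^ 2 := by gcongr
      calc 10 * (l / r) ^ 9 * (π.c * π.m₀ * L) ^ 2
          = 20 * (l / r) ^ 9 * (π.c * π.m₀ * L) ^ 2 * (1 / 2) := by ring
        _ ≤ 20 * dep S.N.u r (npr S.N.u Y) ^ 9 * ‖zz S.N.u Y‖ ^ 2 * hwt S.N.u (S.N.W.P Y) Y := by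
            have := (hdep (npr S.N.u Y)).1
            gcongr
  have e3 : 10 * π.c ^ 3 * π.m₀ ^ 2 * L ^ 2 * (l / r) ^ (2 * π.k) ≤ qH S.N r := by
    have h1 : (l / r) ^ (2 * π.k) ≤ (l / r) ^ (m + 9) :=
      pow_le_pow_of_le_one (by positivity) ((div_le_one hr0).2 hlr) (by omega)
    calc 10 * π.c ^ 3 * π.m₀ ^ 2 * L ^ 2 * (l / r) ^ (2 * π.k)
        ≤ 10 * π.c ^ 3 * π.m₀ ^ 2 * L ^ 2 * (l / r) ^ (m + 9) := by gcongr
      _ = (r ^ m)⁻¹ * (10 * (l / r) ^ 9 * (π.c * π.m₀ * L) ^ 2 * (π.c * l ^ m)) := by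
          rw [pow_add, div_pow l r m]; field_simp
      _ ≤ qH S.N r := by
          unfold qH
          gcongr
  have e4 : (qd S.N r * r) ^ 4 ≤ (K * L) ^ 4 := by gcongr
  have e5 : r ^ (2 * π.k) ≤ r ^ 2 := pow_le_pow_of_le_one hr0.le hr1 (by omega)
  rw [le_div_iff₀ (by positivity)]
  calc 10 * π.c ^ 3 * π.m₀ ^ 2 / K ^ 4 * qd S.N r ^ 4 * r ^ 2
      = 10 * π.c ^ 3 * π.m₀ ^ 2 / K ^ 4 * (qd S.N r * r) ^ 4 / r ^ 2 := by field_simp
    _ ≤ 10 * π.c ^ 3 * π.m₀ ^ 2 / K ^ 4 * (K * L) ^ 4 / r ^ 2 := by gcongr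
    _ = 10 * π.c ^ 3 * π.m₀ ^ 2 * L ^ 4 / r ^ 2 := by field_simp
    _ ≤ 10 * π.c ^ 3 * π.m₀ ^ 2 * L ^ 4 / r ^ (2 * π.k) := by gcongr
    _ = 10 * π.c ^ 3 * π.m₀ ^ 2 * L ^ 2 * (l / r) ^ (2 * π.k) := by
        rw [div_pow, hL, mul_comm 2 π.k, pow_mul l π.k 2]; ring
    _ ≤ qH S.N r := e3

/-- **(4.9), upper bound** (leaf `L-Freq-wt-Hhi`): `ψ ≤ 20`, `hwt ≤ 4` (`proj_facts`), `|z| ≤ δ r` a.e., mass `≤ Cmass r^m`. -/
theorem wt_Hhi {Q : ℕ} (hm : 1 ≤ m) (B : FitBase) (hB : B.Adm m) (hJ : 4 ≤ B.J) :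
    Ev B (fun π => ∀ (S : Start m n Q π) (r : ℝ), S.Rg r → qH S.N r / r ^ 2 ≤ 80 * Cmass m Q * qd S.N r ^ 2) := by
  refine ((((start_geo (n := n) (Q := Q) hm B hB hJ).and (wt_height (n := n) (Q := Q) hm B hB hJ)).and
    (wt_mass (n := n) (Q := Q) hm B hB hJ)).and (Ev.hc_lt B (2 / 9) (by norm_num))).mono ?_
  rintro π hπ ⟨⟨⟨h₁, h₂⟩, h₃⟩, h₄⟩ S r hr
  obtain ⟨hgeo, -⟩ := h₁ S
  obtain ⟨hz, hd0, -⟩ := h₂ S r hr
  have hmass := (h₃ S).2 r hr
  have hr0 : 0 < r := hr.1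
  have hNh : S.N.h ≤ 2 / 9 := by rw [S.N_h]; exact h₄.le
  have hopen := cyla_isOpen hgeo S.N.isOpen_Ω hNh
  have hae : ∀ᵐ X ∂S.N.μ, X ∈ S.N.W.support ∧ X ∈ Cyl S.N.u S.N.Ω S.N.h ∧ ‖zz S.N.u X‖ < S.N.h' := by
    rw [ae_iff]; exact cyla_null S.N hopen.measurableSet
  obtain ⟨hdep, hdep0, -⟩ := ker_facts hgeo hr0
  have hCm : 0 ≤ Cmass m Q := by
    have := kap_pos m
    unfold Cmass
    positivity
  set Sset : Set (E (m + n)) := {X | npr S.N.u X ∈ Bs S.N.u r} with hSset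
  set T := toMeasurable S.N.μ Sset with hT
  have hTm : MeasurableSet T := measurableSet_toMeasurable _ _
  have hTle : S.N.μ T ≤ ENNReal.ofReal (Cmass m Q * r ^ m) := by
    rw [hT, measure_toMeasurable]; exact hmass
  have hTfin : S.N.μ T ≠ ⊤ := (lt_of_le_of_lt hTle ENNReal.ofReal_lt_top).ne
  set b : ℝ := 80 * (qd S.N r * r) ^ 2 with hb
  have hb0 : 0 ≤ b := by positivity
  have hint : ∫ X, psiR S.N.u r (npr S.N.u X) * ‖zz S.N.u X‖ ^ 2 * hwt S.N.u (S.N.W.P X) X ∂S.N.μ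
      ≤ b * (Cmass m Q * r ^ m) := by
    calc ∫ X, psiR S.N.u r (npr S.N.u X) * ‖zz S.N.u X‖ ^ 2 * hwt S.N.u (S.N.W.P X) X ∂S.N.μ
        ≤ ∫ X, T.indicator (fun _ => b) X ∂S.N.μ := by
          refine integral_mono_of_nonneg ?_ ?_ ?_
          · refine Filter.Eventually.of_forall fun X => ?_
            have h1 := (hdep (npr S.N.u X)).1
            show 0 ≤ psiR S.N.u r (npr S.N.u X) * ‖zz S.N.u X‖ ^ 2 * hwt S.N.u (S.N.W.P X) X
            unfold psiR hwt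
            positivity
          · exact (integrable_indicator_iff hTm).2 (integrableOn_const hTfin)
          · filter_upwards [hae] with X hX
            by_cases hXS : X ∈ Sset
            · rw [Set.indicator_of_mem (subset_toMeasurable _ _ hXS)]
              have hIn : S.In X := ⟨hX.1, by
                have := hX.2.1
                rw [S.N_Ω, S.N_h] at this
                exact this⟩
              have h1 := hz X hIn hXS
              have hTub : X ∈ Tub S.N.u (2 / 9) := ⟨npr S.N.u X, lt_of_lt_of_le hX.2.1.2 hNh⟩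
              obtain ⟨-, -, -, h2, h3, -⟩ := proj_facts_of_le hgeo hTub (S.N.W.P_proj X)
              have h4 : psiR S.N.u r (npr S.N.u X) ≤ 20 := by
                unfold psiR
                have := pow_le_one₀ (n := 9) (hdep (npr S.N.u X)).1 (hdep (npr S.N.u X)).2
                linarith
              have h5 : 0 ≤ psiR S.N.u r (npr S.N.u X) := by
                unfold psiR
                have := (hdep (npr S.N.u X)).1
                positivity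
              have h6 : ‖zz S.N.u X‖ ^ 2 ≤ (qd S.N r * r) ^ 2 := by gcongr
              calc psiR S.N.u r (npr S.N.u X) * ‖zz S.N.u X‖ ^ 2 * hwt S.N.u (S.N.W.P X) X
                  ≤ 20 * (qd S.N r * r) ^ 2 * 4 := by gcongr
                _ = b := by rw [hb]; ring
            · have h1 : psiR S.N.u r (npr S.N.u X) = 0 := by
                unfold psiR
                rw [hdep0 _ hXS]; simp
              rw [h1, zero_mul, zero_mul]
              exact Set.indicator_nonneg (fun _ _ => hb0) X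
      _ = (S.N.μ T).toReal * b := by
          rw [integral_indicator_const _ hTm]; rfl
      _ ≤ b * (Cmass m Q * r ^ m) := by
          rw [mul_comm]
          refine mul_le_mul_of_nonneg_left ?_ hb0
          exact ENNReal.toReal_le_of_le_ofReal (by positivity) hTle
  rw [qH, div_le_iff₀ (by positivity)]
  calc (r ^ m)⁻¹ * ∫ X, psiR S.N.u r (npr S.N.u X) * ‖zz S.N.u X‖ ^ 2 * hwt S.N.u (S.N.W.P X) X ∂S.N.μ
      ≤ (r ^ m)⁻¹ * (b * (Cmass m Q * r ^ m)) := by gcongr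
    _ = 80 * Cmass m Q * qd S.N r ^ 2 * r ^ 2 := by
        rw [hb]; field_simp

/-- **(4.10)** (leaf `L-Freq-wt-curv`).
PLAN.  `S.curv` at `y ∈ Bs r ⊆ ball 0 4`.  If `t(y) = 0` the bound is `0` (`2k - 4 > 0`).  Otherwise a witness `x` (`tent_witness`), `t(y) < 2 l`, `l ≤ 1`, `2k - 4 ≥ k`:
`C m₀² (2 l)^{2k-4} ≤ C m₀² 4^k l^k ≤ (C m₀ 4^k / c) δ r` (`pay_point`). -/
theorem wt_curv (m n Q : ℕ) (hm : 1 ≤ m) (B : FitBase) (hB : B.Adm m) (hJ : 4 ≤ B.J) :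
    Ev B (fun π => ∀ (S : Start m n Q π) (r : ℝ), S.Rg r → ∀ y ∈ Bs S.N.u r,
      ‖HS S.N.u y‖ + Real.sqrt (DHSsq S.N.u y) ≤ π.C * π.m₀ * 4 ^ π.k / π.c * qd S.N r * r) := by
  refine ((((start_geo (n := n) (Q := Q) hm B hB hJ).and (wt_height (n := n) (Q := Q) hm B hB hJ)).and
    (pay_point m n Q hm B hB hJ)).and (Ev.pos B)).mono ?_
  rintro π hπ ⟨⟨⟨h₁, h₂⟩, h₃⟩, h₄⟩ S r hr y hy
  obtain ⟨hgeo, -⟩ := h₁ S
  obtain ⟨-, hd0, -⟩ := h₂ S r hr
  obtain ⟨-, -, hm₀, -, -, -, hrs1, -, -, -, hlm1, -, -⟩ := h₄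
  have hr0 : 0 < r := hr.1
  have hC : 1 ≤ π.C := by have := hB.C_ge; rw [← hπ] at this; exact this
  have hc : 0 < π.c := by have := hB.c_pos; rw [← hπ] at this; exact this
  have hk : 5 ≤ π.k := by
    have := hB.k_gt
    rw [← hπ] at this
    have h' : 8 + m < 2 * π.k := this
    omega
  have hy4 : y ∈ Metric.ball (0 : E m) 4 := by
    rw [Metric.mem_ball, dist_zero_right]
    have h5 := ((rho_facts hgeo).2.1 y).1
    have h6 : rho S.N.u y < r := hy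
    linarith [hr.2.2]
  have hcurv : ‖HS S.N.u y‖ + Real.sqrt (DHSsq S.N.u y) ≤ π.C * π.m₀ ^ 2 * tent S.ℓ y ^ (2 * π.k - 4) :=
    S.curv y hy4
  have hrhs : 0 ≤ π.C * π.m₀ * 4 ^ π.k / π.c * qd S.N r * r := by positivity
  rcases (tent_nonneg S.isFail y).eq_or_lt with ht | ht
  · rw [← ht, zero_pow (by omega), mul_zero] at hcurv
    exact hcurv.trans hrhs
  obtain ⟨x, hx5, hx⟩ := tent_witness S.isFail ht
  have hwit : S.Wit y x := ⟨hx5, ht, hx⟩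
  have hpay := h₃ S r y x hr hy hwit
  set l := S.ℓ x with hl
  have hl0 : 0 < l := by linarith [norm_nonneg (y - x)]
  have hl1 : l ≤ 1 := (S.ℓ_small x).trans hlm1
  have ht2 : tent S.ℓ y ≤ 2 * l := by linarith [norm_nonneg (y - x)]
  refine hcurv.trans ?_
  have e1 : tent S.ℓ y ^ (2 * π.k - 4) ≤ (2 * l) ^ (2 * π.k - 4) := by gcongr
  have e2 : (2 * l) ^ (2 * π.k - 4) ≤ 4 ^ π.k * l ^ π.k := by
    rw [mul_pow]
    have a1 : (2 : ℝ) ^ (2 * π.k - 4) ≤ 4 ^ π.k := by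
      have : (4 : ℝ) ^ π.k = 2 ^ (2 * π.k) := by rw [pow_mul]; norm_num
      rw [this]
      exact pow_le_pow_right₀ (by norm_num) (by omega)
    have a2 : l ^ (2 * π.k - 4) ≤ l ^ π.k := pow_le_pow_of_le_one hl0.le hl1 (by omega)
    exact mul_le_mul a1 a2 (by positivity) (by positivity)
  calc π.C * π.m₀ ^ 2 * tent S.ℓ y ^ (2 * π.k - 4)
      ≤ π.C * π.m₀ ^ 2 * (4 ^ π.k * l ^ π.k) := by
        refine mul_le_mul_of_nonneg_left (e1.trans e2) (by positivity)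
    _ = π.C * π.m₀ * 4 ^ π.k / π.c * (π.c * π.m₀ * l ^ π.k) := by field_simp
    _ ≤ π.C * π.m₀ * 4 ^ π.k / π.c * (qd S.N r * r) := by
        refine mul_le_mul_of_nonneg_left hpay (by positivity)
    _ = _ := by ring

/-! ### (4.11) -/

/-- curvature measure `φ (|H|² + |∇H|²) ν` on the base -/
noncomputable def nuK (N : NCyl m n) (r : ℝ) : Measure (E m) :=
  N.nu.withDensity (fun y => ENNReal.ofReal (phiR N.u r y * (‖HS N.u y‖ ^ 2 + DHSsq N.u y)))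

/-- height measure `π_# (φ |z|² μ)` on the base -/
noncomputable def nuZ (N : NCyl m n) (r : ℝ) : Measure (E m) :=
  (N.μ.withDensity (fun X => ENNReal.ofReal (phiR N.u r (npr N.u X) * ‖zz N.u X‖ ^ 2))).map (npr N.u)

/-- the constant of one cell -/
noncomputable def Kcell (m Q : ℕ) (π : Par) : ℝ := 2 ^ 10 * π.C ^ 2 * 3 ^ (4 * π.k) * Cmass m Q * 4 ^ m / π.c ^ 3

theorem wcell_arith {C m₀ l c s Cm : ℝ} {k e m : ℕ} (he1 : 2 * k + 1 ≤ 2 * e) (he2 : 2 * e ≤ 4 * k) (hc : 0 < c)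
    (hs : 0 ≤ s) (hCm : 0 ≤ Cm) (hm₀ : 0 < m₀) (hm₁ : m₀ ≤ 1) (hl : 0 < l) (hl1 : l ≤ 1) (hC : 1 ≤ C) :
    s * (C * m₀ ^ 2 * (9 / 4 * l) ^ e) ^ 2 * (Cm * 4 ^ m * (l / 8) ^ m)
      ≤ (2 ^ 10 * C ^ 2 * 3 ^ (4 * k) * Cm * 4 ^ m / c ^ 3 * l)
        * ((2 ^ 10)⁻¹ * s * (c * m₀ * l ^ k) ^ 2 * (c * l ^ m)) := by
  have e1 : (2 ^ 10 * C ^ 2 * 3 ^ (4 * k) * Cm * 4 ^ m / c ^ 3 * l)
        * ((2 ^ 10)⁻¹ * s * (c * m₀ * l ^ k) ^ 2 * (c * l ^ m))
      = s * C ^ 2 * Cm * 4 ^ m * (m₀ ^ 2 * 3 ^ (4 * k) * l ^ (2 * k + 1) * l ^ m) := by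
    field_simp
    ring
  have e2 : s * (C * m₀ ^ 2 * (9 / 4 * l) ^ e) ^ 2 * (Cm * 4 ^ m * (l / 8) ^ m)
      = s * C ^ 2 * Cm * 4 ^ m * (m₀ ^ 4 * (9 / 4) ^ (2 * e) * l ^ (2 * e) * (l / 8) ^ m) := by
    rw [mul_pow (9 / 4 : ℝ) l e]
    ring
  rw [e1, e2]
  refine mul_le_mul_of_nonneg_left ?_ (by positivity)
  have a1 : m₀ ^ 4 ≤ m₀ ^ 2 := pow_le_pow_of_le_one hm₀.le hm₁ (by norm_num)
  have a2 : (9 / 4 : ℝ) ^ (2 * e) ≤ 3 ^ (4 * k) :=
    (pow_le_pow_left₀ (by norm_num) (by norm_num) _).trans (pow_le_pow_right₀ (by norm_num) he2)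
  have a3 : l ^ (2 * e) ≤ l ^ (2 * k + 1) := pow_le_pow_of_le_one hl.le hl1 he1
  have a4 : (l / 8) ^ m ≤ l ^ m := pow_le_pow_left₀ (by positivity) (by linarith) _
  gcongr

/-- **one cell** (leaf `L-Freq-wt-cell`).
PLAN.  `l = ℓ_x`, the cell `D = ball c (l/8) ∋ w` lies in `ball w (l/4)`.  On `D`: `t ≤ 2.25 l` (`wit_facts`), `|H|² + |∇H|² ≤ (C m₀² (2.25 l)^{2k-4})²` (`S.curv`),
heights `≤ C m₀ (2.25 l)^k ≤ l/8` (`S.height_p`, `m₀` small), so `ν(D) ≤ Cmass 4^m (l/8)^m` (`local_mass_gen`, `wt_mass`).  With `s = sup_D φ`: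
`nuK D ≤ s C² m₀⁴ (2.25 l)^{4k-8} Cmass 4^m (l/8)^m`.  `paying`: `nuZ (ball c (6 l)) ≥ ∫_A φ |z|² ≥ c l^m 2^{-10} s (c m₀ l^k)²` (`|npr X - c| ≤ 5 l + l/8`).
`2k - 8 ≥ 1`, `l ≤ 1`, `m₀ ≤ 1`. -/
theorem wcurv_cell (m n Q : ℕ) (hm : 1 ≤ m) (B : FitBase) (hB : B.Adm m) (hJ : 4 ≤ B.J) :
    Ev B (fun π => ∀ (S : Start m n Q π) (r : ℝ) (w x c : E m), S.Rg r → w ∈ Bs S.N.u r → S.Wit w x →
      w ∈ Metric.ball c (S.ℓ x / 8) →
      nuK S.N r (Metric.ball c (S.ℓ x / 8))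
        ≤ ENNReal.ofReal (Kcell m Q π * S.ℓ x) * nuZ S.N r (Metric.ball c (48 * (S.ℓ x / 8)))) := by
  obtain ⟨h₀, hh₀, Hmass⟩ := local_mass_gen m n
  have hC0 : 0 < B.C := lt_of_lt_of_le one_pos hB.C_ge
  have e₁ := start_geo (n := n) (Q := Q) hm B hB hJ
  have e₂ := wtk_frOK (n := n) (Q := Q) hm B hB hJ
  have e₃ := Ev.pos B
  have e₄ := Ev.hc_lt B h₀ hh₀
  have e₅ := Ev.m₀_lt B (fun _ => 1 / (8 * 3 ^ B.k) / B.C) (fun _ => by positivity)
  have e₆ := Ev.rs_lt B (fun _ _ _ _ => 1 / 5) (fun _ _ _ _ => by norm_num)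
  have e₇ := paying m n Q hm B hB hJ
  have e₈ := wt_mass (n := n) (Q := Q) hm B hB hJ
  refine (((((((e₁.and e₂).and e₃).and e₄).and e₅).and e₆).and e₇).and e₈).mono ?_
  rintro π hπ ⟨⟨⟨⟨⟨⟨⟨a₁, a₂⟩, a₃⟩, a₄⟩, a₅⟩, a₆⟩, a₇⟩, a₈⟩ S r w x c hr hw hx hwc
  subst hπ
  obtain ⟨-, -, hm₀, hm₀1, -, -, -, -, -, hlm, hlm1, -, -⟩ := a₃
  have hG := (a₁ S).1
  have ok := a₂ S
  have hr0 : 0 < r := hr.1
  have hr1 : r ≤ 4 / 5 := by
    have h1 : π.rs < 1 / 5 := a₆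
    linarith [hr.2.2]
  have hC1 : 1 ≤ π.C := hB.C_ge
  have hc0 : 0 < π.c := hB.c_pos
  have hk : 10 ≤ 2 * π.k := by have := hB.k_gt; omega
  obtain ⟨l0, -, -, l3, l4, -⟩ := wit_facts S hG hr.2.1 hw hx
  obtain ⟨A, hA, hA'⟩ := a₇ S r w x hr hw hx
  set l : ℝ := S.ℓ x with hl
  have hl1 : l ≤ 1 := by linarith
  have hCm : π.C * π.m₀ ≤ 1 / (8 * 3 ^ π.k) := by
    have h1 : π.m₀ < 1 / (8 * 3 ^ π.k) / π.C := a₅
    rw [lt_div_iff₀ hC0] at h1
    linarith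
  have hCm1 : π.C * π.m₀ ≤ 1 := by
    refine hCm.trans ?_
    rw [div_le_one (by positivity)]
    have : (1 : ℝ) ≤ 3 ^ π.k := one_le_pow₀ (by norm_num)
    linarith
  have hwr : ‖w‖ < r := lt_of_le_of_lt ((rho_facts hG).2.1 w).1 hw
  rw [Metric.mem_ball, dist_eq_norm] at hwc
  -- geometry of the cell
  have hDw : ∀ y ∈ Metric.ball c (l / 8), ‖y - w‖ < l / 4 := fun y hy => by
    rw [Metric.mem_ball, dist_eq_norm] at hy
    have : ‖y - w‖ ≤ ‖y - c‖ + ‖w - c‖ := by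
      rw [← norm_neg (w - c), neg_sub]
      exact norm_sub_le_norm_sub_add_norm_sub _ _ _
    linarith
  have hD4 : ∀ y ∈ Metric.ball c (l / 8), y ∈ Metric.ball (0 : E m) 4 := fun y hy => by
    rw [Metric.mem_ball, dist_zero_right]
    have : ‖y‖ ≤ ‖y - w‖ + ‖w‖ := by
      calc ‖y‖ = ‖(y - w) + w‖ := by rw [sub_add_cancel]
        _ ≤ _ := norm_add_le _ _
    linarith [hDw y hy]
  have hDt : ∀ y ∈ Metric.ball c (l / 8), tent S.ℓ y ≤ 9 / 4 * l := fun y hy => by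
    linarith [l4 y, hDw y hy]
  have ht0 : ∀ y, 0 ≤ tent S.ℓ y := tent_nonneg S.isFail
  set Kc : ℝ := π.C * π.m₀ ^ 2 * (9 / 4 * l) ^ (2 * π.k - 4) with hKc
  have hKc0 : 0 ≤ Kc := by positivity
  have hcurv : ∀ y ∈ Metric.ball c (l / 8), ‖HS S.N.u y‖ ^ 2 + DHSsq S.N.u y ≤ Kc ^ 2 := fun y hy => by
    have h1 : ‖HS S.N.u y‖ + Real.sqrt (DHSsq S.N.u y) ≤ π.C * π.m₀ ^ 2 * tent S.ℓ y ^ (2 * π.k - 4) :=
      S.curv y (hD4 y hy)
    have h2 : π.C * π.m₀ ^ 2 * tent S.ℓ y ^ (2 * π.k - 4) ≤ Kc := by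
      have := pow_le_pow_left₀ (ht0 y) (hDt y hy) (2 * π.k - 4)
      exact mul_le_mul_of_nonneg_left this (by positivity)
    have a3 := Real.sq_sqrt (tk_DHSsq_nonneg S.N.u y)
    have a4 := Real.sqrt_nonneg (DHSsq S.N.u y)
    have a5 := norm_nonneg (HS S.N.u y)
    have a6 : (‖HS S.N.u y‖ + Real.sqrt (DHSsq S.N.u y)) ^ 2 ≤ Kc ^ 2 := by
      have := h1.trans h2
      gcongr
    nlinarith
  -- mass of the cell
  have hb1 : S.b ≤ 1 := (bpar_le S.isFail hlm.le).trans hlm1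
  have hb0 : 0 ≤ S.b := bpar_nonneg S.isFail
  have hu0 : ‖S.N.u 0‖ ≤ 1 := by
    refine (a₁ S).2.2.1.trans ?_
    have : S.b ^ π.k ≤ 1 := pow_le_one₀ hb0 hb1
    have h0 : 0 ≤ π.C * π.m₀ := by positivity
    nlinarith
  have hh : S.N.h = π.hc := S.N_h
  have hc1 : ‖c‖ ≤ 1 := by
    have : ‖c‖ ≤ ‖w - c‖ + ‖w‖ := by
      calc ‖c‖ = ‖-(w - c) + w‖ := by congr 1; abel
        _ ≤ ‖-(w - c)‖ + ‖w‖ := norm_add_le _ _
        _ = _ := by rw [norm_neg]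
    linarith
  have hmass : S.N.nu (Metric.ball c (l / 8)) ≤ ENNReal.ofReal (Cmass m Q * 4 ^ m * (l / 8) ^ m) := by
    refine Hmass _ _ S.N hG (by rw [hh]; exact a₄.le) hu0 (a₈ S).1 c (l / 8) hc1 (by positivity) (by linarith) ?_
    intro X hX1 hX2 hX3
    rw [S.N_Ω, hh] at hX2
    have h1 : ‖zz S.N.u X‖ ≤ π.C * π.m₀ * tent S.ℓ (npr S.N.u X) ^ π.k := S.height_p X hX1 hX2
    have h2 : tent S.ℓ (npr S.N.u X) ^ π.k ≤ 3 ^ π.k * l := by
      have h3 := pow_le_pow_left₀ (ht0 _) (hDt _ hX3) π.k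
      have h4 : (9 / 4 * l) ^ π.k ≤ 3 ^ π.k * l := by
        rw [mul_pow]
        have q1 : (9 / 4 : ℝ) ^ π.k ≤ 3 ^ π.k := pow_le_pow_left₀ (by norm_num) (by norm_num) _
        have q2 : l ^ π.k ≤ l := by
          have := pow_le_pow_of_le_one l0.le hl1 (show 1 ≤ π.k by omega)
          simpa using this
        exact mul_le_mul q1 q2 (by positivity) (by positivity)
      exact h3.trans h4
    have h5 : π.C * π.m₀ * tent S.ℓ (npr S.N.u X) ^ π.k ≤ 1 / (8 * 3 ^ π.k) * (3 ^ π.k * l) :=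
      mul_le_mul hCm h2 (pow_nonneg (ht0 _) _) (by positivity)
    have h6 : 1 / (8 * 3 ^ π.k) * (3 ^ π.k * l) = l / 8 := by
      field_simp
    linarith
  -- the supremum of the kernel on the cell
  obtain ⟨kf1, -, -, -, kf5, -⟩ := ker_facts hG hr0
  have hφ01 : ∀ y, 0 ≤ phiR S.N.u r y ∧ phiR S.N.u r y ≤ 1 := fun y =>
    ⟨pow_nonneg (kf1 y).1 _, pow_le_one₀ (kf1 y).1 (kf1 y).2⟩
  set s : ℝ := sSup (phiR S.N.u r '' Metric.ball c (l / 8)) with hs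
  have hbdd : BddAbove (phiR S.N.u r '' Metric.ball c (l / 8)) := ⟨1, by rintro _ ⟨y, -, rfl⟩; exact (hφ01 y).2⟩
  have hφs : ∀ y ∈ Metric.ball c (l / 8), phiR S.N.u r y ≤ s := fun y hy => le_csSup hbdd ⟨y, hy, rfl⟩
  have hs0 : 0 ≤ s := (hφ01 c).1.trans (hφs c (Metric.mem_ball_self (by positivity)))
  have hsA : ∀ X ∈ A, s ≤ 2 ^ 10 * phiR S.N.u r (npr S.N.u X) := fun X hX => by
    refine csSup_le ⟨_, c, Metric.mem_ball_self (by positivity), rfl⟩ ?_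
    rintro _ ⟨y, hy, rfl⟩
    refine (hA' X hX).2.2.2.2.1 y ?_
    rw [Metric.mem_ball, dist_eq_norm]
    exact hDw y hy
  -- upper bound of the curvature measure
  have hK : nuK S.N r (Metric.ball c (l / 8))
      ≤ ENNReal.ofReal (s * Kc ^ 2) * ENNReal.ofReal (Cmass m Q * 4 ^ m * (l / 8) ^ m) := by
    rw [nuK, withDensity_apply _ Metric.isOpen_ball.measurableSet]
    refine (setLIntegral_mono' (g := fun _ => ENNReal.ofReal (s * Kc ^ 2)) Metric.isOpen_ball.measurableSet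
      (fun y hy => ENNReal.ofReal_le_ofReal ?_)).trans ?_
    · have q0 : 0 ≤ ‖HS S.N.u y‖ ^ 2 + DHSsq S.N.u y := by
        have := tk_DHSsq_nonneg S.N.u y
        positivity
      exact mul_le_mul (hφs y hy) (hcurv y hy) q0 hs0
    · rw [setLIntegral_const]
      exact mul_le_mul_right hmass _
  -- lower bound of the height measure
  set ε : ℝ := (2 ^ 10)⁻¹ * s * (π.c * π.m₀ * l ^ π.k) ^ 2 with hε
  have hZ : ENNReal.ofReal ε * ENNReal.ofReal (π.c * l ^ m) ≤ nuZ S.N r (Metric.ball c (48 * (l / 8))) := by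
    rw [nuZ, ok.push_apply _ Metric.isOpen_ball.measurableSet]
    have hgm : AEMeasurable (fun X => ENNReal.ofReal (phiR S.N.u r (npr S.N.u X) * ‖zz S.N.u X‖ ^ 2)) S.N.μ :=
      (((ok.ok.aesm_comp_npr kf5.continuous).mul ((ok.ok.aesm ok.ok.cont_zz).norm.pow 2)).aemeasurable).ennreal_ofReal
    refine le_trans ?_ (mul_meas_ge_le_lintegral₀ hgm.restrict (ENNReal.ofReal ε))
    refine mul_le_mul_right (hA.trans ?_) _
    refine le_trans (measure_mono ?_) (Measure.le_restrict_apply _ _)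
    intro X hX
    obtain ⟨-, -, i3, -, -, i6, -⟩ := hA' X hX
    refine ⟨ENNReal.ofReal_le_ofReal ?_, ?_⟩
    · have q1 := hsA X hX
      have q2 : (π.c * π.m₀ * l ^ π.k) ^ 2 ≤ ‖zz S.N.u X‖ ^ 2 := by gcongr
      have q3 : (2 ^ 10)⁻¹ * s ≤ phiR S.N.u r (npr S.N.u X) := by
        rw [inv_mul_le_iff₀ (by positivity)]
        exact q1
      exact mul_le_mul q3 q2 (by positivity) (hφ01 _).1
    · show npr S.N.u X ∈ Metric.ball c (48 * (l / 8))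
      rw [Metric.mem_ball, dist_eq_norm]
      have : ‖npr S.N.u X - c‖ ≤ ‖npr S.N.u X - w‖ + ‖w - c‖ := norm_sub_le_norm_sub_add_norm_sub _ _ _
      linarith
  refine hK.trans (le_trans ?_ (mul_le_mul_right hZ _))
  have hε0 : 0 ≤ ε := by positivity
  have hCmass := Cmass_nonneg m Q
  have hKcell0 : 0 ≤ Kcell m Q π * l := by
    unfold Kcell
    positivity
  rw [← ENNReal.ofReal_mul (by positivity), ← ENNReal.ofReal_mul hε0, ← ENNReal.ofReal_mul hKcell0]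
  refine ENNReal.ofReal_le_ofReal ?_
  exact wcell_arith (e := 2 * π.k - 4) (by omega) (by omega) hc0 hs0 hCmass hm₀ hm₀1 l0 hl1 hC1

/-- **dyadic covering sum** (leaf `L-Freq-wt-cover`; measure theory + `Tool.grid_overlap_sum m 48`).
PLAN.  `univ ⊆ Sᶜ ∪ ⋃_j ⋃_{c ∈ G_j} D_{j,c}`, `G_j` = the set of grid indices for which the cell inequality holds; `measure_iUnion_le` (countable index sets);
`∑_{c ∈ G_j} ν₁ D_{j,c} ≤ a 2^{-j} ∑_c ν₂ (48 D_{j,c}) ≤ a 2^{-j} Nov ν₂ univ`; `∑_j 2^{-j} = 2`. -/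
theorem cover_sum (m : ℕ) : ∃ Nov : ℕ, ∀ (ν₁ ν₂ : Measure (E m)) (S : Set (E m)) (a : ℝ), 0 ≤ a → ν₁ Sᶜ = 0 →
    (∀ y ∈ S, ∃ (j : ℕ) (c : Fin m → ℤ), y ∈ Metric.ball (gpt m ((2 : ℝ)⁻¹ ^ j / 8) c) ((2 : ℝ)⁻¹ ^ j / 8) ∧
      ν₁ (Metric.ball (gpt m ((2 : ℝ)⁻¹ ^ j / 8) c) ((2 : ℝ)⁻¹ ^ j / 8))
        ≤ ENNReal.ofReal (a * (2 : ℝ)⁻¹ ^ j) * ν₂ (Metric.ball (gpt m ((2 : ℝ)⁻¹ ^ j / 8) c) (48 * ((2 : ℝ)⁻¹ ^ j / 8)))) →
    ν₁ Set.univ ≤ ENNReal.ofReal (2 * a * Nov) * ν₂ Set.univ := by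
  classical
  obtain ⟨Nov, hNov⟩ := grid_overlap_sum m 48 (by norm_num)
  refine ⟨Nov, fun ν₁ ν₂ S a ha hS hcov => ?_⟩
  set D : ℕ → (Fin m → ℤ) → Set (E m) := fun j c =>
    Metric.ball (gpt m ((2 : ℝ)⁻¹ ^ j / 8) c) ((2 : ℝ)⁻¹ ^ j / 8) with hD
  set D' : ℕ → (Fin m → ℤ) → Set (E m) := fun j c =>
    Metric.ball (gpt m ((2 : ℝ)⁻¹ ^ j / 8) c) (48 * ((2 : ℝ)⁻¹ ^ j / 8)) with hD'
  set f : ℕ → (Fin m → ℤ) → Set (E m) := fun j c =>
    if ν₁ (D j c) ≤ ENNReal.ofReal (a * (2 : ℝ)⁻¹ ^ j) * ν₂ (D' j c) then D j c else ∅ with hf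
  have hfle : ∀ j c, ν₁ (f j c) ≤ ENNReal.ofReal (a * (2 : ℝ)⁻¹ ^ j) * ν₂ (D' j c) := by
    intro j c
    simp only [hf]
    split_ifs with h
    · exact h
    · simp
  have hsub : (Set.univ : Set (E m)) ⊆ Sᶜ ∪ ⋃ j, ⋃ c, f j c := by
    intro y _
    by_cases hy : y ∈ S
    · obtain ⟨j, c, h1, h2⟩ := hcov y hy
      refine Or.inr (Set.mem_iUnion.2 ⟨j, Set.mem_iUnion.2 ⟨c, ?_⟩⟩)
      simp only [hf]
      rw [if_pos h2]
      exact h1
    · exact Or.inl hy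
  have hrow : ∀ j : ℕ, ∑' c, ν₁ (f j c) ≤ ENNReal.ofReal (a * (2 : ℝ)⁻¹ ^ j) * ((Nov : ℝ≥0∞) * ν₂ Set.univ) := by
    intro j
    calc ∑' c, ν₁ (f j c) ≤ ∑' c, ENNReal.ofReal (a * (2 : ℝ)⁻¹ ^ j) * ν₂ (D' j c) :=
          ENNReal.tsum_le_tsum (hfle j)
      _ = ENNReal.ofReal (a * (2 : ℝ)⁻¹ ^ j) * ∑' c, ν₂ (D' j c) := ENNReal.tsum_mul_left
      _ ≤ ENNReal.ofReal (a * (2 : ℝ)⁻¹ ^ j) * ((Nov : ℝ≥0∞) * ν₂ Set.univ) := by
          gcongr
          have := hNov ((2 : ℝ)⁻¹ ^ j / 8) (by positivity) ν₂ Set.univ MeasurableSet.univ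
          simpa only [Set.inter_univ] using this
  have hgeo : ∑' j : ℕ, ENNReal.ofReal (a * (2 : ℝ)⁻¹ ^ j) = ENNReal.ofReal (2 * a) := by
    have hs : HasSum (fun j : ℕ => a * (2 : ℝ)⁻¹ ^ j) (a * 2) := by
      have := (hasSum_geometric_of_lt_one (r := (2 : ℝ)⁻¹) (by norm_num) (by norm_num)).mul_left a
      have e : (1 - (2 : ℝ)⁻¹)⁻¹ = 2 := by norm_num
      rwa [e] at this
    rw [← ENNReal.ofReal_tsum_of_nonneg (fun j => by positivity) hs.summable, hs.tsum_eq, mul_comm]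
  calc ν₁ Set.univ ≤ ν₁ (Sᶜ ∪ ⋃ j, ⋃ c, f j c) := measure_mono hsub
    _ ≤ ν₁ Sᶜ + ν₁ (⋃ j, ⋃ c, f j c) := measure_union_le _ _
    _ = ν₁ (⋃ j, ⋃ c, f j c) := by rw [hS, zero_add]
    _ ≤ ∑' j, ν₁ (⋃ c, f j c) := measure_iUnion_le _
    _ ≤ ∑' j, ∑' c, ν₁ (f j c) := ENNReal.tsum_le_tsum fun j => measure_iUnion_le _
    _ ≤ ∑' j : ℕ, ENNReal.ofReal (a * (2 : ℝ)⁻¹ ^ j) * ((Nov : ℝ≥0∞) * ν₂ Set.univ) :=
        ENNReal.tsum_le_tsum hrow
    _ = ENNReal.ofReal (2 * a) * ((Nov : ℝ≥0∞) * ν₂ Set.univ) := by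
        rw [ENNReal.tsum_mul_right, hgeo]
    _ = ENNReal.ofReal (2 * a * Nov) * ν₂ Set.univ := by
        rw [ENNReal.ofReal_mul (p := 2 * a) (by positivity), ENNReal.ofReal_natCast, mul_assoc]

theorem wt_continuous_tent {ℓ : E m → ℝ} {a : ℝ} (h : IsFail ℓ a) : Continuous (tent ℓ) := by
  refine (LipschitzWith.of_dist_le_mul (K := 1) fun x y => ?_).continuous
  rw [Real.dist_eq, dist_eq_norm, NNReal.coe_one, one_mul]
  exact tent_lip h x y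

/-- a grid ball of radius `l` through every point -/
theorem wt_grid_mem (m : ℕ) {l : ℝ} (hl : 0 < l) (y : E m) :
    ∃ c : Fin m → ℤ, y ∈ Metric.ball (gpt m l c) l := by
  obtain ⟨k, hk⟩ := gpt_cover m (l⁻¹ • y)
  refine ⟨k, ?_⟩
  rw [Metric.mem_ball, dist_eq_norm, gpt_smul]
  have e : y - l • gpt m 1 k = l • (l⁻¹ • y - gpt m 1 k) := by
    rw [smul_sub, smul_smul, mul_inv_cancel₀ hl.ne', one_smul]
  rw [e, norm_smul, Real.norm_of_nonneg hl.le]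
  nlinarith

/-- integrability of `φ |z|²` -/
theorem FrOK.integrable_phi_zz {κ : ℝ} {N : NCyl m n} (h : FrOK κ N) {r : ℝ} (hr : 0 < r)
    (hfin : N.μ {X | npr N.u X ∈ Bs N.u r} ≠ ⊤) :
    Integrable (fun X => phiR N.u r (npr N.u X) * ‖zz N.u X‖ ^ 2) N.μ := by
  obtain ⟨hdep, hdep0, -, -, hφc, -⟩ := ker_facts h.geo hr
  have hM := h.meas
  have hmeas : AEStronglyMeasurable (fun X => phiR N.u r (npr N.u X) * ‖zz N.u X‖ ^ 2) N.μ :=
    (hM.mComp _ hφc.continuous.measurable).mul (hM.mZz.norm.pow 2)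
  set T := toMeasurable N.μ {X | npr N.u X ∈ Bs N.u r} with hT
  have hTm : MeasurableSet T := measurableSet_toMeasurable _ _
  have hTfin : N.μ T ≠ ⊤ := by rw [hT, measure_toMeasurable]; exact hfin
  refine Integrable.mono' ((integrable_indicator_iff hTm).2
    (integrableOn_const (C := 1 * N.h ^ 2) hTfin)) hmeas ?_
  filter_upwards [h.ok.ae_cyl] with X hX
  have h5 : 0 ≤ phiR N.u r (npr N.u X) := by
    unfold phiR
    have := (hdep (npr N.u X)).1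
    positivity
  rw [Real.norm_of_nonneg (by positivity)]
  by_cases hXS : npr N.u X ∈ Bs N.u r
  · have hXT : X ∈ T := subset_toMeasurable N.μ {X | npr N.u X ∈ Bs N.u r} hXS
    rw [Set.indicator_of_mem hXT]
    have h4 : phiR N.u r (npr N.u X) ≤ 1 := by
      unfold phiR
      exact pow_le_one₀ (hdep (npr N.u X)).1 (hdep (npr N.u X)).2
    have h6 : ‖zz N.u X‖ ^ 2 ≤ N.h ^ 2 := by
      have := hX.2.le
      gcongr
    gcongr
  · have h1 : phiR N.u r (npr N.u X) = 0 := by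
      unfold phiR
      rw [hdep0 _ hXS]; simp
    rw [h1, zero_mul]
    exact Set.indicator_nonneg (fun _ _ => by positivity) X

/-- from the base measures `nuK`, `nuZ` back to integrals over the current -/
theorem FrOK.nu_translate {κ : ℝ} {N : NCyl m n} (h : FrOK κ N) {r a : ℝ} (hr : 0 < r) (ha : 0 ≤ a)
    (hfin : N.μ {X | npr N.u X ∈ Bs N.u r} ≠ ⊤)
    (hcov : nuK N r Set.univ ≤ ENNReal.ofReal a * nuZ N r Set.univ) :
    ∫ X, phiR N.u r (npr N.u X) * (‖HS N.u (npr N.u X)‖ ^ 2 + DHSsq N.u (npr N.u X)) ∂N.μ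
      ≤ a * ∫ X, phiR N.u r (npr N.u X) * ‖zz N.u X‖ ^ 2 ∂N.μ := by
  obtain ⟨hdep, -, -, -, hφc, -⟩ := ker_facts h.geo hr
  have hnpr : AEMeasurable (npr N.u) N.μ := h.ok.aemeasurable_npr
  have hφ0 : ∀ y, 0 ≤ phiR N.u r y := fun y => by
    unfold phiR
    have := (hdep y).1
    positivity
  obtain ⟨fK, hfK⟩ : ∃ fK : E m → ℝ, fK = fun y => phiR N.u r y * (‖HS N.u y‖ ^ 2 + DHSsq N.u y) :=
    ⟨_, rfl⟩
  obtain ⟨fZ, hfZ⟩ : ∃ fZ : E (m + n) → ℝ, fZ = fun X => phiR N.u r (npr N.u X) * ‖zz N.u X‖ ^ 2 :=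
    ⟨_, rfl⟩
  have hfKc : Continuous fK := by
    rw [hfK]
    exact hφc.continuous.mul
      (((tk_continuous_HS h.geo.smooth).norm.pow 2).add (tk_continuous_DHSsq h.geo.smooth))
  have hfK0 : ∀ y, 0 ≤ fK y := fun y => by
    rw [hfK]
    exact mul_nonneg (hφ0 y) (add_nonneg (sq_nonneg _) (DHSsq_nonneg _ _))
  have hfZ0 : ∀ X, 0 ≤ fZ X := fun X => by
    rw [hfZ]
    exact mul_nonneg (hφ0 _) (sq_nonneg _)
  have hfZi : Integrable fZ N.μ := by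
    rw [hfZ]
    exact h.integrable_phi_zz hr hfin
  have eK : nuK N r Set.univ = ∫⁻ X, ENNReal.ofReal (fK (npr N.u X)) ∂N.μ := by
    have e0 : nuK N r = N.nu.withDensity (fun y => ENNReal.ofReal (fK y)) := by rw [hfK]; rfl
    rw [e0, withDensity_apply _ MeasurableSet.univ, Measure.restrict_univ]
    exact lintegral_map' (ENNReal.measurable_ofReal.comp hfKc.measurable).aemeasurable hnpr
  have eZ : nuZ N r Set.univ = ∫⁻ X, ENNReal.ofReal (fZ X) ∂N.μ := by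
    have e0 : nuZ N r = (N.μ.withDensity (fun X => ENNReal.ofReal (fZ X))).map (npr N.u) := by
      rw [hfZ]; rfl
    rw [e0, Measure.map_apply_of_aemeasurable (hnpr.mono_ac (withDensity_absolutelyContinuous _ _))
      MeasurableSet.univ, Set.preimage_univ, withDensity_apply _ MeasurableSet.univ,
      Measure.restrict_univ]
  rw [eK, eZ, ← ofReal_integral_eq_lintegral_ofReal hfZi (Filter.Eventually.of_forall hfZ0),
    ← ENNReal.ofReal_mul ha] at hcov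
  have hfKm : AEStronglyMeasurable (fun X => fK (npr N.u X)) N.μ :=
    h.meas.mComp _ hfKc.measurable
  have goal : ∫ X, fK (npr N.u X) ∂N.μ ≤ a * ∫ X, fZ X ∂N.μ := by
    rw [integral_eq_lintegral_of_nonneg_ae (Filter.Eventually.of_forall fun X => hfK0 _) hfKm]
    refine ENNReal.toReal_le_of_le_ofReal ?_ hcov
    have : 0 ≤ ∫ X, fZ X ∂N.μ := integral_nonneg hfZ0
    positivity
  rw [hfK, hfZ] at goal
  exact goal

/-- the curvature measure does not charge the complement of `{t > 0} ∩ Bs r` -/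
theorem wt_nuK_null {Q : ℕ} {π : Par} {κ : ℝ} (S : Start m n Q π) (hgeo : Geo κ S.N.u) {r : ℝ} (hr0 : 0 < r)
    (hr4 : r ≤ 4) (hk : 5 ≤ π.k) :
    IsOpen {y | y ∈ Bs S.N.u r ∧ 0 < tent S.ℓ y} ∧ nuK S.N r {y | y ∈ Bs S.N.u r ∧ 0 < tent S.ℓ y}ᶜ = 0 := by
  obtain ⟨hdep, hdep0, -, -, hφc, -, -, hBsO, hBsub, -, -⟩ := ker_facts hgeo hr0
  have htc : Continuous (tent S.ℓ) := wt_continuous_tent S.isFail
  have hSSo : IsOpen {y | y ∈ Bs S.N.u r ∧ 0 < tent S.ℓ y} := hBsO.inter (isOpen_lt continuous_const htc)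
  refine ⟨hSSo, ?_⟩
  unfold nuK
  rw [withDensity_apply _ hSSo.measurableSet.compl]
  rw [setLIntegral_congr_fun (g := fun _ => 0) hSSo.measurableSet.compl (fun y hy => ?_)]
  · simp
  · have : phiR S.N.u r y * (‖HS S.N.u y‖ ^ 2 + DHSsq S.N.u y) = 0 := by
      by_cases hyB : y ∈ Bs S.N.u r
      · have ht : tent S.ℓ y = 0 := by
          have h6 : ¬ 0 < tent S.ℓ y := fun h => hy ⟨hyB, h⟩
          exact le_antisymm (not_lt.1 h6) (tent_nonneg S.isFail y)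
        have hy4 : y ∈ Metric.ball (0 : E m) 4 := by
          have := hBsub hyB
          rw [Metric.mem_ball] at this ⊢
          linarith
        have hcurv : ‖HS S.N.u y‖ + Real.sqrt (DHSsq S.N.u y)
            ≤ π.C * π.m₀ ^ 2 * tent S.ℓ y ^ (2 * π.k - 4) := S.curv y hy4
        rw [ht, zero_pow (by omega), mul_zero] at hcurv
        have a1 : ‖HS S.N.u y‖ = 0 :=
          le_antisymm (by linarith [Real.sqrt_nonneg (DHSsq S.N.u y)]) (norm_nonneg _)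
        have a2 : Real.sqrt (DHSsq S.N.u y) = 0 :=
          le_antisymm (by linarith [norm_nonneg (HS S.N.u y)]) (Real.sqrt_nonneg _)
        have a3 : DHSsq S.N.u y = 0 :=
          le_antisymm (Real.sqrt_eq_zero'.1 a2) (DHSsq_nonneg _ _)
        rw [a1, a3]
        simp
      · rw [phiR, hdep0 y hyB]
        simp
    show ENNReal.ofReal (phiR S.N.u r y * (‖HS S.N.u y‖ ^ 2 + DHSsq S.N.u y)) = 0
    rw [this, ENNReal.ofReal_zero]

/-- **(4.11)** (leaf `L-Freq-wt-wcurv`).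
PLAN.  `cover_sum` with `ν₁ = nuK`, `ν₂ = nuZ`, `S = {y ∈ Bs r | 0 < t(y)}`, `a = Kcell`.  `nuK Sᶜ = 0`: `φ = 0` off `Bs r`; `|H|² + |∇H|² = 0` where `t = 0` (`S.curv`).
For `y ∈ S`: witness `x` (`tent_witness`), `ℓ_x = 2^{-j}` (`wit_facts`), a grid ball containing `y` (`Tool.grid_pou`: some `χ_k y ≠ 0`), `wcurv_cell`.
Translate: `nuK univ = ofReal ∫ φ (|H|² + |∇H|²) dμ`, `nuZ univ = ofReal ∫ φ |z|² dμ` (`lintegral_map`, `ofReal_integral_eq_lintegral_ofReal`; bounded integrands,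
finite mass). -/
theorem wt_wcurv (m n Q : ℕ) (hm : 1 ≤ m) : ∃ Nov : ℕ, ∀ B : FitBase, 4 ≤ B.J → B.Adm m →
    Ev B (fun π => ∀ (S : Start m n Q π) (r : ℝ), S.Rg r →
      ∫ X, phiR S.N.u r (npr S.N.u X) * (‖HS S.N.u (npr S.N.u X)‖ ^ 2 + DHSsq S.N.u (npr S.N.u X)) ∂S.N.μ
        ≤ 2 * Kcell m Q π * Nov * ∫ X, phiR S.N.u r (npr S.N.u X) * ‖zz S.N.u X‖ ^ 2 ∂S.N.μ) := by
  obtain ⟨Nov, hNov⟩ := cover_sum m
  refine ⟨Nov, fun B hJ hB => ?_⟩
  refine ((((wtk_frOK (n := n) (Q := Q) hm B hB hJ).and (wt_mass (n := n) (Q := Q) hm B hB hJ)).and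
    (wcurv_cell m n Q hm B hB hJ)).and (Ev.pos B)).mono ?_
  rintro π hπ ⟨⟨⟨h₁, h₂⟩, h₃⟩, h₅⟩ S r hr
  subst hπ
  have hok := h₁ S
  have hfin : S.N.μ {X | npr S.N.u X ∈ Bs S.N.u r} ≠ ⊤ :=
    (lt_of_le_of_lt ((h₂ S).2 r hr) ENNReal.ofReal_lt_top).ne
  have hr0 : 0 < r := hr.1
  have hrs1 : π.rs ≤ 1 := h₅.2.2.2.2.2.2.1
  have hC : 1 ≤ π.C := hB.C_ge
  have hc : 0 < π.c := hB.c_pos
  have hk : 5 ≤ π.k := by have := hB.k_gt; omega
  have hK0 : 0 ≤ Kcell m Q π := by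
    have := Cmass_nonneg m Q
    unfold Kcell
    positivity
  obtain ⟨-, hnull⟩ := wt_nuK_null S hok.geo hr0 (by linarith [hr.2.2]) hk
  refine hok.nu_translate hr0 (by positivity) hfin
    (hNov (nuK S.N r) (nuZ S.N r) _ (Kcell m Q π) hK0 hnull ?_)
  rintro y ⟨hyB, ht⟩
  obtain ⟨x, hx5, hx⟩ := tent_witness S.isFail ht
  have hwit : S.Wit y x := ⟨hx5, ht, hx⟩
  have hl0 : 0 < S.ℓ x := by linarith [norm_nonneg (y - x)]
  obtain ⟨j, hj⟩ : ∃ j : ℕ, S.ℓ x = (2 : ℝ)⁻¹ ^ j := by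
    rcases S.ℓ_dyadic x with h0 | h0
    · rw [h0] at hl0; exact absurd hl0 (lt_irrefl _)
    · exact h0
  obtain ⟨c, hc'⟩ := wt_grid_mem m (l := S.ℓ x / 8) (by positivity) y
  have h6 := h₃ S r y x (gpt m (S.ℓ x / 8) c) hr hyB hwit hc'
  rw [hj] at hc' h6
  exact ⟨j, c, hc', h6⟩

/-! ### the mass test -/

/-- a fixed smooth kernel (leaf `L-Freq-wt-ker`).
PLAN.  `h s = Real.smoothTransition (2 - 2 s)`-type: smooth, antitone, `1` for `s ≤ 1/2`, `0` for `s ≥ 1`.  `y ↦ h(|y|²)` is smooth with compact support, so all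
`iteratedFDeriv` are bounded (`ContDiff.continuous_iteratedFDeriv`, `HasCompactSupport.iteratedFDeriv`, `Continuous.bounded_above_of_compact_support`).
`kerC > 0`: `h(|y|²) = 1` on `ball 0 (1/2)`. -/
theorem exists_testKer (m : ℕ) : ∃ h : ℝ → ℝ, IsKer h ∧ ContDiff ℝ ∞ h ∧ (∀ s, h s ≤ 1) ∧ 0 < kerC m h ∧
    (∃ L : ℝ, ∀ s t, |h s - h t| ≤ L * |s - t|) ∧
    ∀ J : ℕ, ∃ M : ℝ, ∀ j ≤ J, ∀ y : E m, ‖iteratedFDeriv ℝ j (fun y : E m => h (‖y‖ ^ 2)) y‖ ≤ M := by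
  set h : ℝ → ℝ := fun s => Real.smoothTransition (2 - 2 * s) with hh
  have hsm : ContDiff ℝ ∞ h :=
    Real.smoothTransition.contDiff.comp (contDiff_const.sub (contDiff_const.mul contDiff_id))
  have hzero : ∀ s, 1 ≤ s → h s = 0 := fun s hs =>
    Real.smoothTransition.zero_of_nonpos (by linarith)
  have hone : ∀ s, s ≤ 1 / 2 → h s = 1 := fun s hs =>
    Real.smoothTransition.one_of_one_le (by linarith)
  have hker : IsKer h := by
    refine ⟨hsm.of_le (by exact_mod_cast le_top), ?_, hzero⟩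
    intro s s' hss
    exact Real.smoothTransition.monotone (by linarith)
  have hF : ContDiff ℝ ∞ (fun y : E m => h (‖y‖ ^ 2)) := hsm.comp (contDiff_norm_sq ℝ)
  have hcs : HasCompactSupport (fun y : E m => h (‖y‖ ^ 2)) := by
    refine HasCompactSupport.intro (isCompact_closedBall (0 : E m) 1) fun y hy => ?_
    rw [Metric.mem_closedBall, dist_zero_right, not_le] at hy
    exact hzero _ (by nlinarith)
  refine ⟨h, hker, hsm, fun s => Real.smoothTransition.le_one _, ?_, ?_, ?_⟩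
  · unfold kerC
    refine hF.continuous.integral_pos_of_hasCompactSupport_nonneg_nonzero (x := 0) hcs ?_ ?_
    · intro y
      exact hker.nonneg _
    · have : h (‖(0 : E m)‖ ^ 2) = 1 := hone _ (by simp)
      rw [this]
      exact one_ne_zero
  · -- Lipschitz
    have hdc : Continuous (deriv h) := hsm.continuous_deriv (by simp)
    obtain ⟨L, hL⟩ := (isCompact_Icc (a := (0 : ℝ)) (b := 1)).exists_bound_of_continuousOn hdc.continuousOn
    have hproj : ∀ s, h s = h (max 0 (min 1 s)) := by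
      intro s
      rcases le_total s 0 with h0 | h0
      · rw [min_eq_right (h0.trans zero_le_one), max_eq_left h0, hone _ (by linarith), hone _ (by norm_num)]
      · rcases le_total s 1 with h1 | h1
        · rw [min_eq_right h1, max_eq_right h0]
        · rw [min_eq_left h1, max_eq_right zero_le_one, hzero _ h1, hzero _ le_rfl]
    have hmem : ∀ s : ℝ, max 0 (min 1 s) ∈ Set.Icc (0 : ℝ) 1 := fun s =>
      ⟨le_max_left _ _, max_le zero_le_one (min_le_left _ _)⟩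
    refine ⟨L, fun s t => ?_⟩
    rw [hproj s, hproj t]
    have h1 := Convex.norm_image_sub_le_of_norm_deriv_le (f := h) (C := L) (s := Set.Icc (0 : ℝ) 1)
      (fun x _ => (hsm.differentiable (by simp)) x) (fun x hx => hL x hx) (convex_Icc 0 1) (hmem t) (hmem s)
    rw [Real.norm_eq_abs, Real.norm_eq_abs] at h1
    refine h1.trans ?_
    have hL0 : 0 ≤ L := (norm_nonneg _).trans (hL 0 ⟨le_rfl, zero_le_one⟩)
    refine mul_le_mul_of_nonneg_left ?_ hL0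
    rw [max_comm 0, max_comm 0, min_comm 1, min_comm 1]
    refine (abs_max_sub_max_le_abs (min s 1) (min t 1) 0).trans ?_
    have := abs_min_sub_min_le_max s 1 t 1
    rwa [sub_self, abs_zero, max_eq_left (abs_nonneg _)] at this
  · intro J
    have hb : ∀ j : ℕ, ∃ M : ℝ, ∀ y : E m, ‖iteratedFDeriv ℝ j (fun y : E m => h (‖y‖ ^ 2)) y‖ ≤ M := by
      intro j
      have hc : Continuous (iteratedFDeriv ℝ j (fun y : E m => h (‖y‖ ^ 2))) :=
        hF.continuous_iteratedFDeriv (by exact_mod_cast le_top)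
      exact hc.bounded_above_of_compact_support (hcs.iteratedFDeriv j)
    choose M hM using hb
    refine ⟨∑ j ∈ Finset.range (J + 1), |M j|, fun j hj y => ?_⟩
    refine ((hM j y).trans (le_abs_self _)).trans ?_
    exact Finset.single_le_sum (f := fun j => |M j|) (fun i _ => abs_nonneg _) (Finset.mem_range.2 (by omega))

theorem wtk_lip {K : ℝ} {u : E m → E n} (hd : Differentiable ℝ u) (hs : ∀ y, ‖fderiv ℝ u y‖ ≤ K) (y y' : E m) :
    ‖u y - u y'‖ ≤ K * ‖y - y'‖ :=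
  Convex.norm_image_sub_le_of_norm_fderiv_le (fun x _ => hd x) (fun x _ => hs x) convex_univ
    (Set.mem_univ _) (Set.mem_univ _)

theorem wtk_decomp (u : E m → E n) (X : E (m + n)) :
    X = inH m n (npr u X) + (inV m n (u (npr u X)) + zz u X) := by
  unfold zz Fg
  rw [mkHV_eq]
  abel

theorem wtk_abs_norm_sub (u : E m → E n) (X : E (m + n)) :
    |‖X‖ - ‖npr u X‖| ≤ ‖u (npr u X)‖ + ‖zz u X‖ := by
  have h1 := abs_norm_sub_norm_le X (inH m n (npr u X))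
  rw [norm_inH] at h1
  refine h1.trans ?_
  have e : X - inH m n (npr u X) = inV m n (u (npr u X)) + zz u X :=
    sub_eq_of_eq_add' (wtk_decomp u X)
  rw [e]
  refine (norm_add_le _ _).trans ?_
  rw [norm_inV]

theorem wtk_norm_u_le {Q : ℕ} {π : Par} (S : Start m n Q π) {κ : ℝ} (hκ : κ = π.C * π.m₀) (hκ0 : 0 ≤ κ)
    (hG : Geo κ S.N.u) (hb1 : S.b ≤ 1) (hk0 : π.k ≠ 0) (hu0 : ‖S.N.u 0‖ ≤ κ * S.b ^ π.k) (y : E m) :
    ‖S.N.u y‖ ≤ κ * (S.b + ‖y‖) := by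
  have hb0 : 0 ≤ S.b := bpar_nonneg S.isFail
  have hsl : ∀ y, ‖fderiv ℝ S.N.u y‖ ≤ κ := by
    intro y
    rw [hκ]
    exact S.ref.slope y
  have h1 := wtk_lip (hG.smooth.differentiable (by norm_num)) hsl y 0
  rw [sub_zero] at h1
  have h2 : ‖S.N.u y‖ ≤ ‖S.N.u y - S.N.u 0‖ + ‖S.N.u 0‖ := by
    calc ‖S.N.u y‖ = ‖(S.N.u y - S.N.u 0) + S.N.u 0‖ := by rw [sub_add_cancel]
      _ ≤ _ := norm_add_le _ _
  have h3 : S.b ^ π.k ≤ S.b := pow_le_of_le_one hb0 hb1 hk0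
  have h4 : ‖S.N.u 0‖ ≤ κ * S.b := hu0.trans (mul_le_mul_of_nonneg_left h3 hκ0)
  linarith

/-- near the origin the two kernels are close -/
theorem wtk_cmp_near {h : ℝ → ℝ} {L : ℝ} (hL0 : 0 ≤ L) (hL : ∀ s t, |h s - h t| ≤ L * |s - t|)
    {κ s b a y uy z : ℝ} (hκ0 : 0 ≤ κ) (hs : 0 < s) (hb0 : 0 ≤ b) (hbs : b ≤ s / 20) (ha0 : 0 ≤ a) (ha : a ≤ 2 * s)
    (hy0 : 0 ≤ y) (hy : y ≤ 2 * a + b) (hu : uy ≤ κ * (b + y)) (hz : z ≤ κ * (b + 2 * a)) (hd : |a - y| ≤ uy + z) :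
    |h (y ^ 2 / s ^ 2) - h (a ^ 2 / s ^ 2)| ≤ 50 * (L + 1) * κ := by
  refine (hL _ _).trans ?_
  have hd' : |a - y| ≤ κ * (8.15 * s) := by
    refine hd.trans ?_
    nlinarith
  have e : y ^ 2 / s ^ 2 - a ^ 2 / s ^ 2 = -((a - y) * (a + y)) / s ^ 2 := by ring
  rw [e, abs_div, abs_neg, abs_mul, abs_of_pos (by positivity : 0 < s ^ 2),
    abs_of_nonneg (by positivity : 0 ≤ a + y)]
  have h6 : |a - y| * (a + y) / s ^ 2 ≤ 50 * κ := by
    rw [div_le_iff₀ (by positivity)]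
    calc |a - y| * (a + y) ≤ κ * (8.15 * s) * (6.05 * s) := by
          gcongr
          linarith
      _ ≤ 50 * κ * s ^ 2 := by nlinarith [mul_nonneg hκ0 (sq_nonneg s)]
  calc L * (|a - y| * (a + y) / s ^ 2) ≤ (L + 1) * (50 * κ) := by
        gcongr
        linarith
    _ = 50 * (L + 1) * κ := by ring

/-- pointwise comparison of the projected and the ambient kernel at support points -/
theorem wtk_cmp_point {Q : ℕ} {π : Par} (S : Start m n Q π) {h : ℝ → ℝ} (hh : IsKer h) {L : ℝ} (hL0 : 0 ≤ L)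
    (hL : ∀ s t, |h s - h t| ≤ L * |s - t|) {κ : ℝ} (hκ : κ = π.C * π.m₀) (hκ0 : 0 ≤ κ) (hκ1 : κ ≤ 1 / 4)
    {s : ℝ} (hs : 0 < s) (hs1 : s ≤ 1 / 5) (hbs : S.b ≤ s / 20) (hk0 : π.k ≠ 0) (hG : Geo κ S.N.u)
    (hu0 : ‖S.N.u 0‖ ≤ κ * S.b ^ π.k)
    (hnear : ∀ X ∈ S.N.W.support, ‖X‖ ≤ 2 → S.In X ∧
        ‖zz S.N.u X‖ ≤ κ * (S.b + 2 * ‖X‖) ^ π.k ∧ ‖npr S.N.u X‖ ≤ 2 * ‖X‖ + S.b ∧
        rho S.N.u (npr S.N.u X) ≤ 2 * ‖X‖ + S.b)
    {X : E (m + n)} (hX : X ∈ S.N.W.support) :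
    ‖(Cyl S.N.u S.N.Ω S.N.h).indicator (fun X => h (‖npr S.N.u X‖ ^ 2 / s ^ 2)) X - h (‖X‖ ^ 2 / s ^ 2)‖
      ≤ (Metric.closedBall (0 : E (m + n)) (2 * s)).indicator (fun _ => 50 * (L + 1) * κ) X := by
  have hb0 : 0 ≤ S.b := bpar_nonneg S.isFail
  have hun := wtk_norm_u_le S hκ hκ0 hG (by linarith) hk0 hu0
  by_cases hXs : ‖X‖ ≤ 2 * s
  · have e0 : (Metric.closedBall (0 : E (m + n)) (2 * s)).indicator (fun _ => 50 * (L + 1) * κ) X
        = 50 * (L + 1) * κ :=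
      Set.indicator_of_mem (by rw [Metric.mem_closedBall, dist_zero_right]; exact hXs) _
    rw [e0]
    obtain ⟨hIn, hz, hy, -⟩ := hnear X hX (by linarith)
    have hc : X ∈ Cyl S.N.u S.N.Ω S.N.h := by
      rw [S.N_Ω, S.N_h]
      exact hIn.2
    rw [Set.indicator_of_mem hc, Real.norm_eq_abs]
    have hz' : ‖zz S.N.u X‖ ≤ κ * (S.b + 2 * ‖X‖) := by
      refine hz.trans (mul_le_mul_of_nonneg_left ?_ hκ0)
      exact pow_le_of_le_one (by positivity) (by linarith) hk0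
    exact wtk_cmp_near hL0 hL hκ0 hs hb0 hbs (norm_nonneg X) hXs (norm_nonneg _) hy (hun _) hz'
      (wtk_abs_norm_sub S.N.u X)
  · push Not at hXs
    have e0 : (Metric.closedBall (0 : E (m + n)) (2 * s)).indicator (fun _ => 50 * (L + 1) * κ) X = 0 :=
      Set.indicator_of_notMem (by rw [Metric.mem_closedBall, dist_zero_right]; exact not_le.2 hXs) _
    rw [e0]
    have h2 : h (‖X‖ ^ 2 / s ^ 2) = 0 := by
      refine hh.zero _ ?_
      rw [le_div_iff₀ (by positivity)]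
      nlinarith
    have h1 : (Cyl S.N.u S.N.Ω S.N.h).indicator (fun X => h (‖npr S.N.u X‖ ^ 2 / s ^ 2)) X = 0 := by
      by_cases hc : X ∈ Cyl S.N.u S.N.Ω S.N.h
      · rw [Set.indicator_of_mem hc]
        refine hh.zero _ ?_
        rw [le_div_iff₀ (by positivity), one_mul]
        by_contra hcon
        push Not at hcon
        set y := npr S.N.u X with hy'
        have hy0 := norm_nonneg y
        have hys : ‖y‖ < s := by
          by_contra h3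
          push Not at h3
          nlinarith
        have hc' : X ∈ Cyl S.N.u (Metric.ball 0 4) π.hc := by
          rw [S.N_Ω, S.N_h] at hc
          exact hc
        have hz : ‖zz S.N.u X‖ ≤ κ * tent S.ℓ y ^ π.k := by
          rw [hκ]
          exact S.height_p X hX hc'
        have ht : tent S.ℓ y ≤ S.b + ‖y‖ := tent_le_add S.isFail y
        have ht0 := tent_nonneg S.isFail y
        have hz' : ‖zz S.N.u X‖ ≤ κ * (S.b + ‖y‖) := by
          refine hz.trans (mul_le_mul_of_nonneg_left ?_ hκ0)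
          exact (pow_le_of_le_one ht0 (by linarith) hk0).trans ht
        have hd := (abs_le.1 (wtk_abs_norm_sub S.N.u X)).2
        have := hun y
        nlinarith
      · rw [Set.indicator_of_notMem hc]
    rw [h1, h2, sub_zero, norm_zero]

/-- **projected against ambient kernel average** (leaf `L-Freq-wt-testcmp`).
PLAN.  `s = r/5`.  Ambient: `W.kint_one_le` at `p = 0`, `IsGood.dens`, `IsGood.ratio`, `W.ratio_mono`: `Q kerC ≤ s^{-m} ∫ h(|X|²/s²) dW.μ ≤ (Q + ε) kerC`.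
Comparison: both integrands vanish unless `|X| ≤ 2 s`; there `S.In X` (`start_geo`) and conversely; `||X| - |npr X|| ≤ |z| + |u(npr X)| ≤ δ r + C m₀ b^k + C m₀ |npr X|`,
so `|h(|X|²/s²) - h(|npr X|²/s²)| ≤ L · 20 (δ + 2 C m₀)`; mass of `B_{2s}` `≤ Cmass (2 s)^m`.  Small parameters: `m₀`, `r_*` (`δ ≤ C m₀ 2^k r^{k-1}`), `eg`. -/
theorem test_compare (m n Q : ℕ) (hm : 1 ≤ m) (h : ℝ → ℝ) (hh : IsKer h) (hk : 0 < kerC m h) (L : ℝ)
    (hL : ∀ s t, |h s - h t| ≤ L * |s - t|) (B : FitBase) (hB : B.Adm m) (hJ : 4 ≤ B.J) :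
    Ev B (fun π => ∀ (S : Start m n Q π) (r : ℝ), S.Rg r →
      |((r / 5) ^ m)⁻¹ * ∫ X, h (‖npr S.N.u X‖ ^ 2 / (r / 5) ^ 2) ∂S.N.μ - Q * kerC m h| ≤ kerC m h / 32) := by
  have hC0 : 0 < B.C := lt_of_lt_of_le one_pos hB.C_ge
  have hL0 : 0 ≤ L := by
    have := hL 0 1
    have h2 := abs_nonneg (h 0 - h 1)
    norm_num at this
    linarith
  have hkap := kap_pos m
  set T : ℝ := 50 * (L + 1) * ((Q + 1) * kap m * 3 ^ m) with hT
  have hT0 : 0 < T := by positivity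
  have e₁ := start_geo (n := n) (Q := Q) hm B hB hJ
  have e₂ := wtk_frOK (n := n) (Q := Q) hm B hB hJ
  have e₃ := Ev.pos B
  have e₅ := Ev.m₀_lt B (fun _ => min (1 / 4) (kerC m h / (64 * T)) / B.C)
    (fun _ => div_pos (lt_min (by norm_num) (by positivity)) hC0)
  have e₆ := Ev.rs_lt B (fun _ _ _ _ => 1 / 4) (fun _ _ _ _ => by norm_num)
  have e₇ := Ev.eg_lt B (fun _ _ _ _ _ _ _ _ => 1 / 64) (fun _ _ _ _ _ _ _ _ => by norm_num)
  refine (((((e₁.and e₂).and e₃).and e₅).and e₆).and e₇).mono ?_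
  rintro π hπ ⟨⟨⟨⟨⟨a₁, a₂⟩, a₃⟩, a₅⟩, a₆⟩, a₇⟩ S r hr
  subst hπ
  obtain ⟨-, -, hm₀, -, -, -, -, -, -, hlm, hlm1, heg, -⟩ := a₃
  obtain ⟨hG, -, hu0, hnear, -⟩ := a₁ S
  have hok := a₂ S
  have hr0 : 0 < r := hr.1
  have hr1 : r ≤ 1 := by
    have h1 : π.rs < 1 / 4 := a₆
    linarith [hr.2.2]
  set κ : ℝ := π.C * π.m₀ with hκ
  have hκ0 : 0 ≤ κ := by positivity
  have hκm : κ ≤ min (1 / 4) (kerC m h / (64 * T)) := by
    have h1 : π.m₀ < min (1 / 4) (kerC m h / (64 * T)) / π.C := a₅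
    rw [lt_div_iff₀ hC0] at h1
    rw [hκ]
    linarith
  have hκ1 : κ ≤ 1 / 4 := hκm.trans (min_le_left _ _)
  have hκ2 : κ * T ≤ kerC m h / 64 := by
    have := hκm.trans (min_le_right _ _)
    rw [le_div_iff₀ (by positivity)] at this
    linarith
  set K : ℝ := kerC m h with hK
  set s : ℝ := r / 5 with hs'
  have hs : 0 < s := by positivity
  have hs1 : s ≤ 1 / 5 := by rw [hs']; linarith
  have hsm0 : 0 < s ^ m := by positivity
  set W := S.N.W with hW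
  have hb0 : 0 ≤ S.b := bpar_nonneg S.isFail
  have hbs : S.b ≤ s / 20 := by rw [hs']; linarith [hr.2.1]
  have hk0 : π.k ≠ 0 := by
    have := hB.k_gt
    omega
  have hdom : ∀ R : ℝ, R ≤ 2000 → Metric.closedBall (0 : E (m + n)) R ⊆ W.U := fun R hR =>
    (Metric.closedBall_subset_closedBall hR).trans S.good.dom
  -- ambient average
  obtain ⟨hA1, hA2⟩ := W.kint_one_le hm hs (hdom s (by linarith)) hh
  rw [S.good.dens] at hA1
  have hrat : W.ratio 0 1000 ≤ Q + 1 / 64 := S.good.ratio.trans (by have : π.eg < 1 / 64 := a₇; linarith)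
  have hA3 : W.kint (fun _ => 1) h 0 s ≤ (Q + 1 / 64) * K := by
    refine hA2.trans (mul_le_mul_of_nonneg_right ?_ hk.le)
    exact (W.ratio_mono hm hs (by linarith) (hdom 1000 (by norm_num))).trans hrat
  set f₂ : E (m + n) → ℝ := fun X => h (‖X‖ ^ 2 / s ^ 2) with hf₂
  have hkint : W.kint (fun _ => 1) h 0 s = (s ^ m)⁻¹ * ∫ X, f₂ X ∂W.μ := by
    unfold SIV.kint
    simp only [one_mul, sub_zero, hf₂]
  have if₂ : Integrable f₂ W.μ := by
    have := W.lay_integrable (p := 0) hs (hdom s (by linarith)) (u := fun _ => 1) continuous_const hh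
    simpa only [one_mul, sub_zero] using this
  -- the projected average as an integral over `W.μ`
  set g : E m → ℝ := fun y => h (‖y‖ ^ 2 / s ^ 2) with hg
  have hgc : Continuous g := hh.smooth.continuous.comp ((continuous_norm.pow 2).div_const _)
  set f₁ : E (m + n) → ℝ := (Cyl S.N.u S.N.Ω S.N.h).indicator (fun X => g (npr S.N.u X)) with hf₁
  have hint₁ : ∫ X, f₁ X ∂W.μ = ∫ X, g (npr S.N.u X) ∂S.N.μ := integral_indicator hok.ok.measurableSet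
  have mf₁ : AEStronglyMeasurable f₁ W.μ :=
    (aestronglyMeasurable_indicator_iff hok.ok.measurableSet).2 (hok.ok.aesm_comp_npr hgc)
  have hsupp : ∀ᵐ X ∂W.μ, X ∈ W.support := ae_iff.2 W.μ_compl_support
  have hbound : ∀ᵐ X ∂W.μ, ‖f₁ X - f₂ X‖ ≤ (Metric.closedBall (0 : E (m + n)) (2 * s)).indicator
      (fun _ => 50 * (L + 1) * κ) X := by
    filter_upwards [hsupp] with X hX
    exact wtk_cmp_point S hh hL0 hL hκ hκ0 hκ1 hs hs1 hbs hk0 hG hu0 hnear hX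
  have ig : Integrable ((Metric.closedBall (0 : E (m + n)) (2 * s)).indicator (fun _ => 50 * (L + 1) * κ)) W.μ :=
    W.kmo_integrable_bound (hdom (2 * s) (by linarith)) (by positivity)
  have id : Integrable (fun X => f₁ X - f₂ X) W.μ :=
    ig.mono' (mf₁.sub if₂.aestronglyMeasurable) hbound
  have if₁ : Integrable f₁ W.μ := by
    have := id.add if₂
    have e : (fun X => f₁ X - f₂ X) + f₂ = f₁ := by
      funext X
      simp
    rwa [e] at this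
  have hmass : (W.μ (Metric.closedBall (0 : E (m + n)) (2 * s))).toReal ≤ (Q + 1) * kap m * 3 ^ m * s ^ m := by
    have h1 : W.μ (Metric.closedBall (0 : E (m + n)) (2 * s)) ≤
        ENNReal.ofReal (W.ratio 0 1000 * (kap m * (3 * s) ^ m)) :=
      (measure_mono (Metric.closedBall_subset_ball (by linarith))).trans
        (W.upper_mass hm (by positivity) (by linarith) (hdom 1000 (by norm_num)))
    refine (ENNReal.toReal_mono ENNReal.ofReal_ne_top h1).trans ?_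
    rw [ENNReal.toReal_ofReal (mul_nonneg (W.ratio_nonneg 0 (by norm_num)) (by positivity)), mul_pow]
    have : W.ratio 0 1000 ≤ Q + 1 := by linarith
    calc W.ratio 0 1000 * (kap m * (3 ^ m * s ^ m)) ≤ (Q + 1) * (kap m * (3 ^ m * s ^ m)) := by gcongr
      _ = _ := by ring
  have hdiff : |∫ X, f₁ X ∂W.μ - ∫ X, f₂ X ∂W.μ| ≤ κ * T * s ^ m := by
    rw [← integral_sub if₁ if₂, ← Real.norm_eq_abs]
    refine (norm_integral_le_of_norm_le ig hbound).trans ?_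
    rw [integral_indicator_const _ Metric.isClosed_closedBall.measurableSet, smul_eq_mul, Measure.real]
    calc (W.μ (Metric.closedBall (0 : E (m + n)) (2 * s))).toReal * (50 * (L + 1) * κ)
        ≤ ((Q + 1) * kap m * 3 ^ m * s ^ m) * (50 * (L + 1) * κ) := by gcongr
      _ = κ * T * s ^ m := by rw [hT]; ring
  rw [← hint₁]
  rw [hkint] at hA1 hA3
  have hfin : |(s ^ m)⁻¹ * ∫ X, f₁ X ∂W.μ - (s ^ m)⁻¹ * ∫ X, f₂ X ∂W.μ| ≤ K / 64 := by
    rw [← mul_sub, abs_mul, abs_of_pos (inv_pos.2 hsm0), ← div_eq_inv_mul, div_le_iff₀ hsm0]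
    refine hdiff.trans ?_
    gcongr
  obtain ⟨h8, h9⟩ := abs_le.1 hfin
  rw [abs_le]
  constructor <;> linarith

theorem wtk_vdens_zero : vdens (0 : E m →L[ℝ] E n) = 1 := by
  unfold vdens gmat
  simp

theorem wtk_vdens_le (m n : ℕ) {ε : ℝ} (hε : 0 < ε) :
    ∃ δ : ℝ, 0 < δ ∧ ∀ A : E m →L[ℝ] E n, ‖A‖ ≤ δ → vdens A ≤ 1 + ε := by
  have hc : ContinuousAt (vdens : (E m →L[ℝ] E n) → ℝ) 0 := Lin.continuous_vdens.continuousAt
  rw [Metric.continuousAt_iff] at hc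
  obtain ⟨δ, hδ, H⟩ := hc ε hε
  refine ⟨δ / 2, by positivity, fun A hA => ?_⟩
  have := H (x := A) (by rw [dist_zero_right]; linarith)
  rw [wtk_vdens_zero, Real.dist_eq] at this
  linarith [(abs_lt.1 this).2]

theorem wtk_continuous_vdens {u : E m → E n} (hu : ContDiff ℝ 4 u) :
    Continuous fun y => vdens (fderiv ℝ u y) :=
  Lin.continuous_vdens.comp (contDiff_Du (k := 3) hu).continuous

theorem wtk_integral_volS (N : NCyl m n) (hu : ContDiff ℝ 4 N.u) (η : E m → ℝ) :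
    ∫ y, η y ∂N.volS = ∫ y in N.Ω, η y * vdens (fderiv ℝ N.u y) ∂μH[(m : ℝ)] := by
  unfold NCyl.volS
  have hm : Measurable fun y => ENNReal.ofReal (vdens (fderiv ℝ N.u y)) :=
    (wtk_continuous_vdens hu).measurable.ennreal_ofReal
  rw [integral_withDensity_eq_integral_toReal_smul hm
    (Filter.Eventually.of_forall fun _ => ENNReal.ofReal_lt_top)]
  refine integral_congr_ae (Filter.Eventually.of_forall fun y => ?_)
  simp only [ENNReal.toReal_ofReal (vdens_nonneg _), smul_eq_mul, mul_comm]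

theorem wtk_ker_zero {h : ℝ → ℝ} (hh : IsKer h) {s : ℝ} (hs : 0 < s) {y : E m}
    (hy : y ∉ Metric.closedBall (0 : E m) s) : h (‖y‖ ^ 2 / s ^ 2) = 0 := by
  rw [Metric.mem_closedBall, dist_zero_right, not_le] at hy
  refine hh.zero _ ?_
  rw [le_div_iff₀ (by positivity)]
  nlinarith

/-- reference normalisation (leaf `L-Freq-wt-testref`): `1 ≤ vdens ≤ 1 + 1/(64 (Q+1))` for small slope; change of variables `y = s y'` in `kerC`
(`MeasureTheory.Measure.integral_comp_smul`, `μH[m]` Haar). -/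
theorem test_ref (m n Q : ℕ) (hm : 1 ≤ m) (h : ℝ → ℝ) (hh : IsKer h) (B : FitBase) (hB : B.Adm m) (hJ : 4 ≤ B.J) :
    Ev B (fun π => ∀ (S : Start m n Q π) (r : ℝ), S.Rg r →
      kerC m h ≤ ((r / 5) ^ m)⁻¹ * ∫ y, h (‖y‖ ^ 2 / (r / 5) ^ 2) ∂S.N.volS ∧
      ((r / 5) ^ m)⁻¹ * ∫ y, h (‖y‖ ^ 2 / (r / 5) ^ 2) ∂S.N.volS ≤ (1 + 1 / (64 * (Q + 1))) * kerC m h) := by
  obtain ⟨δ, hδ, Hδ⟩ := wtk_vdens_le m n (ε := 1 / (64 * ((Q : ℝ) + 1))) (by positivity)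
  have hC0 : 0 < B.C := lt_of_lt_of_le one_pos hB.C_ge
  have e₁ := start_geo (n := n) (Q := Q) hm B hB hJ
  have e₂ := Ev.m₀_lt B (fun _ => δ / B.C) (fun _ => by positivity)
  have e₃ := Ev.pos B
  refine ((e₁.and e₂).and e₃).mono ?_
  rintro π hπ ⟨⟨a₁, a₂⟩, a₃⟩ S r hr
  subst hπ
  obtain ⟨-, -, hm₀, -, -, hrs, hrs1, -⟩ := a₃
  set s : ℝ := r / 5 with hs'
  have hs : 0 < s := by have := hr.1; positivity
  have hs4 : s < 4 := by have := hr.2.2; rw [hs']; linarith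
  have hG := (a₁ S).1
  set η : E m → ℝ := fun y => h (‖y‖ ^ 2 / s ^ 2) with hη
  have hηc : Continuous η := hh.smooth.continuous.comp ((continuous_norm.pow 2).div_const _)
  have hη0 : ∀ y, 0 ≤ η y := fun y => hh.nonneg _
  have hηz : ∀ y, y ∉ Metric.closedBall (0 : E m) s → η y = 0 := fun y hy => wtk_ker_zero hh hs hy
  have hηcs : HasCompactSupport η := HasCompactSupport.intro (isCompact_closedBall 0 s) (fun y hy => hηz y hy)
  have hv := wtk_continuous_vdens hG.smooth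
  have hv1 : ∀ y, 1 ≤ vdens (fderiv ℝ S.N.u y) := fun y => Base.Exit.one_le_vdens _
  have hv2 : ∀ y, vdens (fderiv ℝ S.N.u y) ≤ 1 + 1 / (64 * ((Q : ℝ) + 1)) := by
    intro y
    refine Hδ _ ((S.ref.slope y).trans ?_)
    have h1 : π.m₀ < δ / π.C := a₂
    rw [lt_div_iff₀ hC0] at h1
    show π.C * π.m₀ ≤ δ
    linarith
  have e1 : ∫ y, η y ∂S.N.volS = ∫ y, η y * vdens (fderiv ℝ S.N.u y) ∂μH[(m : ℝ)] := by
    rw [wtk_integral_volS S.N hG.smooth, S.N_Ω]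
    refine setIntegral_eq_integral_of_forall_compl_eq_zero fun y hy => ?_
    rw [hηz y (fun hy' => hy (Metric.closedBall_subset_ball hs4 hy')), zero_mul]
  have e2 : ∫ y, η y ∂μH[(m : ℝ)] = s ^ m * kerC m h := Flat.integral_ker_scale m hs
  have i1 : Integrable η (μH[(m : ℝ)] : Measure (E m)) := hηc.integrable_of_hasCompactSupport hηcs
  have i2 : Integrable (fun y => η y * vdens (fderiv ℝ S.N.u y)) (μH[(m : ℝ)] : Measure (E m)) :=
    (hηc.mul hv).integrable_of_hasCompactSupport hηcs.mul_right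
  have l1 : s ^ m * kerC m h ≤ ∫ y, η y ∂S.N.volS := by
    rw [e1, ← e2]
    exact integral_mono i1 i2 fun y => le_mul_of_one_le_right (hη0 y) (hv1 y)
  have l2 : ∫ y, η y ∂S.N.volS ≤ (1 + 1 / (64 * ((Q : ℝ) + 1))) * (s ^ m * kerC m h) := by
    rw [e1, ← e2, ← integral_const_mul]
    refine integral_mono i2 (i1.const_mul _) fun y => ?_
    show η y * vdens (fderiv ℝ S.N.u y) ≤ (1 + 1 / (64 * ((Q : ℝ) + 1))) * η y
    rw [mul_comm]
    exact mul_le_mul_of_nonneg_right (hv2 y) (hη0 y)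
  have hsm : 0 < s ^ m := by positivity
  constructor
  · rw [← div_eq_inv_mul, le_div_iff₀ hsm]
    linarith
  · rw [← div_eq_inv_mul, div_le_iff₀ hsm]
    linarith

theorem wtk_iter_scale {H : E m → ℝ} (hH : ContDiff ℝ ∞ H) {s : ℝ} (hs : 0 < s) (j : ℕ) (y : E m) :
    ‖iteratedFDeriv ℝ j (fun y => H (s⁻¹ • y)) y‖ ≤ ‖iteratedFDeriv ℝ j H (s⁻¹ • y)‖ * (s⁻¹) ^ j := by
  set g : E m →L[ℝ] E m := s⁻¹ • ContinuousLinearMap.id ℝ (E m) with hg
  have hsi : 0 < s⁻¹ := inv_pos.2 hs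
  have hgn : ‖g‖ ≤ s⁻¹ := by
    rw [hg, norm_smul, Real.norm_eq_abs, abs_of_pos hsi]
    calc s⁻¹ * ‖ContinuousLinearMap.id ℝ (E m)‖ ≤ s⁻¹ * 1 :=
          mul_le_mul_of_nonneg_left ContinuousLinearMap.norm_id_le hsi.le
      _ = s⁻¹ := mul_one _
  have e1 : (fun y => H (s⁻¹ • y)) = H ∘ g := by
    funext z
    simp [hg]
  have e2 : g y = s⁻¹ • y := by simp [hg]
  rw [e1, g.iteratedFDeriv_comp_right hH y (i := j) (by exact_mod_cast le_top), e2]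
  have h1 := (iteratedFDeriv ℝ j H (s⁻¹ • y)).norm_compContinuousLinearMap_le (fun _ => g)
  rw [Finset.prod_const, Finset.card_univ, Fintype.card_fin] at h1
  exact h1.trans (mul_le_mul_of_nonneg_left (pow_le_pow_left₀ (norm_nonneg _) hgn j) (norm_nonneg _))

/-- **the mass test** (leaf `L-Freq-wt-test`).
PLAN.  `h, L, M` from `exists_testKer` (`J = B.J`); `χ y = a⁻¹ h(|y|²/s²)`, `s = r/5`, `a = ∫ h(|y|²/s²) dvolS ≥ kerC s^m`.  Support in `closedBall 0 (r/5) ⊆ Bs (r/4)`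
(`ρ ≤ (9/8)|y|`).  `∫ χ dν = a⁻¹ ∫ h(|npr X|²/s²) dμ` (`integral_map`); `test_compare`, `test_ref`: `|∫ χ dν - Q| ≤ 1/32 + (Q + 1/32)/(64 (Q+1)) ≤ 1/8`.
Derivatives: `iteratedFDeriv` of `y ↦ H(s⁻¹ y)` is `s^{-j}` times the one of `H` (`iteratedFDeriv_comp_right`/`ContinuousLinearMap.iteratedFDeriv_comp_right`
with norm `≤ s^{-j}`): `r^{m+j} |D^j χ| ≤ 5^{m+j} M / kerC`. -/
theorem wt_test (m n Q : ℕ) (hm : 1 ≤ m) (B : FitBase) (hB : B.Adm m) (hJ : 4 ≤ B.J) :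
    Ev B (fun π => ∀ (S : Start m n Q π) (r : ℝ), S.Rg r →
      ∃ χ : E m → ℝ, ContDiff ℝ ∞ χ ∧ (∀ y, 0 ≤ χ y) ∧ tsupport χ ⊆ Bs S.N.u (r / 4) ∧
        ∫ y, χ y ∂S.N.volS = 1 ∧ |∫ y, χ y ∂S.N.nu - S.N.Q| ≤ 1 / 8 ∧
        ∀ j : ℕ, j ≤ π.J → ∀ y, r ^ m * r ^ j * ‖iteratedFDeriv ℝ j χ y‖ ≤ π.Ca) := by
  obtain ⟨h, hh, hsm, -, hk, ⟨L, hL⟩, hM⟩ := exists_testKer m
  obtain ⟨M, hM⟩ := hM B.J
  have e₁ := test_compare m n Q hm h hh hk L hL B hB hJ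
  have e₂ := test_ref m n Q hm h hh B hB hJ
  have e₃ := wtk_frOK (n := n) (Q := Q) hm B hB hJ
  have e₄ := Ev.Ca_ge B (fun _ _ => 5 ^ (m + B.J) * |M| / kerC m h)
  refine (((e₁.and e₂).and e₃).and e₄).mono ?_
  rintro π hπ ⟨⟨⟨a₁, a₂⟩, a₃⟩, a₄⟩ S r hr
  subst hπ
  have hr0 : 0 < r := hr.1
  have hI := a₁ S r hr
  obtain ⟨ha1, ha2⟩ := a₂ S r hr
  have hok := a₃ S
  set s : ℝ := r / 5 with hs'
  have hs : 0 < s := by positivity
  have hsm0 : 0 < s ^ m := by positivity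
  set K : ℝ := kerC m h with hK
  set η : E m → ℝ := fun y => h (‖y‖ ^ 2 / s ^ 2) with hη
  have hηc : Continuous η := hh.smooth.continuous.comp ((continuous_norm.pow 2).div_const _)
  set a : ℝ := ∫ y, η y ∂S.N.volS with ha
  have ha' : s ^ m * K ≤ a := by
    rw [← div_eq_inv_mul, le_div_iff₀ hsm0] at ha1
    linarith
  have ha0 : 0 < a := lt_of_lt_of_le (by positivity) ha'
  have hηs : ContDiff ℝ ∞ η := hsm.comp ((contDiff_norm_sq ℝ).div_const _)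
  refine ⟨fun y => a⁻¹ * η y, contDiff_const.mul hηs, fun y => mul_nonneg (inv_nonneg.2 ha0.le) (hh.nonneg _),
    ?_, ?_, ?_, ?_⟩
  · have h1 : tsupport (fun y => a⁻¹ * η y) ⊆ Metric.closedBall (0 : E m) s := by
      refine closure_minimal ?_ Metric.isClosed_closedBall
      intro y hy
      by_contra hcon
      exact hy (by show a⁻¹ * η y = 0; rw [show η y = 0 from wtk_ker_zero hh hs hcon, mul_zero])
    refine h1.trans fun y hy => ?_
    rw [Metric.mem_closedBall, dist_zero_right] at hy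
    show rho S.N.u y < r / 4
    have := ((rho_facts hok.geo).2.1 y).2
    rw [hs'] at hy
    linarith
  · rw [integral_const_mul]
    exact inv_mul_cancel₀ ha0.ne'
  · have e1 : ∫ y, a⁻¹ * η y ∂S.N.nu = a⁻¹ * ∫ X, η (npr S.N.u X) ∂S.N.μ := by
      rw [integral_const_mul]
      congr 1
      exact integral_map hok.ok.aemeasurable_npr hηc.aestronglyMeasurable
    rw [e1, S.N_Q]
    set Jμ : ℝ := ∫ X, η (npr S.N.u X) ∂S.N.μ with hJμ
    set I : ℝ := (s ^ m)⁻¹ * Jμ with hI'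
    set b : ℝ := (s ^ m)⁻¹ * a with hb
    have hb0 : 0 < b := by positivity
    have e2 : a⁻¹ * Jμ - Q = (I - Q * b) / b := by
      rw [hI', hb]
      field_simp
    have hQε : (Q : ℝ) * (1 / (64 * ((Q : ℝ) + 1))) ≤ 1 / 64 := by
      rw [mul_one_div, div_le_div_iff₀ (by positivity) (by norm_num)]
      nlinarith [(Nat.cast_nonneg Q : (0 : ℝ) ≤ Q)]
    have hQ0 : (0 : ℝ) ≤ Q := Nat.cast_nonneg Q
    have hK0 : 0 < K := hk
    have h3 : (Q : ℝ) * (b - K) ≤ K / 64 := by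
      have h4 : b - K ≤ 1 / (64 * ((Q : ℝ) + 1)) * K := by linarith
      calc (Q : ℝ) * (b - K) ≤ Q * (1 / (64 * ((Q : ℝ) + 1)) * K) := mul_le_mul_of_nonneg_left h4 hQ0
        _ = (Q * (1 / (64 * ((Q : ℝ) + 1)))) * K := by ring
        _ ≤ 1 / 64 * K := mul_le_mul_of_nonneg_right hQε hK0.le
        _ = K / 64 := by ring
    have h5 : 0 ≤ (Q : ℝ) * (b - K) := mul_nonneg hQ0 (by linarith)
    rw [e2, abs_div, abs_of_pos hb0, div_le_iff₀ hb0, abs_le]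
    obtain ⟨h6, h7⟩ := abs_le.1 hI
    constructor <;> nlinarith
  · intro j hj y
    have e1 : (fun y => a⁻¹ * η y) = a⁻¹ • (fun y : E m => (fun z : E m => h (‖z‖ ^ 2)) (s⁻¹ • y)) := by
      funext y
      simp only [Pi.smul_apply, smul_eq_mul, hη]
      congr 2
      rw [norm_smul, Real.norm_eq_abs, abs_of_pos (inv_pos.2 hs)]
      field_simp
    have hH : ContDiff ℝ ∞ (fun z : E m => h (‖z‖ ^ 2)) := hsm.comp (contDiff_norm_sq ℝ)
    have hH' : ContDiff ℝ ∞ (fun y : E m => (fun z : E m => h (‖z‖ ^ 2)) (s⁻¹ • y)) :=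
      hH.comp (contDiff_id.const_smul s⁻¹)
    rw [e1, iteratedFDeriv_const_smul_apply (hH'.contDiffAt.of_le (by exact_mod_cast le_top)), norm_smul,
      Real.norm_eq_abs, abs_of_pos (inv_pos.2 ha0)]
    have h1 := wtk_iter_scale hH hs j y
    have h2 : ‖iteratedFDeriv ℝ j (fun z : E m => h (‖z‖ ^ 2)) (s⁻¹ • y)‖ ≤ |M| :=
      (hM j hj _).trans (le_abs_self _)
    have h3 : a⁻¹ ≤ (s ^ m * K)⁻¹ := inv_anti₀ (by positivity) ha'
    calc r ^ m * r ^ j * (a⁻¹ * ‖iteratedFDeriv ℝ j (fun y : E m => (fun z : E m => h (‖z‖ ^ 2)) (s⁻¹ • y)) y‖)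
        ≤ r ^ m * r ^ j * ((s ^ m * K)⁻¹ * (|M| * (s⁻¹) ^ j)) := by
          gcongr
          exact h1.trans (mul_le_mul_of_nonneg_right h2 (by positivity))
      _ = 5 ^ (m + j) * |M| / K := by
          rw [hs', pow_add, inv_div, div_pow, div_pow]
          field_simp
      _ ≤ 5 ^ (m + π.J) * |M| / K := by
          gcongr
          · norm_num
      _ ≤ π.Ca := a₄

/-! ### assembly -/

theorem Wt.mono {k J : ℕ} {Cm Cm' C C' : ℝ} {N : NCyl m n} {r : ℝ} (h : Wt k J Cm C N r) (hr : 0 < r) (hC : 0 < C)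
    (hCm : Cm ≤ Cm') (hCC : C ≤ C') : Wt k J Cm' C' N r where
  d_pos := h.d_pos
  d_le := h.d_le.trans (mul_le_mul_of_nonneg_right hCC (by positivity))
  mass := h.mass.trans (ENNReal.ofReal_le_ofReal (mul_le_mul_of_nonneg_right hCm (by positivity)))
  H_lo := by
    refine le_trans (mul_le_mul_of_nonneg_right ?_ (by positivity)) h.H_lo
    exact inv_anti₀ hC hCC
  H_hi := h.H_hi.trans (mul_le_mul_of_nonneg_right hCC (by positivity))
  curv y hy := by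
    refine (h.curv y hy).trans ?_
    have := h.d_pos
    gcongr
  wcurv := by
    refine h.wcurv.trans (mul_le_mul_of_nonneg_right hCC ?_)
    refine integral_nonneg fun X => ?_
    have : 0 ≤ phiR N.u r (npr N.u X) := by
      unfold phiR
      positivity
    positivity
  test := by
    obtain ⟨χ, h1, h2, h3, h4, h5, h6⟩ := h.test
    exact ⟨χ, h1, h2, h3, h4, h5, fun j hj y => (h6 j hj y).trans hCC⟩

/-- **CO Lemma 4.2**, in the form of the single-radius frame of CO Lemma 4.3.  PROVED from the leaves. -/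
theorem frame (m n Q : ℕ) (hm : 1 ≤ m) : ∃ J₁ : ℕ, ∀ B : FitBase, J₁ ≤ B.J → B.Adm m →
    Ev B (fun π => ∀ (S : Start m n Q π) (r : ℝ), S.Rg r →
      Fr Q π.J π.k (max π.hc (π.C * π.m₀)) π.Ca S.N r) := by
  obtain ⟨J₁, h₁⟩ := wt_dpos m n Q hm
  obtain ⟨J₂, h₂⟩ := wt_Hlo m n Q hm
  obtain ⟨Nov, h₃⟩ := wt_wcurv m n Q hm
  refine ⟨J₁ + J₂ + 4, fun B hJ hB => ?_⟩
  have hJ4 : 4 ≤ B.J := by omega
  have e₁ := h₁ B (by omega) hB
  have e₂ := h₂ B (by omega) hB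
  have e₃ := h₃ B hJ4 hB
  have e₄ := wt_height (n := n) (Q := Q) hm B hB hJ4
  have e₅ := wt_mass (n := n) (Q := Q) hm B hB hJ4
  have e₆ := wt_Hhi (n := n) (Q := Q) hm B hB hJ4
  have e₇ := wt_curv m n Q hm B hB hJ4
  have e₈ := wt_test m n Q hm B hB hJ4
  have e₉ := start_geo (n := n) (Q := Q) hm B hB hJ4
  have e₁₀ := Ev.pos B
  have e₁₁ := Ev.m₀_lt B (fun _ => 1 / B.C) (fun _ => by have := hB.C_ge; positivity)
  have e₁₂ := Ev.rs_lt B (fun _ _ _ _ => 1 / 4) (fun _ _ _ _ => by norm_num)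
  have e₁₃ := Ev.Ca_ge B (fun _ m₀ => B.C * m₀ * 2 ^ B.k
    + (10 * B.c ^ 3 * m₀ ^ 2 / (2 ^ (B.k + 1) * B.C * m₀) ^ 4)⁻¹ + 80 * Cmass m Q + B.C * m₀ * 4 ^ B.k / B.c
    + 2 * (2 ^ 10 * B.C ^ 2 * 3 ^ (4 * B.k) * Cmass m Q * 4 ^ m / B.c ^ 3) * Nov)
  refine ((((((((((((e₁.and e₂).and e₃).and e₄).and e₅).and e₆).and e₇).and e₈).and e₉).and e₁₀).and e₁₁).and e₁₂).and
    e₁₃).mono ?_
  rintro π hπ ⟨⟨⟨⟨⟨⟨⟨⟨⟨⟨⟨⟨a₁, a₂⟩, a₃⟩, a₄⟩, a₅⟩, a₆⟩, a₇⟩, a₈⟩, a₉⟩, a₁₀⟩, a₁₁⟩, a₁₂⟩, a₁₃⟩ S r hr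
  subst hπ
  obtain ⟨hhc, -, hm₀, hm₀1, -, hrs, -, -, -, hlm, hlm1, -, -⟩ := a₁₀
  have hC1 : 1 ≤ π.C := hB.C_ge
  have hc0 : 0 < π.c := hB.c_pos
  have hCm : 0 ≤ Cmass m Q := by
    have := kap_pos m
    unfold Cmass
    positivity
  have hr0 : 0 < r := hr.1
  have hd0 : 0 < qd S.N r := a₁ S r hr
  -- the five explicit constants
  set K₁ := π.C * π.m₀ * 2 ^ π.k with hK₁
  set K₂ := 10 * π.c ^ 3 * π.m₀ ^ 2 / (2 ^ (π.k + 1) * π.C * π.m₀) ^ 4 with hK₂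
  set K₃ := 80 * Cmass m Q with hK₃
  set K₄ := π.C * π.m₀ * 4 ^ π.k / π.c with hK₄
  have hK₅ : 2 * (2 ^ 10 * π.C ^ 2 * 3 ^ (4 * π.k) * Cmass m Q * 4 ^ m / π.c ^ 3) * Nov = 2 * Kcell m Q π * Nov := rfl
  set K₅ := 2 * Kcell m Q π * Nov with hK₅'
  have p₁ : 0 ≤ K₁ := by positivity
  have p₂ : 0 < K₂ := by positivity
  have p₃ : 0 ≤ K₃ := by positivity
  have p₄ : 0 ≤ K₄ := by positivity
  have p₅ : 0 ≤ K₅ := by
    have : 0 ≤ Kcell m Q π := by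
      unfold Kcell
      positivity
    positivity
  have hsum : K₁ + K₂⁻¹ + K₃ + K₄ + K₅ ≤ π.Ca := a₁₃
  have p₂' : 0 < K₂⁻¹ := inv_pos.2 p₂
  have hCa : 0 < π.Ca := by linarith
  have hb1 : S.b ≤ 1 := (bpar_le S.isFail hlm.le).trans hlm1
  have hb0 : 0 ≤ S.b := bpar_nonneg S.isFail
  have hCm₀ : π.C * π.m₀ ≤ 1 := by
    have h1 : π.m₀ < 1 / π.C := a₁₁
    rw [lt_div_iff₀ (by linarith)] at h1
    linarith
  refine ⟨S.N_Q, S.N_Ω, refGraph_mono S.ref le_rfl (le_max_right _ _) (le_max_right _ _), ?_, ?_, ?_, hr0, ?_,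
    (a₅ S).1, ?_⟩
  · rw [S.N_h]; exact le_max_left _ _
  · refine (a₉ S).2.2.1.trans ?_
    have : S.b ^ π.k ≤ 1 := pow_le_one₀ hb0 hb1
    have h0 : 0 ≤ π.C * π.m₀ := by positivity
    nlinarith
  · have := hB.k_gt
    omega
  · have h1 : π.rs < 1 / 4 := a₁₂
    linarith [hr.2.2]
  · refine ⟨hd0, ?_, (a₅ S).2 r hr, ?_, ?_, fun y hy => ?_, ?_, a₈ S r hr⟩
    · refine (a₄ S r hr).2.2.trans (mul_le_mul_of_nonneg_right ?_ (by positivity))
      linarith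
    · refine le_trans (mul_le_mul_of_nonneg_right ?_ (by positivity)) (a₂ S r hr)
      rw [inv_le_comm₀ hCa p₂]
      linarith
    · refine (a₆ S r hr).trans (mul_le_mul_of_nonneg_right ?_ (by positivity))
      linarith
    · refine (a₇ S r hr y hy).trans ?_
      have : K₄ ≤ π.Ca := by linarith
      gcongr
    · refine (a₃ S r hr).trans (mul_le_mul_of_nonneg_right ?_ ?_)
      · linarith
      · refine integral_nonneg fun X => ?_
        have : 0 ≤ phiR S.N.u r (npr S.N.u X) := by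
          unfold phiR
          positivity
        positivity

/-- **CO Lemma 4.2 (weighted bounds)**, with the constant `C₁`.  PROVED from `frame`. -/
theorem weights (m n Q : ℕ) (hm : 1 ≤ m) (_hn : 1 ≤ n) (_hQ : 1 ≤ Q) :
    ∃ J₁ : ℕ, ∀ B : FitBase, J₁ ≤ B.J → B.Adm m →
      Ev B (fun π => ∀ S : Start m n Q π, ∀ r : ℝ, 0 < r → 100 * S.b ≤ r → r ≤ 4 * π.rs → Wts π S.N r) := by
  obtain ⟨J₁, h₁⟩ := frame m n Q hm
  refine ⟨J₁, fun B hJ hB => ?_⟩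
  refine (((h₁ B hJ hB).and (Ev.Ca_le B)).and (Ev.C₁_ge B (fun _ _ _ => Cmass m Q))).mono ?_
  rintro π - ⟨⟨a₁, a₂, a₃⟩, a₄⟩ S r h1 h2 h3
  exact (a₁ S r ⟨h1, h2, h3⟩).wt.mono h1 (by linarith) a₄ a₃

end Claimed.Agent.R322.Freq
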