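import Claimed.Agent.R322.Freq.Height
import Claimed.Agent.R322.Freq.Weights

/-!
# CO Lemma 4.3 (frequency on a fitting interval): assembly

Owner: helper109 (packages BP-CO4-freqA, BP-CO4-freqB).  Everything in this file is PROVED from the leaves of
`Freq/Flux.lean`, `Freq/Cells.lean`, `Freq/Hor.lean`, `Freq/Height.lean`, `Freq/Weights.lean`.

* `FreqIneq C N r` : the inequalities of CO Lemma 4.3 at one radius (not divided by `H`), `η = C δ`;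
* `freq_ineq` : they hold uniformly over all frames;
* `wcomp` : CO (4.13) for starts;  `freq_ok` : the hypothesis `OdeData.Ok` of the ODE lemma for starts (`α = 1`, `c = 1/5`).
-/

set_option autoImplicit false

open scoped ENNReal ContDiff
open MeasureTheory Filter Topology

namespace Claimed.Agent.R322.Freq

open Claimed.Agent.R322.Tube

variable {m n : ℕ}

/-! ### bookkeeping for `Unif` -/

section unif

variable {Q : ℕ} {Φ Ψ : ℝ → NCyl m n → ℝ → Prop}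

theorem Unif₀.toUnif {Φ : NCyl m n → ℝ → Prop} (h : Unif₀ m n Q Φ) : Unif m n Q (fun _ N r => Φ N r) := by
  obtain ⟨J₁, κ₀, hκ₀, h⟩ := h
  exact ⟨J₁, κ₀, hκ₀, fun Ca => ⟨1, 1, le_rfl, one_pos, fun J k κ N r hJ hκ _ hF => h J k κ Ca N r hJ hκ hF⟩⟩

theorem Unif.pair (h₁ : Unif m n Q Φ) (h₂ : Unif m n Q Ψ) :
    Unif m n Q (fun C N r => ∃ C₁ C₂ : ℝ, C₁ ≤ C ∧ C₂ ≤ C ∧ Φ C₁ N r ∧ Ψ C₂ N r) := by
  obtain ⟨J₁, κ₁, hκ₁, h₁⟩ := h₁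
  obtain ⟨J₂, κ₂, hκ₂, h₂⟩ := h₂
  refine ⟨max J₁ J₂, min κ₁ κ₂, lt_min hκ₁ hκ₂, fun Ca => ?_⟩
  obtain ⟨C₁, r₁, hC₁, hr₁, h₁⟩ := h₁ Ca
  obtain ⟨C₂, r₂, -, hr₂, h₂⟩ := h₂ Ca
  refine ⟨max C₁ C₂, min r₁ r₂, hC₁.trans (le_max_left _ _), lt_min hr₁ hr₂, fun J k κ N r hJ hκ hr hF => ?_⟩
  exact ⟨C₁, C₂, le_max_left _ _, le_max_right _ _,
    h₁ J k κ N r ((le_max_left _ _).trans hJ) (hκ.trans (min_le_left _ _)) (hr.trans (min_le_left _ _)) hF,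
    h₂ J k κ N r ((le_max_right _ _).trans hJ) (hκ.trans (min_le_right _ _)) (hr.trans (min_le_right _ _)) hF⟩

theorem Unif.map (h : Unif m n Q Φ) (f : ℝ → ℝ) (hf : ∀ C, 1 ≤ C → 1 ≤ f C)
    (H : ∀ (C : ℝ) (N : NCyl m n) (r : ℝ), 1 ≤ C → 0 < r → r ≤ 1 → Φ C N r → Ψ (f C) N r) : Unif m n Q Ψ := by
  obtain ⟨J₁, κ₁, hκ₁, h⟩ := h
  refine ⟨J₁, κ₁, hκ₁, fun Ca => ?_⟩
  obtain ⟨C, r₀, hC, hr₀, h⟩ := h Ca
  exact ⟨f C, r₀, hf C hC, hr₀, fun J k κ N r hJ hκ hr hF => H C N r hC hF.r_pos hF.r_le (h J k κ N r hJ hκ hr hF)⟩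

end unif

/-- **The inequalities of CO Lemma 4.3 at one radius.** -/
structure FreqIneq (C : ℝ) (N : NCyl m n) (r : ℝ) : Prop where
  H_pos : 0 < qH N r
  E_nonneg : 0 ≤ qE N r
  R_nonneg : 0 ≤ qR N r
  d_pos : 0 < qd N r
  T_lo : Real.log (qd N r)⁻¹ ≤ Real.log (r ^ 2 / qH N r)
  T_hi : Real.log (r ^ 2 / qH N r) ≤ 5 * Real.log (qd N r)⁻¹
  f_abs : |qA N r| ≤ C * (qE N r + r ^ 2 * qH N r)
  f_signed : 2 * qA N r ≤ qE N r + C * gT N r * (qE N r + qH N r) + C * r ^ 2 * qH N r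
  f_flux : qE N r ≤ Real.sqrt (qH N r * qR N r) + C * (r ^ 2 * qH N r + qd N r * qE N r)
  f_hor : |qA' N r - (2 * qA N r - qE N r + qR N r)|
    ≤ C * (r * Real.sqrt (qR N r * qH N r) + r ^ 2 * (qE N r + qH N r) + qd N r * (qE N r + qR N r))
  f_ht_lo : -(m : ℝ) * qH N r ≤ qH' N r
  f_ht_hi : qH' N r ≤ 2 * qE N r + C * (r * qH N r + qd N r * (qE N r + qR N r))

/-- real arithmetic of the horizontal estimate -/
theorem hor_arith {A' A E R H Rt c I₁ I₂ I₃ C r d s : ℝ} (hC : 1 ≤ C) (hE : 0 ≤ E) (hR : 0 ≤ R) (hH : 0 ≤ H) (hr : 0 ≤ r)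
    (hd : 0 ≤ d) (hs : 0 ≤ s)
    (hid : A' = 2 * A - E + Rt + c * (I₁ - I₂ + I₃))
    (h0 : |Rt - R| ≤ C * (r * s + d * (E + R)))
    (h1 : |c * I₁| ≤ C * r ^ 2 * (E + H)) (h2 : |c * I₂| ≤ C * r ^ 2 * E)
    (h3 : |c * I₃| ≤ C * (r ^ 2 * (E + H) + d * E)) :
    |A' - (2 * A - E + R)| ≤ 3 * C * (r * s + r ^ 2 * (E + H) + d * (E + R)) := by
  have e : A' - (2 * A - E + R) = (Rt - R) + c * I₁ - c * I₂ + c * I₃ := by rw [hid]; ring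
  rw [e]
  have t1 : |(Rt - R) + c * I₁ - c * I₂ + c * I₃| ≤ |Rt - R| + |c * I₁| + |c * I₂| + |c * I₃| := by
    refine (abs_add_le _ _).trans ?_
    refine add_le_add_left ((abs_sub _ _).trans ?_) _
    exact add_le_add_left (abs_add_le _ _) _
  refine t1.trans ?_
  have p1 : 0 ≤ C * (r ^ 2 * H) := by positivity
  have p2 : 0 ≤ C * (d * R) := by positivity
  have p3 : 0 ≤ C * (r * s) := by positivity
  have p4 : 0 ≤ C * (r ^ 2 * E) := by positivity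
  have p5 : 0 ≤ C * (d * E) := by positivity
  nlinarith [h0, h1, h2, h3]

/-- real arithmetic of the height estimate -/
theorem ht_arith {H' H E R Fl Tr Z C r d mm : ℝ} (hC : 1 ≤ C) (hE : 0 ≤ E) (hR : 0 ≤ R) (hH : 0 ≤ H) (hr : 0 ≤ r)
    (hr1 : r ≤ 1) (hd : 0 ≤ d) (hd1 : d ≤ 1) (hmm : 0 ≤ mm)
    (hid : H' = -mm * H + Tr + 2 * Fl) (hTr : Tr ≤ (mm + C * r) * Z)
    (hZ1 : Z - H ≤ C * (d ^ 2 * (E + R) + r * H)) (hZ2 : Z ≤ C * (H + d ^ 2 * (E + R)))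
    (hFl : |E - Fl| ≤ C * (r ^ 2 * H + d * E)) :
    H' ≤ 2 * E + (mm + 3) * C ^ 2 * (r * H + d * (E + R)) := by
  have hFl' : Fl ≤ E + C * (r ^ 2 * H + d * E) := by
    have := (abs_le.1 hFl).1
    linarith
  have hd2 : d ^ 2 ≤ d := by nlinarith
  have hr2 : r ^ 2 ≤ r := by nlinarith
  have hER : 0 ≤ E + R := by positivity
  have q1 : d ^ 2 * (E + R) ≤ d * (E + R) := mul_le_mul_of_nonneg_right hd2 hER
  have q2 : r ^ 2 * H ≤ r * H := mul_le_mul_of_nonneg_right hr2 hH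
  have q3 : d * E ≤ d * (E + R) := by nlinarith
  set U := r * H + d * (E + R) with hU
  have hU0 : 0 ≤ U := by positivity
  have hCC : C ≤ C ^ 2 := by nlinarith
  -- m (Z - H)
  have s1 : mm * (Z - H) ≤ mm * C ^ 2 * U := by
    have : Z - H ≤ C * U := hZ1.trans (by rw [hU]; nlinarith)
    have h2 : C * U ≤ C ^ 2 * U := mul_le_mul_of_nonneg_right hCC hU0
    nlinarith
  -- C r Z
  have s2 : C * r * Z ≤ C ^ 2 * U := by
    have h1 : r * Z ≤ r * (C * (H + d ^ 2 * (E + R))) := mul_le_mul_of_nonneg_left hZ2 hr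
    have h2 : r * (d ^ 2 * (E + R)) ≤ d * (E + R) := by
      have : 0 ≤ d ^ 2 * (E + R) := by positivity
      nlinarith
    have h3 : r * (C * (H + d ^ 2 * (E + R))) ≤ C * U := by
      rw [hU]
      nlinarith
    nlinarith
  have s3 : 2 * (C * (r ^ 2 * H + d * E)) ≤ 2 * C ^ 2 * U := by
    have h1 : r ^ 2 * H + d * E ≤ U := by rw [hU]; linarith
    have h2 : C * (r ^ 2 * H + d * E) ≤ C * U := mul_le_mul_of_nonneg_left h1 (by linarith)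
    have h3 : C * U ≤ C ^ 2 * U := mul_le_mul_of_nonneg_right hCC hU0
    linarith
  have e : -mm * H + (mm + C * r) * Z = mm * (Z - H) + C * r * Z := by ring
  nlinarith

theorem const_arith {C mm : ℝ} (hC : 1 ≤ C) (hm : 0 ≤ mm) :
    1 ≤ (mm + 3) * C ^ 2 ∧ C ≤ (mm + 3) * C ^ 2 ∧ 3 * C ≤ (mm + 3) * C ^ 2 := by
  have h1 : C ≤ C ^ 2 := by nlinarith
  have h2 : 0 ≤ mm * C ^ 2 := by positivity
  refine ⟨by nlinarith, by nlinarith, by nlinarith⟩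

theorem mono_arith {C C' x y : ℝ} (h : x ≤ C * y) (hC : C ≤ C') (hy : 0 ≤ y) : x ≤ C' * y :=
  h.trans (mul_le_mul_of_nonneg_right hC hy)

theorem sgn_arith {A E H g r C C' : ℝ} (hE : 0 ≤ E) (hH : 0 ≤ H) (hg : 0 ≤ g) (hC : C ≤ C')
    (h : 2 * A ≤ E + C * g * (E + H) + C * r ^ 2 * H) : 2 * A ≤ E + C' * g * (E + H) + C' * r ^ 2 * H := by
  have p1 : 0 ≤ g * (E + H) := by positivity
  have p2 : 0 ≤ r ^ 2 * H := by positivity
  have q1 := mul_le_mul_of_nonneg_right hC p1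
  have q2 := mul_le_mul_of_nonneg_right hC p2
  nlinarith

theorem flux_arith {E H R Fl r d C C' : ℝ} (hE : 0 ≤ E) (hH : 0 ≤ H) (hd : 0 ≤ d) (hC : C ≤ C')
    (hcs : Fl ^ 2 ≤ H * R) (hfl : |E - Fl| ≤ C * (r ^ 2 * H + d * E)) :
    E ≤ Real.sqrt (H * R) + C' * (r ^ 2 * H + d * E) := by
  have h1 : Fl ≤ Real.sqrt (H * R) := (le_abs_self _).trans (Real.abs_le_sqrt hcs)
  have h2 := (abs_le.1 hfl).2
  have p1 : 0 ≤ r ^ 2 * H + d * E := by positivity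
  have := mul_le_mul_of_nonneg_right hC p1
  linarith

/-- the horizontal estimate with individual constants -/
theorem hor_arith' {A' A E R H Rt c I₁ I₂ I₃ C C' C₀ C₁ C₂ C₃ r d s : ℝ} (hC : 1 ≤ C) (hE : 0 ≤ E) (hR : 0 ≤ R) (hH : 0 ≤ H)
    (hr : 0 ≤ r) (hd : 0 ≤ d) (hs : 0 ≤ s) (k0 : C₀ ≤ C) (k1 : C₁ ≤ C) (k2 : C₂ ≤ C) (k3 : C₃ ≤ C) (hC' : 3 * C ≤ C')
    (hid : A' = 2 * A - E + Rt + c * (I₁ - I₂ + I₃))
    (h0 : |Rt - R| ≤ C₀ * (r * s + d * (E + R)))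
    (h1 : |c * I₁| ≤ C₁ * r ^ 2 * (E + H)) (h2 : |c * I₂| ≤ C₂ * r ^ 2 * E)
    (h3 : |c * I₃| ≤ C₃ * (r ^ 2 * (E + H) + d * E)) :
    |A' - (2 * A - E + R)| ≤ C' * (r * s + r ^ 2 * (E + H) + d * (E + R)) := by
  have p0 : 0 ≤ r * s + d * (E + R) := by positivity
  have p1 : 0 ≤ r ^ 2 * (E + H) := by positivity
  have p2 : 0 ≤ r ^ 2 * E := by positivity
  have p3 : 0 ≤ r ^ 2 * (E + H) + d * E := by positivity
  have := hor_arith (A' := A') (A := A) hC hE hR hH hr hd hs hid (mono_arith h0 k0 p0)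
    (h1.trans (by have := mul_le_mul_of_nonneg_right k1 p1; nlinarith))
    (h2.trans (by have := mul_le_mul_of_nonneg_right k2 p2; nlinarith))
    (mono_arith h3 k3 p3)
  exact mono_arith this hC' (by positivity)

/-- the height estimate with individual constants -/
theorem ht_arith' {H' H E R Fl Tr Z C C₁ C₂ C₃ r d mm : ℝ} (hC : 1 ≤ C) (hE : 0 ≤ E) (hR : 0 ≤ R) (hH : 0 ≤ H) (hZ : 0 ≤ Z)
    (hr : 0 ≤ r) (hr1 : r ≤ 1) (hd : 0 ≤ d) (hd1 : d ≤ 1) (hmm : 0 ≤ mm) (k1 : C₁ ≤ C) (k2 : C₂ ≤ C) (k3 : C₃ ≤ C)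
    (hid : H' = -mm * H + Tr + 2 * Fl) (hTr : Tr ≤ (mm + C₁ * r) * Z)
    (hZ1 : Z - H ≤ C₂ * (d ^ 2 * (E + R) + r * H)) (hZ2 : Z ≤ C₂ * (H + d ^ 2 * (E + R)))
    (hFl : |E - Fl| ≤ C₃ * (r ^ 2 * H + d * E)) :
    H' ≤ 2 * E + (mm + 3) * C ^ 2 * (r * H + d * (E + R)) := by
  have p1 : 0 ≤ d ^ 2 * (E + R) + r * H := by positivity
  have p2 : 0 ≤ H + d ^ 2 * (E + R) := by positivity
  have p3 : 0 ≤ r ^ 2 * H + d * E := by positivity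
  refine ht_arith hC hE hR hH hr hr1 hd hd1 hmm hid (hTr.trans (mul_le_mul_of_nonneg_right ?_ hZ))
    (mono_arith hZ1 k2 p1) (mono_arith hZ2 k2 p2) (mono_arith hFl k3 p3)
  have := mul_le_mul_of_nonneg_right k1 hr
  linarith

/-- **CO Lemma 4.3 at one radius, uniformly over all frames.**  PROVED from the leaves. -/
theorem freq_ineq (m n Q : ℕ) (hm : 1 ≤ m) (hn : 1 ≤ n) (hQ : 1 ≤ Q) : Unif m n Q (fun C N r => FreqIneq C N r) := by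
  have U := (signs m n Q).toUnif.pair ((abs_est m n Q hm hn).pair ((signed_est m n Q hm hn hQ).pair
    ((flux_est m n Q hm).pair ((flux_cs m n Q).toUnif.pair ((hor_id m n Q).toUnif.pair ((hor_R m n Q hm).pair
    ((hor_I1 m n Q hm hn).pair ((hor_I2 m n Q).pair ((hor_I3 m n Q hm).pair ((ht_id m n Q).toUnif.pair
    ((ht_trace m n Q).pair ((wcompB m n Q hm).pair (cell_num m n Q)))))))))))))
  have hm0 : (0 : ℝ) ≤ m := Nat.cast_nonneg m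
  refine U.map (fun C => (m + 3) * C ^ 2) (fun C hC => (const_arith hC hm0).1) ?_
  intro C N r hC hr hr1 h
  obtain ⟨-, C₁, -, hC₁, ⟨sH, sE, sR, -, sZ, -, sH', hd0⟩, h⟩ := h
  obtain ⟨Ca, C₂, hCa, hC₂, habs, h⟩ := h
  obtain ⟨Cb, C₃, hCb, hC₃, hsgn, h⟩ := h
  obtain ⟨Cc, C₄, hCc, hC₄, hfl, h⟩ := h
  obtain ⟨-, C₅, -, hC₅, hcs, h⟩ := h
  obtain ⟨-, C₆, -, hC₆, ⟨-, -, -, hid⟩, h⟩ := h
  obtain ⟨Cd, C₇, hCd, hC₇, hRt, h⟩ := h
  obtain ⟨Ce, C₈, hCe, hC₈, hI1, h⟩ := h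
  obtain ⟨Cf, C₉, hCf, hC₉, hI2, h⟩ := h
  obtain ⟨Cg, C₁₀, hCg, hC₁₀, hI3, h⟩ := h
  obtain ⟨-, C₁₁, -, hC₁₁, ⟨-, hhid⟩, h⟩ := h
  obtain ⟨Ch, C₁₂, hCh, hC₁₂, htr, h⟩ := h
  obtain ⟨Ci, Cj, hCi, hCj, ⟨hZ1, hZ2⟩, hnum⟩ := h
  obtain ⟨-, -, -, -, hT1, hT5, hTl, hg0, hg1, hdg⟩ := hnum
  -- all constants are `≤ C`
  have k₂ : C₂ ≤ C := hC₂.trans hC₁
  have k₃ : C₃ ≤ C := hC₃.trans k₂
  have k₄ : C₄ ≤ C := hC₄.trans k₃
  have k₅ : C₅ ≤ C := hC₅.trans k₄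
  have k₆ : C₆ ≤ C := hC₆.trans k₅
  have k₇ : C₇ ≤ C := hC₇.trans k₆
  have k₈ : C₈ ≤ C := hC₈.trans k₇
  have k₉ : C₉ ≤ C := hC₉.trans k₈
  have k₁₀ : C₁₀ ≤ C := hC₁₀.trans k₉
  have k₁₁ : C₁₁ ≤ C := hC₁₁.trans k₁₀
  have k₁₂ : C₁₂ ≤ C := hC₁₂.trans k₁₁
  have kCa : Ca ≤ C := hCa.trans hC₁
  have kCb : Cb ≤ C := hCb.trans k₂
  have kCc : Cc ≤ C := hCc.trans k₃
  have kCd : Cd ≤ C := hCd.trans k₆
  have kCe : Ce ≤ C := hCe.trans k₇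
  have kCf : Cf ≤ C := hCf.trans k₈
  have kCg : Cg ≤ C := hCg.trans k₉
  have kCh : Ch ≤ C := hCh.trans k₁₁
  have kCi : Ci ≤ C := hCi.trans k₁₂
  obtain ⟨-, hCC, h3CC⟩ := const_arith hC hm0
  have hd1 : qd N r ≤ 1 := hdg.trans hg1
  refine ⟨sH, sE, sR, hd0, hTl, hT5, ?_, ?_, ?_, ?_, sH', ?_⟩
  · -- absolute
    have h1 := habs (fun _ => 1) measurable_const (fun _ => by simp)
    simp only [one_mul] at h1
    exact mono_arith h1 (kCa.trans hCC) (add_nonneg sE (mul_nonneg (sq_nonneg r) sH.le))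
  · exact sgn_arith sE sH.le hg0.le (kCb.trans hCC) hsgn
  · exact flux_arith sE sH.le hd0.le (kCc.trans hCC) hcs hfl
  · exact hor_arith' hC sE sR sH.le hr.le hd0.le (Real.sqrt_nonneg _) kCd kCe kCf kCg h3CC hid hRt hI1 hI2 hI3
  · exact ht_arith' hC sE sR sH.le sZ hr.le hr1 hd0.le hd1 hm0 kCh kCi kCc hhid htr hZ1 hZ2 hfl

/-! ### from frames to starts -/

/-- a uniform statement over frames holds for all starts, with a constant `≤ C₁` -/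
theorem Unif.ev {Q : ℕ} {Φ : ℝ → NCyl m n → ℝ → Prop} (h : Unif m n Q Φ) (hm : 1 ≤ m) :
    ∃ J₁ : ℕ, ∀ B : FitBase, J₁ ≤ B.J → B.Adm m →
      Ev B (fun π => ∀ (S : Start m n Q π) (r : ℝ), S.Rg r →
        Fr Q π.J π.k (max π.hc (π.C * π.m₀)) π.Ca S.N r ∧ ∃ C : ℝ, 1 ≤ C ∧ C ≤ π.C₁ ∧ Φ C S.N r) := by
  obtain ⟨J₁, κ₀, hκ₀, h⟩ := h
  choose Cf rf hCf hrf h using h
  obtain ⟨J₂, h₂⟩ := frame m n Q hm
  refine ⟨J₁ + J₂, fun B hJ hB => ?_⟩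
  have hBC : 0 < B.C := lt_of_lt_of_le one_pos hB.C_ge
  have e₁ := h₂ B (by omega) hB
  have e₂ := Ev.hc_lt B κ₀ hκ₀
  have e₃ := Ev.m₀_lt B (fun _ => κ₀ / B.C) (fun _ => div_pos hκ₀ hBC)
  have e₄ := Ev.C₁_ge B (fun _ _ Ca => Cf Ca)
  have e₅ := Ev.rs_lt B (fun _ _ Ca _ => rf Ca / 4) (fun _ _ Ca _ => div_pos (hrf Ca) (by norm_num))
  refine ((((e₁.and e₂).and e₃).and e₄).and e₅).mono ?_
  rintro π hπ ⟨⟨⟨⟨a₁, a₂⟩, a₃⟩, a₄⟩, a₅⟩ S r hr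
  subst hπ
  have hF := a₁ S r hr
  refine ⟨hF, Cf π.Ca, hCf _, a₄, h π.Ca π.J π.k _ S.N r (by omega) (max_le a₂.le ?_) ?_ hF⟩
  · have h1 : π.m₀ < κ₀ / π.C := a₃
    rw [lt_div_iff₀ hBC] at h1
    linarith
  · have h1 : π.rs < rf π.Ca / 4 := a₅
    linarith [hr.2.2]

/-- **CO (4.13): weighted height comparisons.**  PROVED from `wcompA`, `wcompB`, `signs`. -/
theorem wcomp (m n Q : ℕ) (hm : 1 ≤ m) (_hn : 1 ≤ n) (_hQ : 1 ≤ Q) :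
    ∃ J₁ : ℕ, ∀ B : FitBase, J₁ ≤ B.J → B.Adm m →
      Ev B (fun π => ∀ S : Start m n Q π, ∀ r : ℝ, 0 < r → 100 * S.b ≤ r → r ≤ 4 * π.rs →
        qZφ S.N r ≤ π.C₁ * (qH S.N r + qd S.N r ^ 2 * qE S.N r) ∧
        qZψ S.N r ≤ π.C₁ * (qH S.N r + qd S.N r ^ 2 * (qE S.N r + qR S.N r)) ∧
        qL S.N r ≤ π.C₁ * (qH S.N r + qd S.N r ^ 2 * qE S.N r)) := by
  obtain ⟨J₁, h₁⟩ := ((signs m n Q).toUnif.pair ((wcompA m n Q hm).pair (wcompB m n Q hm))).ev hm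
  refine ⟨J₁, fun B hJ hB => ?_⟩
  refine ((h₁ B hJ hB).and (Ev.C₁_ge B (fun _ _ _ => 2))).mono ?_
  rintro π - ⟨a₁, a₂⟩ S r h1 h2 h3
  obtain ⟨-, C, hC, hCC, -, C₁, -, k₁, ⟨sH, sE, sR, -, -, -, -, -⟩, Ca, Cb, ka, kb, ⟨hA1, hA2⟩, -, hB2⟩ := a₁ S r ⟨h1, h2, h3⟩
  have p1 : 0 ≤ qH S.N r + qd S.N r ^ 2 * qE S.N r := by positivity
  have p2 : 0 ≤ qH S.N r + qd S.N r ^ 2 * (qE S.N r + qR S.N r) := by positivity
  refine ⟨?_, mono_arith hB2 ((kb.trans k₁).trans hCC) p2, mono_arith hA2 ((ka.trans k₁).trans hCC) p1⟩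
  have h4 : qZφ S.N r ≤ 2 * (qH S.N r + qd S.N r ^ 2 * qE S.N r) := by linarith
  exact mono_arith h4 a₂ p1

/-- division of the inequalities of `FreqIneq` by `H` -/
theorem ok_arith {A A' H H' E R d r g C C₁ mm : ℝ} (hH : 0 < H) (hE : 0 ≤ E) (hR : 0 ≤ R) (hd : 0 ≤ d) (hr : 0 ≤ r)
    (hg : 0 ≤ g) (hC0 : 0 ≤ C) (hC : C ≤ C₁)
    (f_abs : |A| ≤ C * (E + r ^ 2 * H))
    (f_signed : 2 * A ≤ E + C * g * (E + H) + C * r ^ 2 * H)
    (f_flux : E ≤ Real.sqrt (H * R) + C * (r ^ 2 * H + d * E))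
    (f_hor : |A' - (2 * A - E + R)| ≤ C * (r * Real.sqrt (R * H) + r ^ 2 * (E + H) + d * (E + R)))
    (f_ht_lo : -mm * H ≤ H')
    (f_ht_hi : H' ≤ 2 * E + C * (r * H + d * (E + R))) :
    |A / H| ≤ C₁ * (E / H + r ^ 2) + C₁ * d * (R / H) ∧
    2 * (A / H) ≤ E / H + C₁ * g * (E / H + 1) + C₁ * r ^ 2 + C₁ * d * (R / H) ∧
    E / H ≤ Real.sqrt (R / H) + C₁ * r ^ 2 + C₁ * d * (E / H) ∧
    |A' / H - (2 * (A / H) - E / H + R / H)| ≤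
      C₁ * (r * Real.sqrt (R / H) + r ^ 2 * (1 + E / H)) + C₁ * d * (E / H + R / H) ∧
    -mm ≤ H' / H ∧
    H' / H ≤ 2 * (E / H) + C₁ * r + C₁ * d * (E / H + R / H) := by
  have hC₁ : 0 ≤ C₁ := hC0.trans hC
  have he : 0 ≤ E / H := div_nonneg hE hH.le
  have hq : 0 ≤ R / H := div_nonneg hR hH.le
  have hsq : Real.sqrt (H * R) = H * Real.sqrt (R / H) := by
    have : H * R = H ^ 2 * (R / H) := by field_simp
    rw [this, Real.sqrt_mul (by positivity), Real.sqrt_sq hH.le]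
  have hsq' : Real.sqrt (R * H) = H * Real.sqrt (R / H) := by rw [mul_comm, hsq]
  set e := E / H with he'
  set q := R / H with hq'
  have hEe : E = e * H := by rw [he']; field_simp
  have hRq : R = q * H := by rw [hq']; field_simp
  have hs : 0 ≤ Real.sqrt q := Real.sqrt_nonneg _
  refine ⟨?_, ?_, ?_, ?_, ?_, ?_⟩
  · rw [abs_div, abs_of_pos hH, div_le_iff₀ hH]
    refine f_abs.trans ?_
    have h1 : C * (E + r ^ 2 * H) = C * (e + r ^ 2) * H := by rw [hEe]; ring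
    rw [h1]
    refine mul_le_mul_of_nonneg_right ?_ hH.le
    have h2 : C * (e + r ^ 2) ≤ C₁ * (e + r ^ 2) := mul_le_mul_of_nonneg_right hC (by positivity)
    have h3 : 0 ≤ C₁ * d * q := by positivity
    linarith
  · have h1 : 2 * (A / H) = 2 * A / H := by ring
    rw [h1, div_le_iff₀ hH]
    refine f_signed.trans ?_
    have h2 : E + C * g * (E + H) + C * r ^ 2 * H = (e + C * (g * (e + 1)) + C * r ^ 2) * H := by rw [hEe]; ring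
    rw [h2]
    refine mul_le_mul_of_nonneg_right ?_ hH.le
    have h3 : C * (g * (e + 1)) ≤ C₁ * (g * (e + 1)) := mul_le_mul_of_nonneg_right hC (by positivity)
    have h4 : C * r ^ 2 ≤ C₁ * r ^ 2 := mul_le_mul_of_nonneg_right hC (by positivity)
    have h5 : 0 ≤ C₁ * d * q := by positivity
    nlinarith
  · have h1 : e * H ≤ (Real.sqrt q + C * (r ^ 2 + d * e)) * H := by
      have := f_flux
      rw [hsq] at this
      calc e * H = E := hEe.symm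
        _ ≤ H * Real.sqrt q + C * (r ^ 2 * H + d * E) := this
        _ = (Real.sqrt q + C * (r ^ 2 + d * e)) * H := by rw [hEe]; ring
    have h2 := le_of_mul_le_mul_right h1 hH
    have h3 : C * (r ^ 2 + d * e) ≤ C₁ * (r ^ 2 + d * e) := mul_le_mul_of_nonneg_right hC (by positivity)
    nlinarith
  · have h1 : A' / H - (2 * (A / H) - e + q) = (A' - (2 * A - E + R)) / H := by
      rw [he', hq']; field_simp
    rw [h1, abs_div, abs_of_pos hH, div_le_iff₀ hH]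
    refine f_hor.trans ?_
    rw [hsq']
    have h2 : C * (r * (H * Real.sqrt q) + r ^ 2 * (E + H) + d * (E + R))
        = C * (r * Real.sqrt q + r ^ 2 * (1 + e) + d * (e + q)) * H := by rw [hEe, hRq]; ring
    rw [h2]
    refine mul_le_mul_of_nonneg_right ?_ hH.le
    have h3 : C * (r * Real.sqrt q + r ^ 2 * (1 + e) + d * (e + q)) ≤ C₁ * (r * Real.sqrt q + r ^ 2 * (1 + e) + d * (e + q)) :=
      mul_le_mul_of_nonneg_right hC (by positivity)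
    nlinarith
  · rw [le_div_iff₀ hH]; exact f_ht_lo
  · rw [div_le_iff₀ hH]
    refine f_ht_hi.trans ?_
    have h2 : 2 * E + C * (r * H + d * (E + R)) = (2 * e + C * (r + d * (e + q))) * H := by rw [hEe, hRq]; ring
    rw [h2]
    refine mul_le_mul_of_nonneg_right ?_ hH.le
    have h3 : C * (r + d * (e + q)) ≤ C₁ * (r + d * (e + q)) := mul_le_mul_of_nonneg_right hC (by positivity)
    nlinarith

/-- `T = log (r²/H)` in the variable `τ` -/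
theorem ode_T (N : NCyl m n) (Cη α τ : ℝ) (hH : 0 < qH N (Real.exp τ)) :
    (ode N Cη α).T τ = Real.log (Real.exp τ ^ 2 / qH N (Real.exp τ)) := by
  have h1 : (ode N Cη α).T τ = 2 * τ - Real.log (qH N (Real.exp τ)) := rfl
  rw [h1, Real.log_div (by positivity) hH.ne', Real.log_pow, Real.log_exp]
  norm_num

/-- all pointwise fields of `OdeData.Ok` at one `τ` -/
theorem ok_point {Q J k : ℕ} {κ Ca C C₁ : ℝ} {N : NCyl m n} {τ : ℝ} (hF : Fr Q J k κ Ca N (Real.exp τ))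
    (hI : FreqIneq C N (Real.exp τ)) (hC : 1 ≤ C) (hCC : C ≤ C₁) (hCa : 1 ≤ Ca) (hCa' : Ca ≤ C₁) :
    -2 * τ - C₁ ≤ (ode N C₁ 1).T τ ∧
    (ode N C₁ 1).η τ ≤ C₁ * Real.exp (-(1 / 5) * (ode N C₁ 1).T τ) ∧
    |(ode N C₁ 1).P τ| ≤ C₁ * ((ode N C₁ 1).n τ + Real.exp τ ^ 2) + (ode N C₁ 1).η τ * (ode N C₁ 1).q τ ∧
    2 * (ode N C₁ 1).P τ ≤ (ode N C₁ 1).n τ + C₁ * (ode N C₁ 1).g τ * ((ode N C₁ 1).n τ + 1) + C₁ * Real.exp τ ^ 2
      + (ode N C₁ 1).η τ * (ode N C₁ 1).q τ ∧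
    (ode N C₁ 1).n τ ≤ Real.sqrt ((ode N C₁ 1).q τ) + C₁ * Real.exp τ ^ 2 + (ode N C₁ 1).η τ * (ode N C₁ 1).n τ ∧
    |(ode N C₁ 1).v τ - (2 * (ode N C₁ 1).P τ - (ode N C₁ 1).n τ + (ode N C₁ 1).q τ)| ≤
      C₁ * (Real.exp τ * Real.sqrt ((ode N C₁ 1).q τ) + Real.exp τ ^ 2 * (1 + (ode N C₁ 1).n τ))
        + (ode N C₁ 1).η τ * ((ode N C₁ 1).n τ + (ode N C₁ 1).q τ) ∧
    -(m : ℝ) ≤ (ode N C₁ 1).h τ ∧
    (ode N C₁ 1).h τ ≤ 2 * (ode N C₁ 1).n τ + C₁ * Real.exp τ + (ode N C₁ 1).η τ * ((ode N C₁ 1).n τ + (ode N C₁ 1).q τ) := by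
  have hT := ode_T N C₁ 1 τ hI.H_pos
  have hη : (ode N C₁ 1).η τ = C₁ * qd N (Real.exp τ) := by
    have : (ode N C₁ 1).η τ = C₁ * qd N (Real.exp τ) ^ (1 : ℝ) := rfl
    rw [this, Real.rpow_one]
  have hg : (ode N C₁ 1).g τ = gT N (Real.exp τ) := by
    have : (ode N C₁ 1).g τ = 1 / (ode N C₁ 1).T τ ^ 20 := rfl
    rw [this, hT]
    rfl
  have hd := hI.d_pos
  have hC₁ : 0 < C₁ := by linarith
  have hτ0 : τ ≤ 0 := by
    have := hF.r_le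
    rwa [Real.exp_le_one_iff] at this
  have hTpos : 0 ≤ gT N (Real.exp τ) := by
    unfold gT
    positivity
  refine ⟨?_, ?_, ?_⟩
  · -- `T ≥ 2 |log r| - C`
    rw [hT]
    refine le_trans ?_ hI.T_lo
    rw [Real.log_inv]
    have h1 : Real.log (qd N (Real.exp τ)) ≤ Real.log (Ca * Real.exp τ ^ (k - 1)) :=
      Real.log_le_log hd hF.wt.d_le
    rw [Real.log_mul (by linarith) (by positivity), Real.log_pow, Real.log_exp] at h1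
    have h2 : Real.log Ca ≤ Ca := (Real.log_le_sub_one_of_pos (by linarith)).trans (by linarith)
    have h3 : (2 : ℝ) ≤ ((k - 1 : ℕ) : ℝ) := by
      have := hF.k_ge
      have h4 : 2 ≤ k - 1 := by omega
      exact_mod_cast h4
    have h5 : ((k - 1 : ℕ) : ℝ) * τ ≤ 2 * τ := by nlinarith
    linarith
  · -- `η ≤ C e^{-cT}`
    rw [hη, hT]
    refine mul_le_mul_of_nonneg_left ?_ hC₁.le
    have h1 : -(1 / 5) * Real.log (Real.exp τ ^ 2 / qH N (Real.exp τ)) ≥ Real.log (qd N (Real.exp τ)) := by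
      have := hI.T_hi
      rw [Real.log_inv] at this
      linarith
    calc qd N (Real.exp τ) = Real.exp (Real.log (qd N (Real.exp τ))) := (Real.exp_log hd).symm
      _ ≤ _ := Real.exp_le_exp.2 h1
  · rw [hη, hg]
    exact ok_arith (mm := m) hI.H_pos hI.E_nonneg hI.R_nonneg hd.le (Real.exp_pos τ).le hTpos (by linarith) hCC
      hI.f_abs hI.f_signed hI.f_flux hI.f_hor hI.f_ht_lo hI.f_ht_hi

/-- **CO Lemma 4.3 (frequency on a fitting interval)**, as the hypothesis `OdeData.Ok` of the ODE lemma.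
PROVED from `freq_ineq`, `frame`, `deriv_A`, `deriv_H`. -/
theorem freq_ok (m n Q : ℕ) (hm : 1 ≤ m) (hn : 1 ≤ n) (hQ : 1 ≤ Q) :
    ∃ (J₁ : ℕ) (α c : ℝ), 0 < α ∧ 0 < c ∧ ∀ B : FitBase, J₁ ≤ B.J → B.Adm m →
      Ev B (fun π => ∀ S : Start m n Q π, (ode S.N π.C₁ α).Ok π.C₁ c m (fitI S.b (4 * π.rs))) := by
  obtain ⟨J₁, h₁⟩ := (freq_ineq m n Q hm hn hQ).ev hm
  obtain ⟨hA, hA0, dA⟩ := deriv_A m n
  obtain ⟨hH, hH0, dH⟩ := deriv_H m n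
  refine ⟨J₁ + 4, 1, 1 / 5, one_pos, by norm_num, fun B hJ hB => ?_⟩
  have hBC : 0 < B.C := lt_of_lt_of_le one_pos hB.C_ge
  have e₁ := h₁ B (by omega) hB
  have e₂ := Ev.hc_lt B (min (min hA hH) (1 / 2)) (lt_min (lt_min hA0 hH0) (by norm_num))
  have e₃ := Ev.m₀_lt B (fun _ => 1 / 2 / B.C) (fun _ => div_pos (by norm_num) hBC)
  have e₄ := Ev.Ca_le B
  have e₅ := Ev.rs_lt B (fun _ _ _ _ => 1 / 4) (fun _ _ _ _ => by norm_num)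
  refine ((((e₁.and e₂).and e₃).and e₄).and e₅).mono ?_
  rintro π hπ ⟨⟨⟨⟨a₁, a₂⟩, a₃⟩, a₄, a₄'⟩, a₅⟩ S
  subst hπ
  have hκ : max π.hc (π.C * π.m₀) ≤ 1 / 2 := by
    refine max_le (a₂.le.trans (min_le_right _ _)) ?_
    have h1 : π.m₀ < 1 / 2 / π.C := a₃
    rw [lt_div_iff₀ hBC] at h1
    linarith
  have hJ4 : 4 ≤ π.J := by omega
  have key : ∀ τ ∈ fitI S.b (4 * π.rs), S.Rg (Real.exp τ) := fun τ hτ => ⟨Real.exp_pos τ, hτ.1, hτ.2⟩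
  have hlt : ∀ τ ∈ fitI S.b (4 * π.rs), Real.exp τ < 2 := fun τ hτ => by
    have h1 : π.rs < 1 / 4 := a₅
    have := hτ.2
    linarith
  have hh : S.N.h ≤ min hA hH := by
    rw [S.N_h]
    exact a₂.le.trans (min_le_left _ _)
  refine ⟨fun τ hτ => ?_, fun τ hτ => ?_, fun τ hτ => ?_, fun τ hτ => ?_, fun τ hτ => ?_, fun τ hτ => ?_,
    fun τ hτ => ?_, fun τ hτ => ?_, fun τ hτ => ?_, fun τ hτ => ?_, fun τ hτ => ?_, fun τ hτ => ?_, fun τ hτ => ?_,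
    fun τ hτ => ?_⟩
  · obtain ⟨-, C, -, -, hI⟩ := a₁ S _ (key τ hτ)
    exact hI.H_pos
  · obtain ⟨-, C, -, -, hI⟩ := a₁ S _ (key τ hτ)
    exact hI.E_nonneg
  · obtain ⟨-, C, -, -, hI⟩ := a₁ S _ (key τ hτ)
    exact hI.R_nonneg
  · obtain ⟨-, C, hC, hCC, hI⟩ := a₁ S _ (key τ hτ)
    have : (ode S.N π.C₁ 1).η τ = π.C₁ * qd S.N (Real.exp τ) ^ (1 : ℝ) := rfl
    rw [this, Real.rpow_one]
    have := hI.d_pos
    have h0 : 0 ≤ π.C₁ := by linarith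
    positivity
  · obtain ⟨hF, -⟩ := a₁ S _ (key τ hτ)
    exact (dA _ S.N (hF.geo hJ4 hκ) (hh.trans (min_le_left _ _)) S.N_Ω τ (hlt τ hτ)).hasDerivWithinAt
  · obtain ⟨hF, -⟩ := a₁ S _ (key τ hτ)
    exact (dH _ S.N (hF.geo hJ4 hκ) (hh.trans (min_le_right _ _)) S.N_Ω τ (hlt τ hτ)).hasDerivWithinAt
  all_goals
    obtain ⟨hF, C, hC, hCC, hI⟩ := a₁ S _ (key τ hτ)
    obtain ⟨b₁, b₂, b₃, b₄, b₅, b₆, b₇, b₈⟩ := ok_point hF hI hC hCC a₄ a₄'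
    assumption

end Claimed.Agent.R322.Freq
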