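import Claimed.Agent.R322.Freq.Planar
import Claimed.Agent.R322.Freq.Ineq
import Claimed.Agent.R322.Pack058

/-!
# CO Proposition 4.5, part B: the endpoint bounds for the frequency

Owner: helper109 (package BP-CO4-cover).

Tools for ONE start: `Freq/One.lean` (`fail_small`, `start_geo`, `start_flat`, `height_lower`), `tilt_bound` (Caccioppoli).
Linear algebra of two start planes: `angle_of_near`, `coneSet_rot`.
Endpoints: `inner_bound` (CO "the inner endpoint: the current failure"), `outer_upper`, `outer_lower`, `outer_tilt`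
(CO "the outer endpoint: the preceding failure", (4.25), (4.26)).
-/

set_option autoImplicit false

open scoped ENNReal ContDiff
open MeasureTheory Filter Topology

namespace Claimed.Agent.R322.Freq

open Claimed.Agent.R322.Tube

variable {m n : ℕ}

theorem tilt_bound_arith {Cc c₀ M r d κH T rm C₁ : ℝ} (hCc : 0 < Cc) (hM : 0 ≤ M) (hr : 0 < r) (hr1 : r ≤ 1)
    (hd : 0 ≤ d) (hκ : 0 ≤ κH) (hrm : 0 < rm)
    (hT : T ≤ Cc * ((κH * d + d ^ 2 + (c₀ / r) ^ 2 * d ^ 2) * (M * rm)))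
    (hC₁ : 21 * Cc * M * (1 + c₀ ^ 2) ≤ C₁) :
    r ^ 2 * rm⁻¹ * T + rm⁻¹ * (20 * r ^ 2 * T) ≤ C₁ * (d ^ 2 + r ^ 2 * d * κH) := by
  have h1 : r ^ 2 * rm⁻¹ * T + rm⁻¹ * (20 * r ^ 2 * T) = 21 * r ^ 2 * rm⁻¹ * T := by ring
  have h2 : 21 * r ^ 2 * rm⁻¹ * T
      ≤ 21 * r ^ 2 * rm⁻¹ * (Cc * ((κH * d + d ^ 2 + (c₀ / r) ^ 2 * d ^ 2) * (M * rm))) := by
    gcongr
  have h3 : 21 * r ^ 2 * rm⁻¹ * (Cc * ((κH * d + d ^ 2 + (c₀ / r) ^ 2 * d ^ 2) * (M * rm)))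
      = 21 * Cc * M * (r ^ 2 * κH * d + r ^ 2 * d ^ 2 + c₀ ^ 2 * d ^ 2) := by
    field_simp
  have h4 : r ^ 2 * κH * d + r ^ 2 * d ^ 2 + c₀ ^ 2 * d ^ 2 ≤ (1 + c₀ ^ 2) * (d ^ 2 + r ^ 2 * d * κH) := by
    have e1 : r ^ 2 ≤ 1 := by nlinarith
    have e2 : 0 ≤ r ^ 2 * d * κH := by positivity
    have e3 : r ^ 2 * d ^ 2 ≤ 1 * d ^ 2 := by gcongr
    nlinarith [sq_nonneg c₀, mul_nonneg (sq_nonneg c₀) e2]
  have h5 : 0 ≤ d ^ 2 + r ^ 2 * d * κH := by positivity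
  rw [h1]
  calc _ ≤ _ := h2
    _ = _ := h3
    _ ≤ 21 * Cc * M * ((1 + c₀ ^ 2) * (d ^ 2 + r ^ 2 * d * κH)) := by gcongr
    _ = 21 * Cc * M * (1 + c₀ ^ 2) * (d ^ 2 + r ^ 2 * d * κH) := by ring
    _ ≤ _ := by gcongr

/-- **Caccioppoli**: tilt bound from a height bound on the double disc (leaves `L-Freq-tilt-*`).
PLAN.  `Freq.cacc` with `ζ = χ(ρ²/r²)`, `χ = 1` on `[0,1]`, `χ = 0` on `[4, ∞)`, `|Dζ| ≤ C/r`; mass bound `Wts.mass` at the radius `2 r`.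
`qE ≤ r^{2-m} ∫_{ρ<r} tilt`, `qR ≤ 20 r^{2-m} ∫_{ρ<r} tilt` because `rwt ≤ tilt ρ²` (`proj_facts`). -/
theorem tilt_bound (m n Q : ℕ) (hm : 1 ≤ m) (hn : 1 ≤ n) (hQ : 1 ≤ Q) :
    ∃ J₁ : ℕ, ∀ B : FitBase, J₁ ≤ B.J → B.Adm m →
      Ev B (fun π => ∀ (S : Start m n Q π) (r d κH : ℝ), 0 < r → 100 * S.b ≤ r → r ≤ 2 * π.rs →
        (∀ X, S.In X → npr S.N.u X ∈ Bs S.N.u (2 * r) → ‖zz S.N.u X‖ ≤ d) →
        (∀ y ∈ Bs S.N.u (2 * r), ‖HS S.N.u y‖ ≤ κH) →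
        0 ≤ qE S.N r ∧ 0 ≤ qR S.N r ∧ qE S.N r + qR S.N r ≤ π.C₁ * (d ^ 2 + r ^ 2 * d * κH)) := by
  obtain ⟨h₁, Cc, hh₁, hCc, Hc⟩ := cacc m n
  obtain ⟨c₀, hc₀, Hcut⟩ := exists_ball_cutoff m
  refine ⟨4, fun B hJ hB => ?_⟩
  have e1 := start_geo (n := n) (Q := Q) hm B hB hJ
  have e2 := start_frOK (n := n) (Q := Q) hm B hB hJ
  have e3 := Ev.hc_lt B h₁ hh₁
  have e4 := wt_mass (n := n) (Q := Q) hm B hB hJ
  have e5 := Ev.rs_lt B (fun _ _ _ _ => 1 / 4) (fun _ _ _ _ => by norm_num)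
  have e6 := Ev.C₁_ge B (fun _ _ _ => 21 * Cc * (Cmass m Q * 2 ^ m) * (1 + c₀ ^ 2))
  refine (((((e1.and e2).and e3).and e4).and e5).and e6).mono ?_
  rintro π hπ ⟨⟨⟨⟨⟨a1, a2⟩, a3⟩, a4⟩, a5⟩, a6⟩ S r d κH hr0 hbr hrs hzd hHκ
  obtain ⟨hG, -, -, h4, -⟩ := a1 S
  have ok := a2 S
  have hNh : S.N.h = π.hc := S.N_h
  have hr1 : r ≤ 1 := by
    have : π.rs < 1 / 4 := a5
    linarith
  have hb0 : 0 ≤ S.b := bpar_nonneg S.isFail
  have hker := ker_facts hG hr0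
  have hker2 := ker_facts hG (show 0 < 2 * r by positivity)
  have hmass : S.N.μ {X | npr S.N.u X ∈ Bs S.N.u (2 * r)}
      ≤ ENNReal.ofReal ((Cmass m Q * 2 ^ m) * r ^ m) := by
    have := (a4 S).2 (2 * r) ⟨by positivity, by linarith, by linarith⟩
    rwa [mul_pow, ← mul_assoc] at this
  -- signs of `d`, `κH`
  have h0B : (0 : E m) ∈ Bs S.N.u (2 * r) := by
    show rho S.N.u 0 < 2 * r
    unfold rho
    simp
    exact hr0
  have hκH0 : 0 ≤ κH := (norm_nonneg _).trans (hHκ 0 h0B)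
  have hd0 : 0 ≤ d := by
    obtain ⟨q1, -, -, q4⟩ := h4 0 S.sing.1 (by simp)
    refine (norm_nonneg _).trans (hzd 0 q1 ?_)
    show rho S.N.u (npr S.N.u 0) < 2 * r
    rw [norm_zero] at q4
    linarith
  -- the cutoff
  obtain ⟨ζ, z1, z2, z3, z4, z5, z6, z7⟩ := Hcut 0 r hr0
  have hsuppB : tsupport ζ ⊆ Bs S.N.u (2 * r) := by
    refine z6.trans (Set.Subset.trans ?_ hker2.2.2.2.2.2.2.2.2.2.1)
    exact Metric.closedBall_subset_ball (by linarith)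
  have hΩ : tsupport ζ ⊆ S.N.Ω := by
    rw [S.N_Ω]
    exact z6.trans (Metric.closedBall_subset_ball (by linarith))
  obtain ⟨i1, hcc, i2⟩ := Hc _ S.N hG (by rw [hNh]; exact a3.le) ζ z1 z5 hΩ
  have hζ0 : ∀ y, y ∉ Bs S.N.u (2 * r) → ζ y = 0 := fun y hy =>
    image_eq_zero_of_notMem_tsupport (fun hc => hy (hsuppB hc))
  have hDζ0 : ∀ y, y ∉ Bs S.N.u (2 * r) → fderiv ℝ ζ y = 0 := fun y hy =>
    image_eq_zero_of_notMem_tsupport (fun hc => hy (hsuppB (tsupport_fderiv_subset ℝ hc)))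
  have hζ1 : ∀ y ∈ Bs S.N.u r, ζ y = 1 := fun y hy =>
    z4 y (Metric.ball_subset_closedBall (hker.2.2.2.2.2.2.2.2.1 hy))
  set T := ∫ X, ζ (npr S.N.u X) ^ 2 * tilt S.N.u (S.N.W.P X) X ∂S.N.μ with hT
  have hI2 := ok.abs_integral_le (A := Bs S.N.u (2 * r))
    (f := fun X => ζ (npr S.N.u X) ^ 2 * (‖HS S.N.u (npr S.N.u X)‖ * ‖zz S.N.u X‖ + ‖zz S.N.u X‖ ^ 2)
            + ‖fderiv ℝ ζ (npr S.N.u X)‖ ^ 2 * ‖zz S.N.u X‖ ^ 2)
    (b := κH * d + d ^ 2 + (c₀ / r) ^ 2 * d ^ 2) (by positivity)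
    (mul_nonneg (mul_nonneg (Cmass_nonneg m Q) (by positivity)) (by positivity)) hmass
    (by
      filter_upwards [ok.ok.ae_mem] with X hX hXB
      have hIn : S.In X := ⟨hX.1, by have := hX.2.1; rwa [S.N_Ω, hNh] at this⟩
      have b1 := hzd X hIn hXB
      have b2 := hHκ _ hXB
      have b3 : ζ (npr S.N.u X) ^ 2 ≤ 1 := by
        have := z2 (npr S.N.u X); have := z3 (npr S.N.u X); nlinarith
      have b4 := z7 (npr S.N.u X)
      rw [abs_of_nonneg (by positivity)]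
      have c1 : ‖HS S.N.u (npr S.N.u X)‖ * ‖zz S.N.u X‖ + ‖zz S.N.u X‖ ^ 2 ≤ κH * d + d ^ 2 := by
        gcongr
      have c2 : ζ (npr S.N.u X) ^ 2 * (‖HS S.N.u (npr S.N.u X)‖ * ‖zz S.N.u X‖ + ‖zz S.N.u X‖ ^ 2)
          ≤ 1 * (κH * d + d ^ 2) := mul_le_mul b3 c1 (by positivity) zero_le_one
      have c3 : ‖fderiv ℝ ζ (npr S.N.u X)‖ ^ 2 * ‖zz S.N.u X‖ ^ 2 ≤ (c₀ / r) ^ 2 * d ^ 2 := by gcongr
      linarith)
    (fun X hX => by rw [hζ0 _ hX, hDζ0 _ hX]; simp)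
  have hTle : T ≤ Cc * ((κH * d + d ^ 2 + (c₀ / r) ^ 2 * d ^ 2) * ((Cmass m Q * 2 ^ m) * r ^ m)) := by
    refine hcc.trans (mul_le_mul_of_nonneg_left ((le_abs_self _).trans hI2) hCc.le)
  -- `qE`
  have hphi0 : ∀ y, 0 ≤ phiR S.N.u r y := fun y => by
    unfold phiR
    have := (hker.1 y).1
    positivity
  have hphi1 : ∀ y, phiR S.N.u r y ≤ 1 := fun y => by
    unfold phiR
    exact pow_le_one₀ (hker.1 y).1 (hker.1 y).2
  have hphiz : ∀ y, y ∉ Bs S.N.u r → phiR S.N.u r y = 0 := fun y hy => by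
    unfold phiR
    rw [hker.2.1 y hy]
    simp
  have hpsi0 : ∀ y, 0 ≤ psiR S.N.u r y := fun y => by
    unfold psiR
    have := (hker.1 y).1
    positivity
  have hpsi20 : ∀ y, psiR S.N.u r y ≤ 20 := fun y => by
    unfold psiR
    have : dep S.N.u r y ^ 9 ≤ 1 := pow_le_one₀ (hker.1 y).1 (hker.1 y).2
    linarith
  have hpsiz : ∀ y, y ∉ Bs S.N.u r → psiR S.N.u r y = 0 := fun y hy => by
    unfold psiR
    rw [hker.2.1 y hy]
    simp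
  have hEeq : ∫ y, phiR S.N.u r y ∂S.N.Dm
      = ∫ X, phiR S.N.u r (npr S.N.u X) * tilt S.N.u (S.N.W.P X) X ∂S.N.μ :=
    ok.integral_push ok.ok.aesm_tilt (fun X => tilt_nonneg S.N.u (S.N.W.P_proj X) X)
      hker.2.2.2.2.1.continuous.measurable
  have hE0 : 0 ≤ ∫ X, phiR S.N.u r (npr S.N.u X) * tilt S.N.u (S.N.W.P X) X ∂S.N.μ :=
    integral_nonneg fun X => mul_nonneg (hphi0 _) (tilt_nonneg S.N.u (S.N.W.P_proj X) X)
  have hE1 : ∫ X, phiR S.N.u r (npr S.N.u X) * tilt S.N.u (S.N.W.P X) X ∂S.N.μ ≤ T := by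
    refine integral_mono_of_nonneg
      (Eventually.of_forall fun X => mul_nonneg (hphi0 _) (tilt_nonneg S.N.u (S.N.W.P_proj X) X)) i1
      (Eventually.of_forall fun X => ?_)
    have ht := tilt_nonneg S.N.u (S.N.W.P_proj X) X
    by_cases hXB : npr S.N.u X ∈ Bs S.N.u r
    · show phiR S.N.u r (npr S.N.u X) * _ ≤ ζ (npr S.N.u X) ^ 2 * _
      rw [hζ1 _ hXB, one_pow]
      exact mul_le_mul_of_nonneg_right (hphi1 _) ht
    · show phiR S.N.u r (npr S.N.u X) * _ ≤ ζ (npr S.N.u X) ^ 2 * _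
      rw [hphiz _ hXB, zero_mul]
      positivity
  have hR0 : 0 ≤ ∫ X, psiR S.N.u r (npr S.N.u X) * rwt S.N.u (S.N.W.P X) X ∂S.N.μ := by
    refine integral_nonneg_of_ae ?_
    filter_upwards [ok.ok.ae_cyl] with X hX
    exact mul_nonneg (hpsi0 _) (proj_facts_of_le hG (ok.tub hX) (S.N.W.P_proj X)).2.2.2.2.2.1
  have hR1 : ∫ X, psiR S.N.u r (npr S.N.u X) * rwt S.N.u (S.N.W.P X) X ∂S.N.μ ≤ 20 * r ^ 2 * T := by
    rw [hT, ← integral_const_mul]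
    refine integral_mono_of_nonneg ?_ (i1.const_mul _) ?_
    · filter_upwards [ok.ok.ae_cyl] with X hX
      exact mul_nonneg (hpsi0 _) (proj_facts_of_le hG (ok.tub hX) (S.N.W.P_proj X)).2.2.2.2.2.1
    · filter_upwards [ok.ok.ae_cyl] with X hX
      obtain ⟨-, -, -, -, -, p0, p1, -⟩ := proj_facts_of_le hG (ok.tub hX) (S.N.W.P_proj X)
      have ht := tilt_nonneg S.N.u (S.N.W.P_proj X) X
      by_cases hXB : npr S.N.u X ∈ Bs S.N.u r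
      · show psiR S.N.u r (npr S.N.u X) * _ ≤ 20 * r ^ 2 * (ζ (npr S.N.u X) ^ 2 * _)
        rw [hζ1 _ hXB, one_pow, one_mul]
        have hρ : rho S.N.u (npr S.N.u X) ^ 2 ≤ r ^ 2 :=
          pow_le_pow_left₀ (rho_nonneg _ _) (le_of_lt hXB) 2
        calc psiR S.N.u r (npr S.N.u X) * rwt S.N.u (S.N.W.P X) X
            ≤ 20 * (tilt S.N.u (S.N.W.P X) X * rho S.N.u (npr S.N.u X) ^ 2) :=
              mul_le_mul (hpsi20 _) p1 p0 (by norm_num)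
          _ ≤ 20 * (tilt S.N.u (S.N.W.P X) X * r ^ 2) := by gcongr
          _ = _ := by ring
      · show psiR S.N.u r (npr S.N.u X) * _ ≤ 20 * r ^ 2 * (ζ (npr S.N.u X) ^ 2 * _)
        rw [hpsiz _ hXB, zero_mul]
        positivity
  have hrm : 0 < r ^ m := by positivity
  refine ⟨?_, ?_, ?_⟩
  · unfold qE
    rw [hEeq]
    positivity
  · unfold qR
    positivity
  · have hfin := tilt_bound_arith hCc (mul_nonneg (Cmass_nonneg m Q) (by positivity : (0:ℝ) ≤ 2 ^ m)) hr0 hr1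
      hd0 hκH0 hrm hTle a6
    refine le_trans ?_ hfin
    unfold qE qR
    rw [hEeq]
    gcongr

/-! ### two planes -/

/-- **Angle lemma** (leaf `L-Freq-angle`).  If the support of a good varifold is `d`-close in `B_10` to a set which has slope `≤ s`
over the plane `Ω(horizontal)`, then that plane is close to the horizontal plane.
PLAN.  `IsGood.mass` with `χ = (ρ₁ - |X - (y,0)|)_+`, `ρ₁ = C ε^{1/(m+1)}`, shows that every ball `B_{ρ₁}(y,0)`, `|y| ≤ 5`, contains a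
support point; take `y = 0` and `y = 5 e_a`; the differences of the nearby points of `Γ` satisfy the cone condition. -/
theorem angle_of_near (m n Q : ℕ) (hm : 1 ≤ m) (hQ : 1 ≤ Q) :
    ∃ C : ℝ, 1 ≤ C ∧ ∀ (W : SIV m n) (ε : ℝ), 0 < ε → ε ≤ 1 → IsGood W Q ε →
      ∀ (Γ : Set (E (m + n))) (Ω : E (m + n) ≃ₗᵢ[ℝ] E (m + n)) (s d : ℝ), 0 ≤ s → s ≤ 1 →
        (∀ p ∈ Γ, ∀ p' ∈ Γ, ‖prV m n (Ω.symm (p - p'))‖ ≤ s * ‖prH m n (Ω.symm (p - p'))‖) →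
        (∀ X ∈ W.support, ‖X‖ ≤ 10 → ∃ p ∈ Γ, ‖X - p‖ ≤ d) →
        ‖(Ω : E (m + n) →L[ℝ] E (m + n)) ∘L PH m n ∘L (Ω.symm : E (m + n) →L[ℝ] E (m + n)) - PH m n‖
          ≤ C * (s + d + ε ^ ((1 : ℝ) / (m + 1))) :=
  ang_main m n Q hQ

/-- the numerical core of `coneSet_rot` -/
theorem coneSet_rot_aux (v u : E (m + n)) (s θ : ℝ) (hs : 0 ≤ s) (hs1 : s ≤ 1) (hθ0 : 0 ≤ θ)
    (hθ1 : θ ≤ 1 / 4) (hv : ‖prV m n v‖ ≤ s * ‖prH m n v‖) (hN : ‖u‖ = ‖v‖)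
    (hu : ‖prV m n u‖ ≤ ‖prV m n v‖ + θ * ‖v‖) :
    ‖prV m n u‖ ≤ 4 * (s + θ) * ‖prH m n u‖ := by
  have h1 := norm_sq_eq_prH_prV v
  have h2 := norm_sq_eq_prH_prV u
  rw [hN] at h2
  set N := ‖v‖
  set x := ‖prH m n v‖
  set y := ‖prV m n v‖
  set a := ‖prV m n u‖
  set b := ‖prH m n u‖
  have hN0 : 0 ≤ N := norm_nonneg _
  have hx0 : 0 ≤ x := norm_nonneg _
  have hy0 : 0 ≤ y := norm_nonneg _
  have ha0 : 0 ≤ a := norm_nonneg _
  have hb0 : 0 ≤ b := norm_nonneg _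
  have hyx : y ≤ x := hv.trans (by nlinarith)
  have hxN : x ≤ N := by nlinarith
  have hy : y ≤ 0.7072 * N := by
    by_contra hc
    push Not at hc
    nlinarith
  have ha : a ≤ 0.9572 * N := by nlinarith
  have hb : N ≤ 4 * b := by
    by_contra hc
    push Not at hc
    nlinarith
  have ha2 : a ≤ (s + θ) * N := by nlinarith
  calc a ≤ (s + θ) * N := ha2
    _ ≤ (s + θ) * (4 * b) := by gcongr
    _ = 4 * (s + θ) * b := by ring

/-- rotation of a cone set by a small angle (leaf `L-Freq-cone-rot`, linear algebra) -/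
theorem coneSet_rot (Γ : Set (E (m + n))) (Ω : E (m + n) ≃ₗᵢ[ℝ] E (m + n)) (s θ l : ℝ) (hs : 0 ≤ s)
    (hs1 : s ≤ 1) (hl : 0 < l) (hΓ : ConeSet s Γ)
    (hθ : ‖(Ω : E (m + n) →L[ℝ] E (m + n)) ∘L PH m n ∘L (Ω.symm : E (m + n) →L[ℝ] E (m + n)) - PH m n‖ ≤ θ)
    (hθ1 : θ ≤ 1 / 4) :
    ConeSet (4 * (s + θ)) ((fun X => l • Ω X) '' Γ) ∧ ConeSet (4 * (s + θ)) ((fun X => l • Ω.symm X) '' Γ) := by
  have hθ0 : 0 ≤ θ := (norm_nonneg _).trans hθ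
  set D := (Ω : E (m + n) →L[ℝ] E (m + n)) ∘L PH m n ∘L (Ω.symm : E (m + n) →L[ℝ] E (m + n)) - PH m n
    with hD
  have hDle : ∀ w : E (m + n), ‖D w‖ ≤ θ * ‖w‖ := fun w =>
    (D.le_opNorm w).trans (by gcongr)
  have hDapp : ∀ w : E (m + n), D w = Ω (PH m n (Ω.symm w)) - PH m n w := fun w => rfl
  -- the two one-vector estimates
  have key1 : ∀ v : E (m + n), ‖prV m n (Ω v)‖ ≤ ‖prV m n v‖ + θ * ‖v‖ := by
    intro v
    rw [← norm_sub_PH, ← norm_sub_PH v]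
    have h1 : Ω v - PH m n (Ω v) = Ω (v - PH m n v) + D (Ω v) := by
      rw [hDapp, Ω.symm_apply_apply, map_sub]
      abel
    rw [h1]
    refine (norm_add_le _ _).trans ?_
    rw [Ω.norm_map]
    have := hDle (Ω v)
    rw [Ω.norm_map] at this
    linarith
  have key2 : ∀ v : E (m + n), ‖prV m n (Ω.symm v)‖ ≤ ‖prV m n v‖ + θ * ‖v‖ := by
    intro v
    rw [← norm_sub_PH, ← norm_sub_PH v, ← Ω.norm_map (Ω.symm v - PH m n (Ω.symm v))]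
    have h1 : Ω (Ω.symm v - PH m n (Ω.symm v)) = (v - PH m n v) - D v := by
      rw [hDapp, map_sub, Ω.apply_symm_apply]
      abel
    rw [h1]
    refine (norm_sub_le _ _).trans ?_
    linarith [hDle v]
  constructor
  · rintro _ ⟨p, hp, rfl⟩ _ ⟨p', hp', rfl⟩
    have h1 : (fun X => l • Ω X) p - (fun X => l • Ω X) p' = l • Ω (p - p') := by
      simp only [map_sub, smul_sub]
    rw [h1, map_smul, map_smul, norm_smul, norm_smul]
    have := coneSet_rot_aux (p - p') (Ω (p - p')) s θ hs hs1 hθ0 hθ1 (hΓ p hp p' hp') (Ω.norm_map _)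
      (key1 _)
    calc ‖l‖ * ‖prV m n (Ω (p - p'))‖ ≤ ‖l‖ * (4 * (s + θ) * ‖prH m n (Ω (p - p'))‖) := by gcongr
      _ = _ := by ring
  · rintro _ ⟨p, hp, rfl⟩ _ ⟨p', hp', rfl⟩
    have h1 : (fun X => l • Ω.symm X) p - (fun X => l • Ω.symm X) p' = l • Ω.symm (p - p') := by
      simp only [map_sub, smul_sub]
    rw [h1, map_smul, map_smul, norm_smul, norm_smul]
    have := coneSet_rot_aux (p - p') (Ω.symm (p - p')) s θ hs hs1 hθ0 hθ1 (hΓ p hp p' hp')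
      (Ω.symm.norm_map _) (key2 _)
    calc ‖l‖ * ‖prV m n (Ω.symm (p - p'))‖ ≤ ‖l‖ * (4 * (s + θ) * ‖prH m n (Ω.symm (p - p'))‖) := by
          gcongr
      _ = _ := by ring

/-! ### the inner endpoint -/

/-- the failed-fit separation at the point where `b` is attained: a definite mass of low-tilt SUPPORT points in `B_{2b}` stays away
from any small-slope set -/
theorem endpt_sep {Q : ℕ} (hm : 1 ≤ m) (B : FitBase) (hB : B.Adm m) (hJ : 4 ≤ B.J) :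
    Ev B (fun π => ∀ S : Start m n Q π, 0 < S.b → ∀ Γ : Set (E (m + n)), ConeSet π.ε₁ Γ →
      ∃ A : Set (E (m + n)), ENNReal.ofReal (π.c * S.b ^ m) ≤ S.N.W.μ A ∧
        ∀ X ∈ A, X ∈ S.N.W.support ∧ ‖X‖ ≤ 2 * S.b ∧ ‖S.N.W.P X - PH m n‖ ≤ π.ε₀ ∧
          ∀ p ∈ Γ, π.c * π.m₀ * S.b ^ π.k ≤ ‖X - p‖) := by
  have hBC : 0 < B.C := lt_of_lt_of_le one_pos hB.C_ge
  have e₁ := Ev.pos B
  have e₂ := start_geo (n := n) (Q := Q) hm B hB hJ
  have e₃ := Ev.m₀_lt B (fun _ => 1 / (4 * B.C)) (fun _ => by positivity)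
  have e₄ := Ev.lm_lt B (fun _ _ _ _ _ _ _ => 1 / 2) (fun _ _ _ _ _ _ _ => by norm_num)
  refine (((e₁.and e₂).and e₃).and e₄).mono ?_
  rintro π hπ ⟨⟨⟨a₁, a₂⟩, a₃⟩, a₄⟩ S hb Γ hΓ
  subst hπ
  obtain ⟨-, -, hm0, -, -, -, -, -, -, hlm0, hlm1, -, -⟩ := a₁
  obtain ⟨hG, -, hu0, -, -⟩ := a₂ S
  have hk : π.k ≠ 0 := by
    have := hB.k_gt
    omega
  set κ := π.C * π.m₀ with hκ
  have hκ0 : 0 < κ := mul_pos hBC hm0
  have hκ4 : κ ≤ 1 / 4 := by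
    have h1 : π.m₀ < 1 / (4 * π.C) := a₃
    rw [lt_div_iff₀ (by positivity)] at h1
    rw [hκ]
    linarith
  have hF := S.isFail
  have hbl : S.b ≤ π.lm := bpar_le hF hlm0.le
  have hb2 : 2 * S.b ≤ 1 := by
    have : π.lm < 1 / 2 := a₄
    linarith
  obtain ⟨x, hx5, hx16, hxb⟩ := bpar_attained hF hb
  have hxb' : S.ℓ x = S.b := hxb
  have hs := S.sep x hx5 (by rw [hxb']; exact hb) 0
    (by rw [zero_sub, norm_neg, hxb']; rw [hxb'] at hx16; linarith) Γ hΓ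
  rw [hxb'] at hs
  set T : Set (E (m + n)) := {X | ‖prH m n X - 0‖ < π.fit.c₀ * S.b ∧ ‖prV m n X‖ ≤ 1 ∧
      ‖S.N.W.P X - PH m n‖ ≤ π.fit.ε₀ ∧ ∀ P ∈ Γ, π.fit.c * π.fit.m₀ * S.b ^ π.fit.k ≤ ‖X - P‖} with hT
  refine ⟨T ∩ S.N.W.support, hs.trans ?_, ?_⟩
  · calc S.N.W.μ T ≤ S.N.W.μ ((T ∩ S.N.W.support) ∪ S.N.W.supportᶜ) := by
          refine measure_mono fun X hX => ?_
          by_cases h : X ∈ S.N.W.support
          · exact Or.inl ⟨hX, h⟩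
          · exact Or.inr h
      _ ≤ S.N.W.μ (T ∩ S.N.W.support) + S.N.W.μ S.N.W.supportᶜ := measure_union_le _ _
      _ = S.N.W.μ (T ∩ S.N.W.support) := by rw [S.N.W.μ_compl_support, add_zero]
  · rintro X ⟨⟨h1, h2, h3, h4⟩, hXs⟩
    rw [sub_zero] at h1
    have hc0 : π.fit.c₀ ≤ 1 / 100 := hB.c₀_le
    have hc0' : 0 < π.fit.c₀ := hB.c₀_pos
    have h1' : ‖prH m n X‖ ≤ S.b := by nlinarith
    have hN := norm_le_prH_add_prV X
    have hc : X ∈ Cyl S.N.u (Metric.ball 0 4) π.hc := S.cover X hXs (by linarith) (by linarith)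
    have hv := S.height_v X hXs hc
    have ht : tent S.ℓ (prH m n X) ≤ 2 * S.b := by
      have := tent_le_add hF (prH m n X)
      have hb' : bpar S.ℓ = S.b := rfl
      linarith
    have hv' : ‖prV m n X - S.N.u (prH m n X)‖ ≤ κ * (2 * S.b) := by
      calc _ ≤ κ * tent S.ℓ (prH m n X) ^ π.k := hv
        _ ≤ κ * (2 * S.b) ^ π.k := by
          gcongr
          exact tent_nonneg hF _
        _ ≤ κ * (1 ^ (π.k - 1) * (2 * S.b)) := by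
          gcongr
          exact one_pow_le_lin hk (by positivity) hb2
        _ = κ * (2 * S.b) := by rw [one_pow, one_mul]
    have hdiff : Differentiable ℝ S.N.u := hG.smooth.differentiable (by norm_num)
    have hl : ‖S.N.u (prH m n X) - S.N.u 0‖ ≤ κ * S.b := by
      have := one_lip_of_slope hdiff S.ref.slope (prH m n X) 0
      rw [sub_zero] at this
      calc _ ≤ κ * ‖prH m n X‖ := this
        _ ≤ κ * S.b := by gcongr
    have hu0' : ‖S.N.u 0‖ ≤ κ * S.b := by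
      calc _ ≤ κ * S.b ^ π.k := hu0
        _ ≤ κ * (1 ^ (π.k - 1) * S.b) := by
          gcongr
          exact one_pow_le_lin hk hb.le (by linarith)
        _ = κ * S.b := by rw [one_pow, one_mul]
    have hV : ‖prV m n X‖ ≤ S.b := by
      have e : prV m n X = (prV m n X - S.N.u (prH m n X)) + (S.N.u (prH m n X) - S.N.u 0) + S.N.u 0 := by
        abel
      have := norm_add₃_le (a := prV m n X - S.N.u (prH m n X)) (b := S.N.u (prH m n X) - S.N.u 0)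
        (c := S.N.u 0)
      rw [← e] at this
      nlinarith
    exact ⟨hXs, by linarith, h3, h4⟩

/-- arithmetic core of `inner_bound` -/
theorem inner_arith {P E R H η r C₁ K c : ℝ} (hH : 0 < H) (hE : 0 ≤ E) (hR : 0 ≤ R) (hC₁ : 1 ≤ C₁) (hK : 0 ≤ K)
    (hr : r ^ 2 ≤ 1) (hη0 : 0 ≤ η) (hη : η ≤ C₁ * Real.exp (c * C₁)) (hER : E + R ≤ K * H)
    (hP : |P| ≤ C₁ * (E / H + r ^ 2) + η * (R / H)) :
    |P| ≤ C₁ * (K + 1) + C₁ * Real.exp (c * C₁) * K := by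
  have h1 : E / H ≤ K := by
    rw [div_le_iff₀ hH]
    linarith
  have h2 : R / H ≤ K := by
    rw [div_le_iff₀ hH]
    linarith
  have h3 : 0 ≤ R / H := div_nonneg hR hH.le
  calc |P| ≤ C₁ * (E / H + r ^ 2) + η * (R / H) := hP
    _ ≤ C₁ * (K + 1) + C₁ * Real.exp (c * C₁) * K := by
      gcongr

/-- **CO "The inner endpoint: the current failure".**  (leaf `L-Freq-inner`)
PLAN, `r = 100 b`.  Height: `|z| ≤ d := C m₀ (201 b)^k` on `ρ < 2r` (`S.height_p`, `tent_le_add`, `|y| ≤ ρ y`).  Curvature: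
`|H_S| ≤ C m₀² (201 b)^{2k-4}` (`S.curv`).  `tilt_bound` gives `E_* + R_* ≤ C d²`.  `bpar_attained` gives `x`, `|x| ≤ 16 b`, `ℓ x = b`;
`S.sep x _ _ 0 _ (gr u) _` and `height_lower` (`a = c b^m`, distance `c m₀ b^k`) give `H ≥ c' m₀² b^{2k}`.  Conclude with
`OdeData.Ok.f_abs` (`freq_ok`), `η ≤ C₁`. -/
theorem inner_bound (m n Q : ℕ) (hm : 1 ≤ m) (hn : 1 ≤ n) (hQ : 1 ≤ Q) :
    ∃ J₁ : ℕ, ∀ B : FitBase, J₁ ≤ B.J → B.Adm m →
      Ev B (fun π => ∀ S : Start m n Q π, 0 < S.b → |fP S.N (100 * S.b)| ≤ π.C₂) := by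
  obtain ⟨J₁, α, c, hα, hc, h₁⟩ := freq_ok m n Q hm hn hQ
  obtain ⟨J₂, h₂⟩ := tilt_bound m n Q hm hn hQ
  refine ⟨J₁ + J₂ + 4, fun B hJ hB => ?_⟩
  have hBC : 0 < B.C := lt_of_lt_of_le one_pos hB.C_ge
  have e₀ := Ev.pos B
  have e₁ := h₁ B (by omega) hB
  have e₂ := h₂ B (by omega) hB
  have e₃ := start_geo (n := n) (Q := Q) hm B hB (by omega)
  have e₄ := height_lower (n := n) (Q := Q) hm B hB (by omega)
  have e₅ := endpt_sep (n := n) (Q := Q) hm B hB (by omega)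
  have e₆ := Ev.m₀_lt B (fun _ => B.ε₁ / B.C) (fun _ => div_pos hB.ε₁_pos hBC)
  have e₇ := Ev.lm_lt B (fun _ _ _ _ rs _ _ => if 0 < rs then min (1 / 201) (rs / 50) else 1)
    (fun _ _ _ _ rs _ _ => by
      split_ifs with h
      · positivity
      · norm_num)
  have e₈ := Ev.C₂_ge B (fun _ _ _ C₁ _ _ =>
    C₁ * (2 * C₁ * B.C ^ 2 * 201 ^ (2 * B.k) * 100 ^ m / B.c ^ 3 + 1)
      + C₁ * Real.exp (c * C₁) * (2 * C₁ * B.C ^ 2 * 201 ^ (2 * B.k) * 100 ^ m / B.c ^ 3))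
  refine ((((((((e₀.and e₁).and e₂).and e₃).and e₄).and e₅).and e₆).and e₇).and e₈).mono ?_
  clear e₀ e₁ e₂ e₃ e₄ e₅ e₆ e₇ e₈ h₁ h₂
  rintro π hπ ⟨⟨⟨⟨⟨⟨⟨⟨a₀, a₁⟩, a₂⟩, a₃⟩, a₄⟩, a₅⟩, a₆⟩, a₇⟩, a₈⟩ S hb
  subst hπ
  obtain ⟨-, -, hm0, hm01, hC₁, hrs, hrs1, -, -, hlm0, hlm1, -, -⟩ := a₀
  obtain ⟨hG, hcone, -, -, -⟩ := a₃ S
  rw [if_pos hrs] at a₇
  have hcpos : 0 < π.c := hB.c_pos
  have hk : 5 ≤ π.k := by
    have := hB.k_gt
    omega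
  have hF := S.isFail
  have hbl : S.b ≤ π.lm := bpar_le hF hlm0.le
  have hb201 : 201 * S.b ≤ 1 := by
    have := a₇.trans_le (min_le_left _ _)
    linarith
  have hbrs : 100 * S.b ≤ 2 * π.rs := by
    have := a₇.trans_le (min_le_right _ _)
    linarith
  set r := 100 * S.b with hr
  have hr0 : 0 < r := by positivity
  have hr1 : r ≤ 1 := by linarith
  set κ := π.C * π.m₀ with hκ
  have hκ0 : 0 < κ := mul_pos hBC hm0
  have hκε : κ ≤ π.ε₁ := by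
    have h1 : π.m₀ < π.ε₁ / π.C := a₆
    rw [lt_div_iff₀ hBC] at h1
    rw [hκ]
    linarith
  obtain ⟨-, hrho, -, -, -⟩ := rho_facts hG
  -- the tent on the double disc
  have htent : ∀ y ∈ Bs S.N.u (2 * r), ‖y‖ < 4 ∧ tent S.ℓ y ≤ 201 * S.b := by
    intro y hy
    have h1 : rho S.N.u y < 2 * r := hy
    have h2 := (hrho y).1
    have h3 := tent_le_add hF y
    have hb' : bpar S.ℓ = S.b := rfl
    constructor
    · linarith
    · linarith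
  -- height and curvature
  set d := κ * (201 * S.b) ^ π.k with hd
  set κH := π.C * π.m₀ ^ 2 * (201 * S.b) ^ (2 * π.k - 4) with hκH
  have hd0 : 0 ≤ d := by positivity
  have hht : ∀ X, S.In X → npr S.N.u X ∈ Bs S.N.u (2 * r) → ‖zz S.N.u X‖ ≤ d := by
    intro X hX hy
    calc ‖zz S.N.u X‖ ≤ κ * tent S.ℓ (npr S.N.u X) ^ π.k := S.height_p X hX.1 hX.2
      _ ≤ d := by
        rw [hd]
        gcongr
        · exact tent_nonneg hF _
        · exact (htent _ hy).2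
  have hcv : ∀ y ∈ Bs S.N.u (2 * r), ‖HS S.N.u y‖ ≤ κH := by
    intro y hy
    have h1 := S.curv y (by rw [mem_ball_zero_iff]; exact (htent y hy).1)
    have h2 := Real.sqrt_nonneg (DHSsq S.N.u y)
    calc ‖HS S.N.u y‖ ≤ ‖HS S.N.u y‖ + Real.sqrt (DHSsq S.N.u y) := by linarith
      _ ≤ π.C * π.m₀ ^ 2 * tent S.ℓ y ^ (2 * π.k - 4) := h1
      _ ≤ κH := by
        rw [hκH]
        gcongr
        · exact tent_nonneg hF _
        · exact (htent y hy).2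
  obtain ⟨hE, hR, hER⟩ := a₂ S r d κH hr0 le_rfl hbrs hht hcv
  -- `r² κH ≤ d`
  have hrκ : r ^ 2 * κH ≤ d := by
    have h1 : r ^ 2 ≤ (201 * S.b) ^ 2 := by
      gcongr
      linarith
    have h2 : (201 * S.b) ^ 2 * (201 * S.b) ^ (2 * π.k - 4) ≤ (201 * S.b) ^ π.k := by
      rw [← pow_add]
      exact pow_le_pow_of_le_one (by positivity) hb201 (by omega)
    have h3 : π.m₀ ^ 2 ≤ π.m₀ := by nlinarith
    calc r ^ 2 * κH ≤ (201 * S.b) ^ 2 * (π.C * π.m₀ ^ 2 * (201 * S.b) ^ (2 * π.k - 4)) := by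
          rw [hκH]
          gcongr
      _ = π.C * π.m₀ ^ 2 * ((201 * S.b) ^ 2 * (201 * S.b) ^ (2 * π.k - 4)) := by ring
      _ ≤ π.C * π.m₀ * (201 * S.b) ^ π.k := by gcongr
  have hER' : qE S.N r + qR S.N r ≤ 2 * π.C₁ * d ^ 2 := by
    have h1 : r ^ 2 * d * κH ≤ d ^ 2 := by
      calc r ^ 2 * d * κH = d * (r ^ 2 * κH) := by ring
        _ ≤ d * d := by gcongr
        _ = d ^ 2 := by ring
    calc _ ≤ π.C₁ * (d ^ 2 + r ^ 2 * d * κH) := hER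
      _ ≤ π.C₁ * (d ^ 2 + d ^ 2) := by gcongr
      _ = 2 * π.C₁ * d ^ 2 := by ring
  -- lower bound of the height
  obtain ⟨A, hA, hA'⟩ := a₅ S hb (gr S.N.u) (fun p hp p' hp' => (hcone p hp p' hp').trans (by gcongr))
  have hlow := a₄ S A r (π.c * S.b ^ m) (π.c * π.m₀ * S.b ^ π.k) hr0 le_rfl (by linarith)
    (by positivity) (by positivity) hA (fun X hX => by
      obtain ⟨-, h1, h2, h3⟩ := hA' X hX
      have : π.ε₀ ≤ 1 / 100 := hB.ε₀_le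
      exact ⟨by rw [hr]; linarith, by linarith, h3⟩)
  set H := qH S.N r with hH
  have hlow' : π.c ^ 3 * (π.m₀ ^ 2 * S.b ^ (2 * π.k)) ≤ 100 ^ m * H := by
    have h1 : π.c * S.b ^ m * (π.c * π.m₀ * S.b ^ π.k) ^ 2
        = S.b ^ m * (π.c ^ 3 * (π.m₀ ^ 2 * S.b ^ (2 * π.k))) := by
      rw [pow_mul']
      ring
    have h2 : r ^ m * H = S.b ^ m * (100 ^ m * H) := by
      rw [hr, mul_pow]
      ring
    rw [h1, h2] at hlow
    exact le_of_mul_le_mul_left hlow (by positivity)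
  set K := 2 * π.C₁ * π.C ^ 2 * 201 ^ (2 * π.k) * 100 ^ m / π.c ^ 3 with hK
  have hERK : qE S.N r + qR S.N r ≤ K * H := by
    have h1 : d ^ 2 = π.C ^ 2 * 201 ^ (2 * π.k) * (π.m₀ ^ 2 * S.b ^ (2 * π.k)) := by
      rw [hd, hκ, pow_mul', pow_mul']
      ring
    have h2 : π.m₀ ^ 2 * S.b ^ (2 * π.k) ≤ 100 ^ m * H / π.c ^ 3 := by
      rw [le_div_iff₀ (by positivity)]
      linarith
    calc _ ≤ 2 * π.C₁ * d ^ 2 := hER'
      _ = 2 * π.C₁ * (π.C ^ 2 * 201 ^ (2 * π.k)) * (π.m₀ ^ 2 * S.b ^ (2 * π.k)) := by rw [h1]; ring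
      _ ≤ 2 * π.C₁ * (π.C ^ 2 * 201 ^ (2 * π.k)) * (100 ^ m * H / π.c ^ 3) := by gcongr
      _ = K * H := by rw [hK]; ring
  -- the frequency inequality
  set τ := Real.log r with hτ
  have hexp : Real.exp τ = r := Real.exp_log hr0
  have hτI : τ ∈ fitI S.b (4 * π.rs) := ⟨by rw [hexp], by rw [hexp]; linarith⟩
  have hO := a₁ S
  have hτ0 : τ ≤ 0 := Real.log_nonpos hr0.le hr1
  have hHpos : 0 < H := by
    have := hO.H_pos τ hτI
    simp only [ode, hexp] at this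
    exact this
  have hη0 := hO.η_nonneg τ hτI
  have hη : (ode S.N π.C₁ α).η τ ≤ π.C₁ * Real.exp (c * π.C₁) := by
    refine (hO.η_le τ hτI).trans ?_
    have hT := hO.T_ge τ hτI
    have h1 : 0 ≤ c * ((ode S.N π.C₁ α).T τ + π.C₁) := mul_nonneg hc.le (by linarith)
    refine mul_le_mul_of_nonneg_left (Real.exp_le_exp.2 ?_) (by linarith)
    linarith
  have hP := hO.f_abs τ hτI
  have hP' : |fP S.N r| ≤ π.C₁ * (qE S.N r / H + r ^ 2) + (ode S.N π.C₁ α).η τ * (qR S.N r / H) := by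
    simp only [OdeData.P, OdeData.n, OdeData.q] at hP
    simp only [ode, hexp] at hP ⊢
    exact hP
  have hK0 : 0 ≤ K := by rw [hK]; positivity
  have hr2 : r ^ 2 ≤ 1 := pow_le_one₀ hr0.le hr1
  have hfin := inner_arith hHpos hE hR hC₁ hK0 hr2 hη0 hη hERK hP'
  exact hfin.trans a₈

/-! ### the outer endpoint -/

/-- the preceding failure height in current units, `h₀ = m₀ b_-^k / (F b_-)` -/
noncomputable def h0 (π : Par) (b' : ℝ) : ℝ := π.m₀ * b' ^ π.k / (π.F * b')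

/-- `S` is the exact restart of `S'`: `R = F b_- R_-` -/
def IsRestart {Q : ℕ} {π : Par} (S' S : Start m n Q π) : Prop :=
  ∃ (hpos : 0 < π.F * S'.b) (Ω : E (m + n) ≃ₗᵢ[ℝ] E (m + n)), S.N.W = S'.N.W.simil 0 (π.F * S'.b) hpos Ω

/-- transformation rules for a restart -/
theorem restart_facts {Q : ℕ} {π : Par} (S' S : Start m n Q π) (l : ℝ) (hl : 0 < l)
    (Ω : E (m + n) ≃ₗᵢ[ℝ] E (m + n)) (hW : S.N.W = S'.N.W.simil 0 l hl Ω) :
    (∀ X, X ∈ S.N.W.support ↔ l • Ω.symm X ∈ S'.N.W.support) ∧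
    (∀ X, S.N.W.P X = (Ω : E (m + n) →L[ℝ] E (m + n)) ∘L S'.N.W.P (l • Ω.symm X) ∘L
      (Ω.symm : E (m + n) →L[ℝ] E (m + n))) ∧
    (∀ A' : Set (E (m + n)),
      ENNReal.ofReal ((l ^ m)⁻¹) * S'.N.W.μ A' ≤ S.N.W.μ {X | l • Ω.symm X ∈ A'}) := by
  have hinv : ∀ X, simInv 0 l Ω X = l • Ω.symm X := fun X => by simp only [simInv, zero_add]
  refine ⟨fun X => ?_, fun X => ?_, fun A' => ?_⟩
  · rw [hW, SIV.simil_support, Set.mem_preimage, hinv]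
  · rw [hW, ← hinv]
    rfl
  · rw [hW, SIV.simil_μ, Measure.smul_apply, smul_eq_mul]
    refine mul_le_mul' le_rfl ?_
    refine le_trans (measure_mono ?_)
      (Measure.le_map_apply (Base.contDiff_simMap 0 Ω l).continuous.measurable.aemeasurable _)
    intro X hX
    show l • Ω.symm (simMap 0 l Ω X) ∈ A'
    rw [← hinv, Base.simInv_simMap 0 Ω hl]
    exact hX

/-- `h₀ ≤ b_-` -/
theorem h0_le {π : Par} {b : ℝ} (hb : 0 < b) (hb1 : b ≤ 1) (hm0 : 0 < π.m₀) (hm1 : π.m₀ ≤ 1) (hk : 2 ≤ π.k) :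
    0 < h0 π b ∧ h0 π b ≤ b := by
  have hF : (1 : ℝ) ≤ π.F := one_le_pow₀ (by norm_num)
  have hpos : 0 < π.F * b := by positivity
  refine ⟨by unfold h0; positivity, ?_⟩
  unfold h0
  rw [div_le_iff₀ hpos]
  have h1 : b ^ π.k ≤ b ^ 2 := pow_le_pow_of_le_one hb.le hb1 hk
  calc π.m₀ * b ^ π.k ≤ 1 * b ^ 2 := by gcongr
    _ = 1 * (b * b) := by ring
    _ ≤ π.F * (b * b) := by gcongr
    _ = b * (π.F * b) := by ring

/-- the support of a restart is close to the rescaled preceding centre; the two start planes are close -/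
theorem restart_near (m n Q : ℕ) (hm : 1 ≤ m) (hQ : 1 ≤ Q) (B : FitBase) (hB : B.Adm m) (hJ : 4 ≤ B.J)
    (δ : ℝ) (hδ : 0 < δ) :
    Ev B (fun π => ∀ (S' S : Start m n Q π) (hpos : 0 < π.F * S'.b) (Ω : E (m + n) ≃ₗᵢ[ℝ] E (m + n)),
      S.N.W = S'.N.W.simil 0 (π.F * S'.b) hpos Ω →
      π.C * π.m₀ ≤ δ ∧
      ‖(Ω : E (m + n) →L[ℝ] E (m + n)) ∘L PH m n ∘L (Ω.symm : E (m + n) →L[ℝ] E (m + n)) - PH m n‖ ≤ δ ∧
      (∀ X ∈ S.N.W.support, ‖X‖ ≤ 10 → ∃ p ∈ (fun Y => (π.F * S'.b)⁻¹ • Ω Y) '' gr S'.N.u,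
        ‖X - p‖ ≤ π.C * (1 + 20 * π.F) ^ π.k * h0 π S'.b)) := by
  obtain ⟨Ca, hCa1, hang⟩ := angle_of_near m n Q hm hQ
  have hBC : 0 < B.C := lt_of_lt_of_le one_pos hB.C_ge
  have hCa0 : 0 < Ca := by linarith
  set δ₁ := min δ 1 / (3 * Ca) with hδ₁
  have hmin : 0 < min δ 1 := lt_min hδ one_pos
  have hδ₁0 : 0 < δ₁ := by positivity
  have hδ₁le : 3 * δ₁ ≤ min δ 1 := by
    rw [hδ₁, div_eq_mul_inv, mul_inv]
    have h1 : Ca⁻¹ ≤ 1 := inv_le_one_of_one_le₀ hCa1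
    have h2 : 3 * (min δ 1 * (3⁻¹ * Ca⁻¹)) = min δ 1 * Ca⁻¹ := by ring
    rw [h2]
    exact mul_le_of_le_one_right hmin.le h1
  have hCaδ : Ca * (3 * δ₁) = min δ 1 := by
    rw [hδ₁]
    field_simp
  have e₀ := Ev.pos B
  have e₁ := start_geo (n := n) (Q := Q) hm B hB hJ
  have e₂ := Ev.m₀_lt B (fun _ => δ₁ / B.C) (fun _ => div_pos hδ₁0 hBC)
  have e₃ := Ev.lm_lt B (fun _ _ _ _ _ f _ => min (1 / (5 * 2 ^ f)) (δ₁ / (B.C * (1 + 20 * 2 ^ f) ^ B.k)))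
    (fun _ _ _ _ _ f _ => lt_min (by positivity) (by positivity))
  have e₄ := Ev.eg_lt B (fun _ _ _ _ _ _ _ _ => δ₁ ^ (m + 1)) (fun _ _ _ _ _ _ _ _ => by positivity)
  refine ((((e₀.and e₁).and e₂).and e₃).and e₄).mono ?_
  clear e₀ e₁ e₂ e₃ e₄
  rintro π hπ ⟨⟨⟨⟨a₀, a₁⟩, a₂⟩, a₃⟩, a₄⟩ S' S hpos Ω hW
  subst hπ
  obtain ⟨-, -, hm0, hm01, -, -, -, -, -, hlm0, hlm1, heg0, heg1⟩ := a₀
  obtain ⟨-, hcone', -, h4', -⟩ := a₁ S'
  obtain ⟨hsupp, -, -⟩ := restart_facts S' S _ hpos Ω hW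
  have hk : 2 ≤ π.k := by
    have := hB.k_gt
    omega
  have hF : (1 : ℝ) ≤ π.F := one_le_pow₀ (by norm_num)
  have hF0 : 0 < π.F := by linarith
  have hb : 0 < S'.b := (mul_pos_iff_of_pos_left hF0).1 hpos
  have hbl : S'.b ≤ π.lm := bpar_le S'.isFail hlm0.le
  have hb1 : S'.b ≤ 1 := hbl.trans hlm1
  obtain ⟨hh0, hh0b⟩ := h0_le (π := π) hb hb1 hm0 hm01 hk
  set l := π.F * S'.b with hl
  have hl5 : 5 * l ≤ 1 := by
    have h1 : π.lm < 1 / (5 * π.F) := a₃.trans_le (min_le_left _ _)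
    rw [lt_div_iff₀ (by positivity)] at h1
    have h2 : S'.b * (5 * π.F) ≤ π.lm * (5 * π.F) := by gcongr
    rw [hl]
    linarith
  set s := π.C * π.m₀ with hs
  have hs0 : 0 < s := mul_pos hBC hm0
  have hsδ : s ≤ δ₁ := by
    have h1 : π.m₀ < δ₁ / π.C := a₂
    rw [lt_div_iff₀ hBC] at h1
    rw [hs]
    linarith
  set d := π.C * (1 + 20 * π.F) ^ π.k * h0 π S'.b with hd
  have hdδ : d ≤ δ₁ := by
    have h1 : π.lm < δ₁ / (π.C * (1 + 20 * π.F) ^ π.k) := a₃.trans_le (min_le_right _ _)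
    rw [lt_div_iff₀ (by positivity)] at h1
    calc d ≤ π.C * (1 + 20 * π.F) ^ π.k * π.lm := by
          rw [hd]
          gcongr
          exact hh0b.trans hbl
      _ = π.lm * (π.C * (1 + 20 * π.F) ^ π.k) := by ring
      _ ≤ δ₁ := h1.le
  have heδ : π.eg ^ ((1 : ℝ) / (m + 1)) ≤ δ₁ := by
    have h1 : π.eg < δ₁ ^ (m + 1) := a₄
    have h2 : ((1 : ℝ) / (m + 1)) = (((m + 1 : ℕ) : ℝ))⁻¹ := by
      push_cast
      rw [one_div]
    rw [h2]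
    calc π.eg ^ (((m + 1 : ℕ) : ℝ))⁻¹ ≤ (δ₁ ^ (m + 1)) ^ (((m + 1 : ℕ) : ℝ))⁻¹ :=
          Real.rpow_le_rpow heg0.le h1.le (by positivity)
      _ = δ₁ := Real.pow_rpow_inv_natCast hδ₁0.le (by omega)
  -- closeness
  have hnear : ∀ X ∈ S.N.W.support, ‖X‖ ≤ 10 → ∃ p ∈ (fun Y => l⁻¹ • Ω Y) '' gr S'.N.u, ‖X - p‖ ≤ d := by
    intro X hX hX10
    have hX' := (hsupp X).1 hX
    set X' := l • Ω.symm X with hX'def
    have hnX' : ‖X'‖ = l * ‖X‖ := by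
      rw [hX'def, norm_smul, Real.norm_of_nonneg hpos.le, Ω.symm.norm_map]
    have hnX'2 : ‖X'‖ ≤ 10 * l := by
      rw [hnX']
      nlinarith
    obtain ⟨-, hz, -, -⟩ := h4' X' hX' (by linarith)
    refine ⟨l⁻¹ • Ω (Fg S'.N.u (npr S'.N.u X')), ⟨_, ⟨_, rfl⟩, rfl⟩, ?_⟩
    have e1 : X = l⁻¹ • Ω X' := by
      rw [hX'def, map_smul, Ω.apply_symm_apply, smul_smul, inv_mul_cancel₀ hpos.ne', one_smul]
    have e2 : X - l⁻¹ • Ω (Fg S'.N.u (npr S'.N.u X')) = l⁻¹ • Ω (zz S'.N.u X') := by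
      conv_lhs => rw [e1]
      rw [← smul_sub, ← map_sub]
      rfl
    rw [e2, norm_smul, Ω.norm_map, norm_inv, Real.norm_of_nonneg hpos.le]
    calc l⁻¹ * ‖zz S'.N.u X'‖ ≤ l⁻¹ * (s * (S'.b + 2 * ‖X'‖) ^ π.k) := by gcongr
      _ ≤ l⁻¹ * (s * (S'.b * (1 + 20 * π.F)) ^ π.k) := by
          gcongr
          rw [hl] at hnX'2
          linarith
      _ = d := by
          rw [hd, hs, h0, mul_pow, ← hl]
          field_simp
  refine ⟨hsδ.trans (by linarith [min_le_left δ 1]), ?_, hnear⟩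
  have hθ := hang S.N.W π.eg heg0 heg1 S.good ((fun Y => l⁻¹ • Ω Y) '' gr S'.N.u) Ω s d hs0.le
    (hsδ.trans (by linarith [min_le_right δ 1])) ?_ hnear
  · refine hθ.trans ?_
    calc Ca * (s + d + π.eg ^ ((1 : ℝ) / (m + 1))) ≤ Ca * (3 * δ₁) := by
          gcongr
          linarith
      _ = min δ 1 := hCaδ
      _ ≤ δ := min_le_left _ _
  · rintro _ ⟨q, hq, rfl⟩ _ ⟨q', hq', rfl⟩
    have e1 : Ω.symm ((fun Y => l⁻¹ • Ω Y) q - (fun Y => l⁻¹ • Ω Y) q') = l⁻¹ • (q - q') := by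
      simp only [map_sub, map_smul, Ω.symm_apply_apply, smul_sub]
    rw [e1, map_smul, map_smul, norm_smul, norm_smul]
    calc ‖l⁻¹‖ * ‖prV m n (q - q')‖ ≤ ‖l⁻¹‖ * (s * ‖prH m n (q - q')‖) := by
          gcongr
          exact hcone' q hq q' hq'
      _ = _ := by ring

theorem norm_conj_le (Ω : E (m + n) ≃ₗᵢ[ℝ] E (m + n)) (T : E (m + n) →L[ℝ] E (m + n)) :
    ‖(Ω : E (m + n) →L[ℝ] E (m + n)) ∘L T ∘L (Ω.symm : E (m + n) →L[ℝ] E (m + n))‖ ≤ ‖T‖ := by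
  refine ContinuousLinearMap.opNorm_le_bound _ (norm_nonneg T) fun v => ?_
  have h1 : ((Ω : E (m + n) →L[ℝ] E (m + n)) ∘L T ∘L (Ω.symm : E (m + n) →L[ℝ] E (m + n))) v
      = Ω (T (Ω.symm v)) := rfl
  rw [h1, Ω.norm_map]
  have h2 := T.le_opNorm (Ω.symm v)
  rwa [Ω.symm.norm_map] at h2

/-- **CO (4.25)** `|z| ≤ C h₀` (leaf `L-Freq-outer-upper`).
PLAN.  `λ = F b_- < 1/4`.  A support point `X` of `S`, `|X| ≤ 10`, is `Ω (X'/λ)` with `X'` a support point of `S'`, `|X'| ≤ 10 λ`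
(`simil_support`); by `start_geo` for `S'`: `dist (X', gr u') ≤ C m₀ (b_- + 20 λ)^k ≤ C (1 + 20 F)^k m₀ b_-^k`.  So `X` is within
`d = C (1+20F)^k h₀` of `Γ = (λ⁻¹ • Ω ·) '' gr u'`.  `angle_of_near` (`s = C m₀`) and `coneSet_rot` give `ConeSet ε₁ Γ`;
`fail_small` gives `c m₀ ℓ_x^k ≤ d` for all `x`; `start_geo` (last item) gives the height bound. -/
theorem outer_upper (m n Q : ℕ) (hm : 1 ≤ m) (hn : 1 ≤ n) (hQ : 1 ≤ Q) :
    ∃ J₁ : ℕ, ∀ B : FitBase, J₁ ≤ B.J → B.Adm m →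
      Ev B (fun π => ∀ S' S : Start m n Q π, IsRestart S' S →
        (∀ X, S.In X → ‖zz S.N.u X‖ ≤ π.C₂ * h0 π S'.b) ∧
        (∀ y ∈ Metric.ball (0 : E m) 4, ‖HS S.N.u y‖ ≤ π.C₂ * h0 π S'.b)) := by
  refine ⟨4, fun B hJ hB => ?_⟩
  have hBC : 0 < B.C := lt_of_lt_of_le one_pos hB.C_ge
  have e₀ := Ev.pos B
  have e₁ := start_geo (n := n) (Q := Q) hm B hB hJ
  have e₂ := restart_near m n Q hm hQ B hB hJ (B.ε₁ / 8) (by have := hB.ε₁_pos; positivity)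
  have e₃ := fail_small (n := n) (Q := Q) hm B hB
  have e₄ := Ev.C₂_ge B (fun _ _ _ _ _ f => B.C / B.c * (B.C * (1 + 20 * 2 ^ f) ^ B.k))
  refine ((((e₀.and e₁).and e₂).and e₃).and e₄).mono ?_
  clear e₀ e₁ e₂ e₃ e₄
  rintro π hπ ⟨⟨⟨⟨a₀, a₁⟩, a₂⟩, a₃⟩, a₄⟩ S' S ⟨hpos, Ω, hW⟩
  subst hπ
  obtain ⟨-, -, hm0, hm01, -, -, -, -, -, hlm0, hlm1, -, -⟩ := a₀
  obtain ⟨-, hcone', -, -, -⟩ := a₁ S'
  obtain ⟨-, -, -, -, h5⟩ := a₁ S
  obtain ⟨hs, hθ, hnear⟩ := a₂ S' S hpos Ω hW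
  have hε1 : π.ε₁ ≤ 1 := hB.ε₁_le
  have hε0 : 0 < π.ε₁ := hB.ε₁_pos
  have hcpos : 0 < π.c := hB.c_pos
  have hk : 5 ≤ π.k := by
    have := hB.k_gt
    omega
  have hF0 : 0 < π.F := by unfold Par.F; positivity
  have hb : 0 < S'.b := (mul_pos_iff_of_pos_left hF0).1 hpos
  have hh0 : 0 ≤ h0 π S'.b := div_nonneg (mul_nonneg hm0.le (pow_nonneg hb.le _)) hpos.le
  have hΓ : ConeSet π.ε₁ ((fun Y => (π.F * S'.b)⁻¹ • Ω Y) '' gr S'.N.u) := by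
    have h1 := (coneSet_rot (gr S'.N.u) Ω (π.C * π.m₀) (π.ε₁ / 8) (π.F * S'.b)⁻¹ (by positivity)
      (by linarith) (by positivity) hcone' hθ (by linarith)).1
    intro p hp p' hp'
    refine (h1 p hp p' hp').trans ?_
    gcongr
    linarith
  set d := π.C * (1 + 20 * π.F) ^ π.k * h0 π S'.b with hd
  have hd0 : 0 ≤ d := by positivity
  have hfail := a₃ S _ d hΓ hnear
  set a := (d / (π.c * π.m₀)) ^ ((π.k : ℝ)⁻¹) with ha
  have ha0 : 0 ≤ a := Real.rpow_nonneg (by positivity) _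
  have hak : a ^ π.k = d / (π.c * π.m₀) := Real.rpow_inv_natCast_pow (by positivity) (by omega)
  have hℓ : ∀ x : E m, ‖x‖ < 5 → S.ℓ x ≤ a := by
    intro x hx
    refine le_of_pow_le_pow_left₀ (n := π.k) (by omega) ha0 ?_
    rw [hak, le_div_iff₀ (by positivity)]
    have := hfail x hx
    linarith
  have hfin : π.C * π.m₀ * a ^ π.k ≤ π.C₂ * h0 π S'.b := by
    rw [hak]
    calc π.C * π.m₀ * (d / (π.c * π.m₀)) = π.C / π.c * d := by field_simp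
      _ = π.C / π.c * (π.C * (1 + 20 * π.F) ^ π.k) * h0 π S'.b := by rw [hd]; ring
      _ ≤ π.C₂ * h0 π S'.b := by
        gcongr
        exact a₄
  refine ⟨fun X hX => (h5 X hX a hℓ ha0).trans hfin, fun y hy => ?_⟩
  have hF := S.isFail
  have h1 := S.curv y hy
  have h2 := Real.sqrt_nonneg (DHSsq S.N.u y)
  have ht0 := tent_nonneg hF y
  have hta : tent S.ℓ y ≤ a := tent_le_of hF ha0 hℓ y
  have ht1 : tent S.ℓ y ≤ 1 := tent_le_of hF zero_le_one (fun x _ => (S.ℓ_small x).trans hlm1) y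
  calc ‖HS S.N.u y‖ ≤ ‖HS S.N.u y‖ + Real.sqrt (DHSsq S.N.u y) := by linarith
    _ ≤ π.C * π.m₀ ^ 2 * tent S.ℓ y ^ (2 * π.k - 4) := h1
    _ ≤ π.C * π.m₀ * a ^ π.k := by
      have h3 : tent S.ℓ y ^ (2 * π.k - 4) ≤ tent S.ℓ y ^ π.k :=
        pow_le_pow_of_le_one ht0 ht1 (by omega)
      have h4 : tent S.ℓ y ^ π.k ≤ a ^ π.k := by gcongr
      have h5 : π.m₀ ^ 2 ≤ π.m₀ := by nlinarith
      gcongr
      exact h3.trans h4
    _ ≤ _ := hfin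

/-- **CO (4.26)** `H(r_*) ≥ c h₀²` (leaf `L-Freq-outer-lower`).
PLAN.  `bpar_attained` for `S'`: `x'`, `|x'| ≤ 16 b_-`, `ℓ x' = b_-`.  `S'.sep x' _ _ 0 _ Γ' _` with
`Γ' = (λ • Ω.symm ·) '' gr u` (cone set by `angle_of_near`, `coneSet_rot`): mass `≥ c b_-^m` of points `X'`, `|prH X'| < c₀ b_-`, low tilt,
`dist (X', Γ') ≥ c m₀ b_-^k`.  They are support points with `|X'| ≤ 2 b_-` (`S'.height_v`, `start_geo`).  Push forward
(`simil_μ`): mass `≥ c F^{-m}`, `|X| ≤ 2/F ≤ r_*/8`, distance `≥ c h₀` from `gr u`, tilt `≤ ε₀ + θ ≤ 1/20`.  `height_lower`. -/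
theorem outer_lower (m n Q : ℕ) (hm : 1 ≤ m) (hn : 1 ≤ n) (hQ : 1 ≤ Q) :
    ∃ J₁ : ℕ, ∀ B : FitBase, J₁ ≤ B.J → B.Adm m →
      Ev B (fun π => ∀ S' S : Start m n Q π, IsRestart S' S →
        π.C₂⁻¹ * h0 π S'.b ^ 2 ≤ qH S.N π.rs) := by
  refine ⟨4, fun B hJ hB => ?_⟩
  have hBC : 0 < B.C := lt_of_lt_of_le one_pos hB.C_ge
  have e₀ := Ev.pos B
  have e₁ := start_geo (n := n) (Q := Q) hm B hB hJ
  have e₂ := restart_near m n Q hm hQ B hB hJ (min (B.ε₁ / 8) (1 / 25))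
    (lt_min (by have := hB.ε₁_pos; positivity) (by norm_num))
  have e₃ := endpt_sep (n := n) (Q := Q) hm B hB hJ
  have e₄ := height_lower (n := n) (Q := Q) hm B hB hJ
  have e₅ := Ev.F_ge B (fun _ _ _ _ rs => 16 / rs)
  have e₆ := Ev.C₂_ge B (fun _ _ _ _ rs f => (2 ^ f) ^ m * rs ^ m / B.c ^ 3)
  have e₇ := Ev.lm_lt B (fun _ _ _ _ rs _ _ => if 0 < rs then rs / 100 else 1)
    (fun _ _ _ _ rs _ _ => by
      split_ifs with h
      · positivity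
      · norm_num)
  refine (((((((e₀.and e₁).and e₂).and e₃).and e₄).and e₅).and e₆).and e₇).mono ?_
  clear e₀ e₁ e₂ e₃ e₄ e₅ e₆ e₇
  rintro π hπ ⟨⟨⟨⟨⟨⟨⟨a₀, a₁⟩, a₂⟩, a₃⟩, a₄⟩, a₅⟩, a₆⟩, a₇⟩ S' S ⟨hpos, Ω, hW⟩
  subst hπ
  obtain ⟨-, -, hm0, hm01, -, hrs, hrs1, hC₂, -, hlm0, hlm1, -, -⟩ := a₀
  rw [if_pos hrs] at a₇
  obtain ⟨-, hcone, -, -, -⟩ := a₁ S
  obtain ⟨hs, hθ, -⟩ := a₂ S' S hpos Ω hW
  obtain ⟨-, hP, hμ⟩ := restart_facts S' S _ hpos Ω hW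
  have hε1 : π.ε₁ ≤ 1 := hB.ε₁_le
  have hε0 : 0 < π.ε₁ := hB.ε₁_pos
  have hcpos : 0 < π.c := hB.c_pos
  have hF0 : 0 < π.F := by unfold Par.F; positivity
  have hb : 0 < S'.b := (mul_pos_iff_of_pos_left hF0).1 hpos
  have hh0 : 0 ≤ h0 π S'.b := div_nonneg (mul_nonneg hm0.le (pow_nonneg hb.le _)) hpos.le
  have hs8 : π.C * π.m₀ ≤ π.ε₁ / 8 := hs.trans (min_le_left _ _)
  have hθ8 := hθ.trans (min_le_left (π.ε₁ / 8) (1 / 25))
  have hθ25 := hθ.trans (min_le_right (π.ε₁ / 8) (1 / 25))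
  set l := π.F * S'.b with hl
  have hΓ : ConeSet π.ε₁ ((fun Y => l • Ω.symm Y) '' gr S.N.u) := by
    have h1 := (coneSet_rot (gr S.N.u) Ω (π.C * π.m₀) (π.ε₁ / 8) l (by positivity)
      (by linarith) hpos hcone hθ8 (by linarith)).2
    intro p hp p' hp'
    refine (h1 p hp p' hp').trans ?_
    gcongr
    linarith
  obtain ⟨A', hA', hA''⟩ := a₃ S' hb _ hΓ
  have hμA : ENNReal.ofReal (π.c / π.F ^ m) ≤ S.N.W.μ {X | l • Ω.symm X ∈ A'} := by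
    refine le_trans ?_ (hμ A')
    calc ENNReal.ofReal (π.c / π.F ^ m) = ENNReal.ofReal ((l ^ m)⁻¹ * (π.c * S'.b ^ m)) := by
          congr 1
          rw [hl, mul_pow]
          field_simp
      _ = ENNReal.ofReal ((l ^ m)⁻¹) * ENNReal.ofReal (π.c * S'.b ^ m) :=
          ENNReal.ofReal_mul (by positivity)
      _ ≤ _ := mul_le_mul' le_rfl hA'
  have hSb : 100 * S.b ≤ π.rs := by
    have := bpar_le S.isFail hlm0.le
    have hb' : bpar S.ℓ = S.b := rfl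
    linarith
  have hFrs : 16 ≤ π.F * π.rs := by
    have h1 : 16 / π.rs ≤ π.F := a₅
    rwa [div_le_iff₀ hrs] at h1
  have hlow := a₄ S {X | l • Ω.symm X ∈ A'} π.rs (π.c / π.F ^ m) (π.c * h0 π S'.b) hrs hSb (by linarith)
    (by positivity) (by positivity) hμA ?_
  · set K := π.F ^ m * π.rs ^ m / π.c ^ 3 with hK
    have hK0 : 0 < K := by positivity
    have hKC : K ≤ π.C₂ := a₆
    have h1 : K⁻¹ * h0 π S'.b ^ 2 ≤ qH S.N π.rs := by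
      have e : K⁻¹ * h0 π S'.b ^ 2 = (π.c / π.F ^ m * (π.c * h0 π S'.b) ^ 2) / π.rs ^ m := by
        rw [hK]
        field_simp
      rw [e, div_le_iff₀ (by positivity)]
      linarith
    refine le_trans ?_ h1
    gcongr
  · intro X hX
    obtain ⟨-, h1, h2, h3⟩ := hA'' _ hX
    refine ⟨?_, ?_, fun p hp => ?_⟩
    · rw [norm_smul, Real.norm_of_nonneg hpos.le, Ω.symm.norm_map, hl] at h1
      have h4 : π.F * ‖X‖ ≤ 2 := by
        have : S'.b * (π.F * ‖X‖) ≤ S'.b * 2 := by linarith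
        exact le_of_mul_le_mul_left this hb
      have h5 : 16 * ‖X‖ ≤ π.F * π.rs * ‖X‖ := by gcongr
      have h6 : π.F * π.rs * ‖X‖ = π.rs * (π.F * ‖X‖) := by ring
      have h7 : π.rs * (π.F * ‖X‖) ≤ π.rs * 2 := by gcongr
      linarith
    · rw [hP X]
      have e : (Ω : E (m + n) →L[ℝ] E (m + n)) ∘L S'.N.W.P (l • Ω.symm X) ∘L
          (Ω.symm : E (m + n) →L[ℝ] E (m + n)) - PH m n
          = (Ω : E (m + n) →L[ℝ] E (m + n)) ∘L (S'.N.W.P (l • Ω.symm X) - PH m n) ∘L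
            (Ω.symm : E (m + n) →L[ℝ] E (m + n))
          + ((Ω : E (m + n) →L[ℝ] E (m + n)) ∘L PH m n ∘L (Ω.symm : E (m + n) →L[ℝ] E (m + n))
            - PH m n) := by
        ext v
        simp
      rw [e]
      refine (norm_add_le _ _).trans ?_
      have h4 := norm_conj_le Ω (S'.N.W.P (l • Ω.symm X) - PH m n)
      have h5 : π.ε₀ ≤ 1 / 100 := hB.ε₀_le
      linarith
    · have h4 := h3 (l • Ω.symm p) ⟨p, hp, rfl⟩
      rw [← smul_sub, ← map_sub, norm_smul, Real.norm_of_nonneg hpos.le, Ω.symm.norm_map] at h4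
      have e : π.c * h0 π S'.b = π.c * π.m₀ * S'.b ^ π.k / l := by
        rw [h0, ← hl]
        ring
      rw [e, div_le_iff₀ hpos]
      linarith

end Claimed.Agent.R322.Freq
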