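import Claimed.Agent.R322.Freq.Hor

/-!
# CO Lemma 4.3: the height identity (4.18)/(4.19) and differentiability in `log r`

Owner: helper109.  Leaves `L-Freq-ht-*`, `L-Freq-der-*`.

Test field `ψ(π X) |z|² V`; `V = K_z G∘π` is `C¹` in the whole tube (it vanishes on the central fibre), so NO cutoff at the central fibre is needed
(DEVIATION from the paper, which uses `Y = ρ K_z u/|K_z u|²`; the weight of `H` was chosen accordingly, see `Freq/Quant.lean`).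
-/

set_option autoImplicit false

open scoped ENNReal ContDiff
open MeasureTheory

namespace Claimed.Agent.R322.Freq

open Claimed.Agent.R322.Tube

variable {m n : ℕ}

theorem ht_Tub_mono (u : E m → E n) {h h' : ℝ} (hh : h ≤ h') : Tub u h ⊆ Tub u h' :=
  fun _ ⟨y, hy⟩ => ⟨y, hy.trans_le hh⟩

/-- `(360 dep⁸/r²) |P V|² = chiR hwt` -/
theorem ht_chi_hwt {κ : ℝ} {u : E m → E n} (hu : Geo κ u) (r : ℝ) {X : E (m + n)} (hX : X ∈ Tub u (2 / 9))
    (P : E (m + n) →L[ℝ] E (m + n)) :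
    360 * dep u r (npr u X) ^ 8 / r ^ 2 * ‖P (Vv u X)‖ ^ 2 = chiR u r (npr u X) * hwt u P X := by
  unfold chiR hwt
  rcases eq_or_lt_of_le (rho_nonneg u (npr u X)) with h | h
  · have hG : ‖Gv u (npr u X)‖ ≤ 0 := by rw [h]; exact (Gv_facts hu (npr u X)).2.2.2.2.2.1
    have hV : ‖Vv u X‖ ≤ 0 := by
      have := (Vv_facts_of_le hu hX).2.2.2.2.2.2.2.2.1
      linarith
    have hV0 : Vv u X = 0 := norm_le_zero_iff.1 hV
    rw [hV0, ← h]
    simp
  · field_simp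

/-- pointwise first variation of the height test field (leaf `L-Freq-ht-pt`).
PLAN.  `tdiv_fderiv_smul` with `a = ψ(npr) |z|²`, `Y = V` (`DV_bound`: differentiable); product rule, `kerT_facts`, `Vv_facts`:
`Da (P V) = - |z|² (360 dep⁸/r²) ⟨V, P V⟩ + 2 ψ ⟨z, P V⟩`, `⟨V, P V⟩ = |P V|²` (`IsProj.inner_apply_self`),
`(360 dep⁸/r²)|P V|² = chiR hwt` (if `ρ = 0` then `V = 0`). -/
theorem ht_point (m n : ℕ) : ∃ h₀ : ℝ, 0 < h₀ ∧ ∀ (κ : ℝ) (u : E m → E n), Geo κ u → ∀ r : ℝ, 0 < r → ∀ X ∈ Tub u h₀,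
    ∀ P : E (m + n) →L[ℝ] E (m + n), IsProj m P →
    tdiv P (fderiv ℝ (fun X => (psiR u r (npr u X) * ‖zz u X‖ ^ 2) • Vv u X) X)
      = psiR u r (npr u X) * ‖zz u X‖ ^ 2 * tdiv P (fderiv ℝ (Vv u) X)
        - chiR u r (npr u X) * ‖zz u X‖ ^ 2 * hwt u P X
        + 2 * (psiR u r (npr u X) * inner ℝ (zz u X) (P (Vv u X))) := by
  obtain ⟨h₁, C, hh₁, -, hDV⟩ := DV_bound m n
  refine ⟨min h₁ (2 / 9), lt_min hh₁ (by norm_num), ?_⟩
  intro κ u hu r hr X hX P hP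
  have hX1 : X ∈ Tub u h₁ := ht_Tub_mono u (min_le_left _ _) hX
  have hX2 : X ∈ Tub u (2 / 9) := ht_Tub_mono u (min_le_right _ _) hX
  have dV : DifferentiableAt ℝ (Vv u) X :=
    ((hDV κ u hu).1.contDiffAt ((isOpen_Tub u h₁).mem_nhds hX1)).differentiableAt one_ne_zero
  have d1 := ((kerT_facts_of_le hu hr).2.2 X hX2).2
  have d2 := (Vv_facts_of_le hu hX2).2.2.2.2.2.2.2.2.2.2.2
  have d3 : HasFDerivAt (fun X => psiR u r (npr u X) * ‖zz u X‖ ^ 2)
      (psiR u r (npr u X) • (2 : ℝ) • innerSL ℝ (zz u X)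
        + ‖zz u X‖ ^ 2 • -(360 * dep u r (npr u X) ^ 8 / r ^ 2) • innerSL ℝ (Vv u X)) X := d1.mul d2
  have key := tdiv_fderiv_smul P d3.differentiableAt dV
  have e1 : inner ℝ (Vv u X) (P (Vv u X)) = ‖P (Vv u X)‖ ^ 2 := by
    rw [real_inner_comm]; exact hP.inner_apply_self _
  have e2 := ht_chi_hwt hu r hX2 P
  refine key.trans ?_
  rw [d3.fderiv]
  simp only [add_apply, smul_apply, innerSL_apply_apply, smul_eq_mul, e1]
  linear_combination (-‖zz u X‖ ^ 2) * e2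

/-- **the height identity** CO (4.19) (leaf `L-Freq-ht-id`).
PLAN.  `Tube.stat_cyl` with `Y = (ψ(npr)|z|²) V`, `K = closedBall 0 r`; `ht_point`; `Ints`; definitions of `qH'`, `qFl`. -/
theorem ht_id (m n Q : ℕ) : Unif₀ m n Q (fun N r =>
    Integrable (fun X => psiR N.u r (npr N.u X) * ‖zz N.u X‖ ^ 2 * tdiv (N.W.P X) (fderiv ℝ (Vv N.u) X)) N.μ ∧
    qH' N r = -(m : ℝ) * qH N r
      + (r ^ m)⁻¹ * ∫ X, psiR N.u r (npr N.u X) * ‖zz N.u X‖ ^ 2 * tdiv (N.W.P X) (fderiv ℝ (Vv N.u) X) ∂N.μ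
      + 2 * qFl N r) := by
  obtain ⟨J₁, κ₁, hκ₁, hints⟩ := ints m n Q
  obtain ⟨κ₂, hκ₂, hok⟩ := exists_frOK m n
  obtain ⟨h₃, hh₃, hpt⟩ := ht_point m n
  obtain ⟨h₄, C₄, hh₄, -, hDV⟩ := DV_bound m n
  obtain ⟨h₅, hh₅, hstat⟩ := stat_cyl m n
  refine ⟨max J₁ 4, min (min κ₁ κ₂) (min h₃ (min h₄ h₅)), by positivity, ?_⟩
  intro J k κ Ca N r hJ hκ hF
  have hJ1 : J₁ ≤ J := (le_max_left _ _).trans hJ
  have hJ4 : 4 ≤ J := (le_max_right _ _).trans hJ
  have hk1 : κ ≤ κ₁ := hκ.trans ((min_le_left _ _).trans (min_le_left _ _))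
  have hk2 : κ ≤ κ₂ := hκ.trans ((min_le_left _ _).trans (min_le_right _ _))
  have hk3 : κ ≤ h₃ := hκ.trans ((min_le_right _ _).trans (min_le_left _ _))
  have hk4 : κ ≤ h₄ := hκ.trans ((min_le_right _ _).trans ((min_le_right _ _).trans (min_le_left _ _)))
  have hk5 : κ ≤ h₅ := hκ.trans ((min_le_right _ _).trans ((min_le_right _ _).trans (min_le_right _ _)))
  have I : Ints N r := hints J k κ Ca N r hJ1 hk1 hF
  have OK : FrOK κ N := hok Q J k κ Ca N r hJ4 hk2 hF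
  have hgeo := OK.geo
  have hr := hF.r_pos
  have sub3 : Cyl N.u N.Ω N.h ⊆ Tub N.u h₃ := fun X hX =>
    ⟨npr N.u X, hX.2.trans_le (hF.h_le.trans hk3)⟩
  have sub4 : Cyl N.u N.Ω N.h ⊆ Tub N.u h₄ := fun X hX =>
    ⟨npr N.u X, hX.2.trans_le (hF.h_le.trans hk4)⟩
  have cψ : ContDiffOn ℝ 1 (fun X => psiR N.u r (npr N.u X)) (Cyl N.u N.Ω N.h) :=
    (kerT_facts_of_le hgeo hr).2.1.mono OK.tub
  have cz : ContDiffOn ℝ 1 (fun X => ‖zz N.u X‖ ^ 2) (Cyl N.u N.Ω N.h) :=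
    (((tube_deriv_of_le hgeo le_rfl).2.2.1.mono OK.tub).of_le (by norm_num)).norm_sq ℝ
  have cV : ContDiffOn ℝ 1 (Vv N.u) (Cyl N.u N.Ω N.h) := (hDV κ N.u hgeo).1.mono sub4
  have cY : ContDiffOn ℝ 1 (fun X => (psiR N.u r (npr N.u X) * ‖zz N.u X‖ ^ 2) • Vv N.u X)
      (Cyl N.u N.Ω N.h) := (cψ.mul cz).smul cV
  have hK : Metric.closedBall (0 : E m) r ⊆ N.Ω := by
    rw [hF.Ω_eq]; exact Metric.closedBall_subset_ball (by linarith [hF.r_le])
  obtain ⟨-, koff, -, -, -, -, -, -, kB, -, -⟩ := ker_facts hgeo hr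
  have h0 : ∀ X ∈ Cyl N.u N.Ω N.h, npr N.u X ∉ Metric.closedBall (0 : E m) r →
      (psiR N.u r (npr N.u X) * ‖zz N.u X‖ ^ 2) • Vv N.u X = 0 := by
    intro X _ hX
    have : npr N.u X ∉ Bs N.u r := fun h => hX (Metric.ball_subset_closedBall (kB h))
    simp [psiR, koff _ this]
  obtain ⟨iY, eY⟩ := hstat κ N hgeo (hF.h_le.trans hk5) _ _ cY (isCompact_closedBall _ _) hK h0
  have hae : ∀ᵐ X ∂N.μ,
      psiR N.u r (npr N.u X) * ‖zz N.u X‖ ^ 2 * tdiv (N.W.P X) (fderiv ℝ (Vv N.u) X)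
      = tdiv (N.W.P X) (fderiv ℝ (fun X => (psiR N.u r (npr N.u X) * ‖zz N.u X‖ ^ 2) • Vv N.u X) X)
        + chiR N.u r (npr N.u X) * ‖zz N.u X‖ ^ 2 * hwt N.u (N.W.P X) X
        - 2 * (psiR N.u r (npr N.u X) * inner ℝ (zz N.u X) (N.W.P X (Vv N.u X))) := by
    filter_upwards [OK.ok.ae_cyl] with X hX
    rw [hpt κ N.u hgeo r hr X (sub3 hX) _ (N.W.P_proj X)]
    ring
  have iAB : Integrable (fun X =>
      tdiv (N.W.P X) (fderiv ℝ (fun X => (psiR N.u r (npr N.u X) * ‖zz N.u X‖ ^ 2) • Vv N.u X) X)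
        + chiR N.u r (npr N.u X) * ‖zz N.u X‖ ^ 2 * hwt N.u (N.W.P X) X) N.μ := iY.add I.iHχ
  have iS : Integrable (fun X =>
      tdiv (N.W.P X) (fderiv ℝ (fun X => (psiR N.u r (npr N.u X) * ‖zz N.u X‖ ^ 2) • Vv N.u X) X)
        + chiR N.u r (npr N.u X) * ‖zz N.u X‖ ^ 2 * hwt N.u (N.W.P X) X
        - 2 * (psiR N.u r (npr N.u X) * inner ℝ (zz N.u X) (N.W.P X (Vv N.u X)))) N.μ :=
    iAB.sub (I.iFl.const_mul 2)
  refine ⟨iS.congr (hae.mono fun X hX => hX.symm), ?_⟩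
  rw [integral_congr_ae hae, integral_sub iAB (I.iFl.const_mul 2),
    integral_add iY I.iHχ, eY, integral_const_mul]
  unfold qH' qFl
  ring

/-- (leaf `L-Freq-ht-tr`)  PLAN.  `tdiv P DV = tdiv P P_h + tdiv P (DV - P_h)`, `tdiv P P_h = m - tilt ≤ m`, `abs_tdiv_le`, `DV_bound`, `ρ ≤ r`, `|z| ≤ δ r ≤ r`. -/
theorem ht_trace (m n Q : ℕ) : Unif m n Q (fun C N r =>
    (r ^ m)⁻¹ * ∫ X, psiR N.u r (npr N.u X) * ‖zz N.u X‖ ^ 2 * tdiv (N.W.P X) (fderiv ℝ (Vv N.u) X) ∂N.μ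
      ≤ (m + C * r) * qZψ N r) := by
  obtain ⟨J₁, κ₁, hκ₁, hints⟩ := ints m n Q
  obtain ⟨J₂, κ₂, hκ₂, hid⟩ := ht_id m n Q
  obtain ⟨J₃, κ₃, hκ₃, hht⟩ := ae_height m n Q
  obtain ⟨h₄, C₄, hh₄, hC₄, hDV⟩ := DV_bound m n
  refine ⟨max (max J₁ J₂) (max J₃ 4), min (min κ₁ κ₂) (min κ₃ (min h₄ (1 / 2))), by positivity,
    fun Ca => ⟨1 + 2 * (((m + n : ℕ) : ℝ) * C₄), 1 / (|Ca| + 1), ?_, by positivity, ?_⟩⟩
  · have : 0 ≤ ((m + n : ℕ) : ℝ) * C₄ := by positivity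
    linarith
  intro J k κ N r hJ hκ hr₀ hF
  have hJ1 : J₁ ≤ J := ((le_max_left _ _).trans (le_max_left _ _)).trans hJ
  have hJ2 : J₂ ≤ J := ((le_max_right _ _).trans (le_max_left _ _)).trans hJ
  have hJ3 : J₃ ≤ J := ((le_max_left _ _).trans (le_max_right _ _)).trans hJ
  have hJ4 : 4 ≤ J := ((le_max_right _ _).trans (le_max_right _ _)).trans hJ
  have hk1 : κ ≤ κ₁ := hκ.trans ((min_le_left _ _).trans (min_le_left _ _))
  have hk2 : κ ≤ κ₂ := hκ.trans ((min_le_left _ _).trans (min_le_right _ _))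
  have hk3 : κ ≤ κ₃ := hκ.trans ((min_le_right _ _).trans (min_le_left _ _))
  have hk4 : κ ≤ h₄ := hκ.trans ((min_le_right _ _).trans ((min_le_right _ _).trans (min_le_left _ _)))
  have hk5 : κ ≤ 1 / 2 :=
    hκ.trans ((min_le_right _ _).trans ((min_le_right _ _).trans (min_le_right _ _)))
  have I : Ints N r := hints J k κ Ca N r hJ1 hk1 hF
  obtain ⟨iT, -⟩ := hid J k κ Ca N r hJ2 hk2 hF
  obtain ⟨-, hae, hz⟩ := hht J k κ Ca N r hJ3 hk3 hF
  have hgeo : Geo κ N.u := hF.geo hJ4 hk5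
  have hr : 0 < r := hF.r_pos
  have hr1 : r ≤ 1 := hF.r_le
  have hd0 : 0 < qd N r := hF.wt.d_pos
  have hκ0 : 0 ≤ κ := hF.κ_nonneg
  have hd1 : qd N r ≤ 1 := by
    have h1 : r ^ (k - 1) ≤ r := pow_le_of_le_one hr.le hr1 (by have := hF.k_ge; omega)
    have h2 : Ca * r ^ (k - 1) ≤ |Ca| * r :=
      mul_le_mul (le_abs_self _) h1 (by positivity) (abs_nonneg _)
    have h3 : |Ca| * r ≤ |Ca| * (1 / (|Ca| + 1)) := mul_le_mul_of_nonneg_left hr₀ (abs_nonneg _)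
    have h4 : |Ca| * (1 / (|Ca| + 1)) ≤ 1 := by
      rw [mul_one_div, div_le_one (by positivity)]
      linarith
    exact hF.wt.d_le.trans (h2.trans (h3.trans h4))
  have ha : 0 < (r ^ m)⁻¹ := by positivity
  set C := 1 + 2 * (((m + n : ℕ) : ℝ) * C₄) with hC
  have hpw : ∀ᵐ X ∂N.μ,
      psiR N.u r (npr N.u X) * ‖zz N.u X‖ ^ 2 * tdiv (N.W.P X) (fderiv ℝ (Vv N.u) X)
        ≤ (m + C * r) * (psiR N.u r (npr N.u X) * ‖zz N.u X‖ ^ 2) := by
    filter_upwards [hae, hz] with X hX hzX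
    obtain ⟨-, p0, -, off, -⟩ := flw_ker N.u hr (npr N.u X)
    by_cases hy : npr N.u X ∈ Bs N.u r
    · have hT : X ∈ Tub N.u h₄ := ⟨npr N.u X, lt_of_lt_of_le hX.2.2 (hF.h_le.trans hk4)⟩
      have hP := N.W.P_proj X
      have b := (hDV κ N.u hgeo).2 X hT
      have e : tdiv (N.W.P X) (fderiv ℝ (Vv N.u) X) = tdiv (N.W.P X) (Ph N.u (npr N.u X))
          + tdiv (N.W.P X) (fderiv ℝ (Vv N.u) X - Ph N.u (npr N.u X)) := by
        rw [← tdiv_add]; congr 1; abel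
      have t1 : tdiv (N.W.P X) (Ph N.u (npr N.u X)) + tilt N.u (N.W.P X) X = m := by
        unfold tilt Pv
        rw [← tdiv_add, ← tdiv_id hP]; congr 1; abel
      have t0 := tilt_nonneg N.u hP X
      have t2 := (le_abs_self _).trans (abs_tdiv_le hP (fderiv ℝ (Vv N.u) X - Ph N.u (npr N.u X)))
      have hz1 : ‖zz N.u X‖ ≤ r := (hzX hy).trans (by nlinarith)
      have hρr : rho N.u (npr N.u X) ≤ r := le_of_lt hy
      have hρ0 : 0 ≤ rho N.u (npr N.u X) := norm_nonneg _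
      have b2 : ‖fderiv ℝ (Vv N.u) X - Ph N.u (npr N.u X)‖ ≤ C₄ * (2 * r) := by
        refine b.trans ?_
        have h3 : C₄ * κ ≤ C₄ := by nlinarith [hgeo.le_one]
        exact mul_le_mul h3 (by linarith) (by positivity) hC₄.le
      have b3 : ((m + n : ℕ) : ℝ) * ‖fderiv ℝ (Vv N.u) X - Ph N.u (npr N.u X)‖
          ≤ ((m + n : ℕ) : ℝ) * (C₄ * (2 * r)) := mul_le_mul_of_nonneg_left b2 (Nat.cast_nonneg _)
      have t3 : tdiv (N.W.P X) (fderiv ℝ (Vv N.u) X) ≤ m + C * r := by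
        rw [e, hC]
        nlinarith
      have hw0 : 0 ≤ psiR N.u r (npr N.u X) * ‖zz N.u X‖ ^ 2 := mul_nonneg p0 (by positivity)
      calc psiR N.u r (npr N.u X) * ‖zz N.u X‖ ^ 2 * tdiv (N.W.P X) (fderiv ℝ (Vv N.u) X)
          ≤ psiR N.u r (npr N.u X) * ‖zz N.u X‖ ^ 2 * (m + C * r) :=
            mul_le_mul_of_nonneg_left t3 hw0
        _ = _ := by ring
    · rw [(off hy).2]
      simp
  have hint := integral_mono_ae iT (I.iZψ.const_mul (m + C * r)) hpw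
  rw [integral_const_mul] at hint
  unfold qZψ
  have := mul_le_mul_of_nonneg_left hint ha.le
  refine this.trans (le_of_eq ?_)
  ring

/-! ### differentiability in `τ = log r` -/

/-- `u ↦ (u₊)^p` is differentiable for `p ≥ 2`. -/
theorem dker_hasDerivAt_pos_pow (p : ℕ) (hp : 2 ≤ p) (u : ℝ) :
    HasDerivAt (fun u : ℝ => (max 0 u) ^ p) (p * (max 0 u) ^ (p - 1)) u := by
  rcases lt_trichotomy u 0 with h | h | h
  · have e : (fun u : ℝ => (max 0 u) ^ p) =ᶠ[nhds u] fun _ => 0 := by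
      filter_upwards [Iio_mem_nhds h] with v hv
      rw [max_eq_left (le_of_lt hv), zero_pow (by omega)]
    rw [max_eq_left h.le, zero_pow (by omega), mul_zero]
    exact (hasDerivAt_const u (0 : ℝ)).congr_of_eventuallyEq e
  · subst h
    rw [max_self, zero_pow (by omega), mul_zero, hasDerivAt_iff_isLittleO_nhds_zero]
    simp only [zero_add, max_self, smul_zero, sub_zero]
    rw [zero_pow (by omega)]
    simp only [sub_zero]
    have hO : (fun h : ℝ => (max 0 h) ^ p) =O[nhds 0] fun h => ‖h‖ ^ p := by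
      refine Asymptotics.IsBigO.of_bound 1 (Filter.Eventually.of_forall fun h => ?_)
      rw [one_mul, norm_pow, norm_pow, norm_norm]
      apply pow_le_pow_left₀ (norm_nonneg _)
      rw [Real.norm_of_nonneg (le_max_left _ _), Real.norm_eq_abs]
      exact max_le (abs_nonneg _) (le_abs_self _)
    exact hO.trans_isLittleO (Asymptotics.isLittleO_norm_pow_id (E' := ℝ) (n := p) (by omega))
  · have e : (fun u : ℝ => (max 0 u) ^ p) =ᶠ[nhds u] fun u => u ^ p := by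
      filter_upwards [Ioi_mem_nhds h] with v hv
      rw [max_eq_right (le_of_lt hv)]
    rw [max_eq_right h.le]
    exact (hasDerivAt_pow p u).congr_of_eventuallyEq e

/-- differentiation of a kernel integral (leaf `L-Freq-der-ker`; Mathlib only).
PLAN.  `hasDerivAt_integral_of_dominated_loc_of_deriv_le` on a neighbourhood `|t - τ| < 1`; the integrand is
`(max 0 (1 - σ e^{-2t}))^p f`, its `t`-derivative `2 p σ e^{-2t} (max 0 (1 - σ e^{-2t}))^(p-1) f` is bounded by `2 p |f|` (where it does not vanish,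
`σ e^{-2t} ≤ 1`). -/
theorem hasDerivAt_ker {α : Type*} [MeasurableSpace α] (μ : Measure α) (σ f : α → ℝ) (p : ℕ) (hp : 2 ≤ p)
    (hσ : AEStronglyMeasurable σ μ) (hσ0 : ∀ x, 0 ≤ σ x) (hf : Integrable f μ) (τ : ℝ) :
    HasDerivAt (fun t : ℝ => ∫ x, (max 0 (1 - σ x / Real.exp t ^ 2)) ^ p * f x ∂μ)
      (∫ x, (2 * p * (max 0 (1 - σ x / Real.exp τ ^ 2)) ^ (p - 1) * (σ x / Real.exp τ ^ 2)) * f x ∂μ) τ := by
  have hmeas : ∀ (t : ℝ) (q : ℕ),
      AEStronglyMeasurable (fun x => (max 0 (1 - σ x / Real.exp t ^ 2)) ^ q) μ := by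
    intro t q
    have hc : Continuous fun s : ℝ => (max 0 (1 - s / Real.exp t ^ 2)) ^ q := by fun_prop
    exact hc.comp_aestronglyMeasurable hσ
  have h01 : ∀ (t : ℝ) (x : α), 0 ≤ max 0 (1 - σ x / Real.exp t ^ 2) ∧
      max 0 (1 - σ x / Real.exp t ^ 2) ≤ 1 := by
    intro t x
    refine ⟨le_max_left _ _, max_le zero_le_one ?_⟩
    have : 0 ≤ σ x / Real.exp t ^ 2 := div_nonneg (hσ0 x) (by positivity)
    linarith
  refine (hasDerivAt_integral_of_dominated_loc_of_deriv_le (μ := μ)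
    (F := fun t x => (max 0 (1 - σ x / Real.exp t ^ 2)) ^ p * f x)
    (F' := fun t x => (2 * p * (max 0 (1 - σ x / Real.exp t ^ 2)) ^ (p - 1)
      * (σ x / Real.exp t ^ 2)) * f x)
    (bound := fun x => 2 * p * ‖f x‖) (s := Set.univ) Filter.univ_mem
    (Filter.Eventually.of_forall fun t => (hmeas t p).mul hf.aestronglyMeasurable) ?_ ?_ ?_ ?_ ?_).2
  · refine hf.mono ((hmeas τ p).mul hf.aestronglyMeasurable) (Filter.Eventually.of_forall fun x => ?_)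
    rw [norm_mul]
    apply mul_le_of_le_one_left (norm_nonneg _)
    rw [Real.norm_of_nonneg (pow_nonneg (h01 τ x).1 _)]
    exact pow_le_one₀ (h01 τ x).1 (h01 τ x).2
  · have hc : Continuous fun s : ℝ => 2 * (p : ℝ) * (max 0 (1 - s / Real.exp τ ^ 2)) ^ (p - 1)
        * (s / Real.exp τ ^ 2) := by fun_prop
    exact (hc.comp_aestronglyMeasurable hσ).mul hf.aestronglyMeasurable
  · refine Filter.Eventually.of_forall fun x t _ => ?_
    rw [norm_mul]
    apply mul_le_mul_of_nonneg_right _ (norm_nonneg _)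
    have hq : 0 ≤ σ x / Real.exp t ^ 2 := div_nonneg (hσ0 x) (by positivity)
    rw [Real.norm_of_nonneg (mul_nonneg (mul_nonneg (by positivity)
      (pow_nonneg (h01 t x).1 _)) hq), mul_assoc]
    apply mul_le_of_le_one_right (by positivity)
    by_cases hc : σ x / Real.exp t ^ 2 ≤ 1
    · exact mul_le_one₀ (pow_le_one₀ (h01 t x).1 (h01 t x).2) hq hc
    · rw [max_eq_left (by linarith), zero_pow (by omega), zero_mul]
      exact zero_le_one
  · exact hf.norm.const_mul _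
  · refine Filter.Eventually.of_forall fun x t _ => ?_
    have hg : HasDerivAt (fun t : ℝ => 1 - σ x / Real.exp t ^ 2) (2 * (σ x / Real.exp t ^ 2)) t := by
      have h1 : HasDerivAt (fun t : ℝ => Real.exp t ^ 2) (2 * Real.exp t * Real.exp t) t := by
        have := (Real.hasDerivAt_exp t).fun_pow 2
        simpa using this
      have h2 := ((hasDerivAt_const t (σ x)).div h1 (by positivity)).const_sub 1
      have e : 2 * (σ x / Real.exp t ^ 2)
          = -((0 * Real.exp t ^ 2 - σ x * (2 * Real.exp t * Real.exp t)) / (Real.exp t ^ 2) ^ 2) := by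
        have := (Real.exp_pos t).ne'
        field_simp
        ring
      rw [e]
      exact h2
    have h3 := (dker_hasDerivAt_pos_pow p hp (1 - σ x / Real.exp t ^ 2)).comp t hg
    have h4 := h3.mul_const (f x)
    have e : (2 * p * (max 0 (1 - σ x / Real.exp t ^ 2)) ^ (p - 1) * (σ x / Real.exp t ^ 2)) * f x
        = (p * (max 0 (1 - σ x / Real.exp t ^ 2)) ^ (p - 1) * (2 * (σ x / Real.exp t ^ 2))) * f x := by
      ring
    rw [e]
    exact h4

/-- the kernels vanish outside `closedBall 0 3` for radii `≤ 3` -/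
theorem der_dep_off {κ : ℝ} {u : E m → E n} (hu : Geo κ u) {t : ℝ} (ht : Real.exp t ≤ 3) {y : E m}
    (hy : y ∉ Metric.closedBall (0 : E m) 3) : max 0 (1 - rho u y ^ 2 / Real.exp t ^ 2) = 0 := by
  obtain ⟨-, koff, -, -, -, -, -, -, kB, -, -⟩ := ker_facts hu (Real.exp_pos t)
  exact koff y fun h => hy
    (Metric.closedBall_subset_closedBall ht (Metric.ball_subset_closedBall (kB h)))

theorem der_exp_lt {τ : ℝ} (hτ : Real.exp τ < 2) : ∀ᶠ t in nhds τ, Real.exp t ≤ 3 := by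
  have : ∀ᶠ t in nhds τ, Real.exp t < 3 :=
    Real.continuous_exp.continuousAt.eventually_lt continuousAt_const (by linarith)
  exact this.mono fun _ h => h.le

/-- derivative of `∫ φ_r dμ'` in `log r` for a measure on the base which is finite on `closedBall 0 3` -/
theorem der_base {κ : ℝ} {u : E m → E n} (hu : Geo κ u) (μ' : Measure (E m))
    (hfin : μ' (Metric.closedBall 0 3) < ⊤) (τ : ℝ) (hτ : Real.exp τ < 2) :
    HasDerivAt (fun t => ∫ y, phiR u (Real.exp t) y ∂μ')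
      ((Real.exp τ ^ 2)⁻¹ * ∫ y, psiR u (Real.exp τ) y * rho u y ^ 2 ∂μ') τ := by
  have cρ : Continuous (fun y => rho u y ^ 2) := (hasFDerivAt_rho_sq hu 0).2.continuous
  have : IsFiniteMeasure (μ'.restrict (Metric.closedBall 0 3)) :=
    ⟨by rw [Measure.restrict_apply_univ]; exact hfin⟩
  have key := hasDerivAt_ker (μ'.restrict (Metric.closedBall 0 3)) (fun y => rho u y ^ 2) (fun _ => 1) 10
    (by norm_num) cρ.aestronglyMeasurable (fun y => by positivity) (integrable_const _) τ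
  have e1 : (fun t => ∫ y, phiR u (Real.exp t) y ∂μ') =ᶠ[nhds τ]
      fun t => ∫ x in Metric.closedBall (0 : E m) 3,
        (max 0 (1 - rho u x ^ 2 / Real.exp t ^ 2)) ^ 10 * 1 ∂μ' := by
    filter_upwards [der_exp_lt hτ] with t ht
    rw [setIntegral_eq_integral_of_forall_compl_eq_zero]
    · simp only [phiR, dep, mul_one]
    · intro y hy
      rw [der_dep_off hu ht hy]; simp
  refine (key.congr_of_eventuallyEq e1).congr_deriv ?_
  rw [setIntegral_eq_integral_of_forall_compl_eq_zero, ← integral_const_mul]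
  · refine integral_congr_ae (Filter.Eventually.of_forall fun y => ?_)
    simp only [psiR, dep]
    push_cast
    ring
  · intro y hy
    rw [der_dep_off hu (by linarith) hy]; simp

theorem der_pow_inv (m : ℕ) (τ : ℝ) :
    HasDerivAt (fun t : ℝ => (Real.exp t ^ m)⁻¹) (-(m : ℝ) * (Real.exp τ ^ m)⁻¹) τ := by
  have e : ∀ t : ℝ, (Real.exp t ^ m)⁻¹ = Real.exp (-(m * t)) := fun t => by
    rw [Real.exp_neg, Real.exp_nat_mul]
  have h0 : HasDerivAt (fun t : ℝ => -((m : ℝ) * t)) (-((m : ℝ) * 1)) τ :=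
    ((hasDerivAt_id τ).const_mul (m : ℝ)).neg
  have h := h0.exp
  simp only [e]
  exact h.congr_deriv (by ring)

/-- **`A` is differentiable in `log r`** (leaf `L-Freq-der-A`).
PLAN.  `hasDerivAt_ker` with `p = 10` for the measures `ν` and `volS` restricted to `closedBall 0 3` (finite: `Tube.cyl_carrier`), `σ = ρ²`, `f = 1`; product
rule with `e^{(2-m) t}`. -/
theorem deriv_A (m n : ℕ) : ∃ h₀ : ℝ, 0 < h₀ ∧ ∀ (κ : ℝ) (N : NCyl m n), Geo κ N.u → N.h ≤ h₀ → N.Ω = Metric.ball 0 4 →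
    ∀ τ : ℝ, Real.exp τ < 2 → HasDerivAt (fun t => qA N (Real.exp t)) (qA' N (Real.exp τ)) τ := by
  obtain ⟨h₀, hh₀, H⟩ := Lin.exists_cylOK m n
  obtain ⟨Cv, -, hCv⟩ := Lin.exists_vdens_bound m n
  refine ⟨h₀, hh₀, ?_⟩
  intro κ N hu hh hΩ τ hτ
  have ok := H κ N hu hh
  have hK : Metric.closedBall (0 : E m) 3 ⊆ N.Ω := by
    rw [hΩ]; exact Metric.closedBall_subset_ball (by norm_num)
  have f1 : N.nu (Metric.closedBall 0 3) < ⊤ := by
    rw [ok.nu_apply Metric.isClosed_closedBall.measurableSet]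
    exact ok.fin _ (isCompact_closedBall _ _) hK
  have f2 : N.volS (Metric.closedBall 0 3) < ⊤ := by
    refine (Lin.volS_le N (Cv := Cv) (fun y => hCv _ ((hu.slope y).trans (by norm_num))) _).trans_lt ?_
    rw [hΩ, hausdorff_ball m 0 (by norm_num)]
    exact ENNReal.mul_lt_top ENNReal.ofReal_lt_top ENNReal.ofReal_lt_top
  have d1 := der_base hu N.nu f1 τ hτ
  have d2 := der_base hu N.volS f2 τ hτ
  have d3 : HasDerivAt (fun t => N.intM (phiR N.u (Real.exp t)))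
      ((Real.exp τ ^ 2)⁻¹ * N.intM (fun y => psiR N.u (Real.exp τ) y * rho N.u y ^ 2)) τ := by
    have h : HasDerivAt (fun t => ∫ y, phiR N.u (Real.exp t) y ∂N.nu
          - N.Q * ∫ y, phiR N.u (Real.exp t) y ∂N.volS)
        ((Real.exp τ ^ 2)⁻¹ * ∫ y, psiR N.u (Real.exp τ) y * rho N.u y ^ 2 ∂N.nu
          - N.Q * ((Real.exp τ ^ 2)⁻¹ * ∫ y, psiR N.u (Real.exp τ) y * rho N.u y ^ 2 ∂N.volS)) τ :=
      d1.sub (d2.const_mul (N.Q : ℝ))
    exact h.congr_deriv (by unfold NCyl.intM; ring)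
  have d4 : HasDerivAt (fun t : ℝ => Real.exp t ^ 2 * (Real.exp t ^ m)⁻¹)
      ((2 - (m : ℝ)) * (Real.exp τ ^ 2 * (Real.exp τ ^ m)⁻¹)) τ := by
    have h : HasDerivAt (fun t : ℝ => Real.exp t ^ 2 * (Real.exp t ^ m)⁻¹)
        (((2 : ℕ) : ℝ) * Real.exp τ ^ (2 - 1) * Real.exp τ * (Real.exp τ ^ m)⁻¹
          + Real.exp τ ^ 2 * (-(m : ℝ) * (Real.exp τ ^ m)⁻¹)) τ :=
      ((Real.hasDerivAt_exp τ).pow 2).mul (der_pow_inv m τ)
    exact h.congr_deriv (by push_cast; ring)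
  have d5 : HasDerivAt (fun t => Real.exp t ^ 2 * (Real.exp t ^ m)⁻¹ * N.intM (phiR N.u (Real.exp t)))
      ((2 - (m : ℝ)) * (Real.exp τ ^ 2 * (Real.exp τ ^ m)⁻¹) * N.intM (phiR N.u (Real.exp τ))
        + Real.exp τ ^ 2 * (Real.exp τ ^ m)⁻¹
          * ((Real.exp τ ^ 2)⁻¹ * N.intM (fun y => psiR N.u (Real.exp τ) y * rho N.u y ^ 2))) τ :=
    d4.mul d3
  have hne : Real.exp τ ≠ 0 := (Real.exp_pos τ).ne'
  refine d5.congr_deriv ?_
  unfold qA' qA
  field_simp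

/-- **`H` is differentiable in `log r`** (leaf `L-Freq-der-H`).  PLAN.  `hasDerivAt_ker` with `p = 9`, `f = 20 |z|² hwt` on `{npr ∈ closedBall 0 3}`. -/
theorem deriv_H (m n : ℕ) : ∃ h₀ : ℝ, 0 < h₀ ∧ ∀ (κ : ℝ) (N : NCyl m n), Geo κ N.u → N.h ≤ h₀ → N.Ω = Metric.ball 0 4 →
    ∀ τ : ℝ, Real.exp τ < 2 → HasDerivAt (fun t => qH N (Real.exp t)) (qH' N (Real.exp τ)) τ := by
  obtain ⟨h₀, hh₀, H⟩ := Lin.exists_cylOK m n
  refine ⟨min h₀ (2 / 9), lt_min hh₀ (by norm_num), ?_⟩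
  intro κ N hu hh hΩ τ hτ
  have ok := H κ N hu (hh.trans (min_le_left _ _))
  have OK : FrOK κ N := ⟨hu, ok, fun X hX =>
    ⟨npr N.u X, hX.2.trans_le (hh.trans (min_le_right _ _))⟩⟩
  have M := OK.meas
  have hK : Metric.closedBall (0 : E m) 3 ⊆ N.Ω := by
    rw [hΩ]; exact Metric.closedBall_subset_ball (by norm_num)
  have fS : N.μ {X | npr N.u X ∈ Metric.closedBall (0 : E m) 3} < ⊤ :=
    ok.fin _ (isCompact_closedBall _ _) hK
  have cρ : Continuous (fun y => rho N.u y ^ 2) := (hasFDerivAt_rho_sq hu 0).2.continuous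
  have mρX : AEStronglyMeasurable (fun X => rho N.u (npr N.u X) ^ 2) N.μ := M.mComp _ cρ.measurable
  have mhwt : AEStronglyMeasurable (fun X => hwt N.u (N.W.P X) X) N.μ := by
    unfold hwt
    exact ((M.mPV.norm.aemeasurable.pow_const 2).div mρX.aemeasurable).aestronglyMeasurable
  have mf : AEStronglyMeasurable (fun X => 20 * (‖zz N.u X‖ ^ 2 * hwt N.u (N.W.P X) X)) N.μ :=
    ((M.mZz.norm.pow 2).mul mhwt).const_mul 20
  have bf : ∀ᵐ X ∂N.μ, ‖20 * (‖zz N.u X‖ ^ 2 * hwt N.u (N.W.P X) X)‖ ≤ 20 * (N.h ^ 2 * 4) := by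
    filter_upwards [ok.ae_cyl] with X hX
    obtain ⟨-, -, -, h1, h2, -, -, -⟩ := proj_facts_of_le hu (OK.tub hX) (N.W.P_proj X)
    have h3 : ‖zz N.u X‖ ^ 2 ≤ N.h ^ 2 := pow_le_pow_left₀ (norm_nonneg _) hX.2.le 2
    rw [Real.norm_of_nonneg (by positivity)]
    exact mul_le_mul_of_nonneg_left (mul_le_mul h3 h2 h1 (by positivity)) (by norm_num)
  have iF : Integrable (fun X => 20 * (‖zz N.u X‖ ^ 2 * hwt N.u (N.W.P X) X))
      (N.μ.restrict {X | npr N.u X ∈ Metric.closedBall (0 : E m) 3}) :=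
    Measure.integrableOn_of_bounded (M := 20 * (N.h ^ 2 * 4)) fS.ne mf (ae_restrict_of_ae bf)
  have key := hasDerivAt_ker (N.μ.restrict {X | npr N.u X ∈ Metric.closedBall (0 : E m) 3})
    (fun X => rho N.u (npr N.u X) ^ 2) (fun X => 20 * (‖zz N.u X‖ ^ 2 * hwt N.u (N.W.P X) X)) 9
    (by norm_num) mρX.restrict (fun y => by positivity) iF τ
  have e1 : (fun t => ∫ X, psiR N.u (Real.exp t) (npr N.u X) * ‖zz N.u X‖ ^ 2
        * hwt N.u (N.W.P X) X ∂N.μ) =ᶠ[nhds τ]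
      fun t => ∫ X in {X | npr N.u X ∈ Metric.closedBall (0 : E m) 3},
        (max 0 (1 - rho N.u (npr N.u X) ^ 2 / Real.exp t ^ 2)) ^ 9
          * (20 * (‖zz N.u X‖ ^ 2 * hwt N.u (N.W.P X) X)) ∂N.μ := by
    filter_upwards [der_exp_lt hτ] with t ht
    rw [setIntegral_eq_integral_of_forall_compl_eq_zero]
    · refine integral_congr_ae (Filter.Eventually.of_forall fun X => ?_)
      simp only [psiR, dep]
      ring
    · intro X hX
      rw [der_dep_off hu ht hX]; simp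
  have d3 : HasDerivAt (fun t => ∫ X, psiR N.u (Real.exp t) (npr N.u X) * ‖zz N.u X‖ ^ 2
        * hwt N.u (N.W.P X) X ∂N.μ)
      (∫ X, chiR N.u (Real.exp τ) (npr N.u X) * ‖zz N.u X‖ ^ 2 * hwt N.u (N.W.P X) X ∂N.μ) τ := by
    refine (key.congr_of_eventuallyEq e1).congr_deriv ?_
    rw [setIntegral_eq_integral_of_forall_compl_eq_zero]
    · refine integral_congr_ae (Filter.Eventually.of_forall fun X => ?_)
      simp only [chiR, dep]
      push_cast
      ring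
    · intro X hX
      rw [der_dep_off hu (by linarith) hX]; simp
  have d5 : HasDerivAt (fun t => (Real.exp t ^ m)⁻¹ * ∫ X, psiR N.u (Real.exp t) (npr N.u X)
        * ‖zz N.u X‖ ^ 2 * hwt N.u (N.W.P X) X ∂N.μ)
      (-(m : ℝ) * (Real.exp τ ^ m)⁻¹ * (∫ X, psiR N.u (Real.exp τ) (npr N.u X)
        * ‖zz N.u X‖ ^ 2 * hwt N.u (N.W.P X) X ∂N.μ) + (Real.exp τ ^ m)⁻¹
        * ∫ X, chiR N.u (Real.exp τ) (npr N.u X) * ‖zz N.u X‖ ^ 2 * hwt N.u (N.W.P X) X ∂N.μ) τ :=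
    (der_pow_inv m τ).mul d3
  refine d5.congr_deriv ?_
  unfold qH' qH
  ring

end Claimed.Agent.R322.Freq
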