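import Claimed.Agent.R322.Pack046

/-!
# CO Lemma 4.3: the radial field on the base (leaves `L-Freq-hor-base`, `-C1`, `-divtr`, `-field`)

`p = F y - F 0`, `G = P_h p`, `N = P_v p`, `w = |G|²/ρ²`, `Xg = T⁺ G`, `Xr = w⁻¹ Xg`.
-/

set_option autoImplicit false

open scoped ENNReal ContDiff Topology
open MeasureTheory Filter

namespace Claimed.Agent.R322.Freq

open Claimed.Agent.R322.Tube

local notation "𝟙" => ContinuousLinearMap.id ℝ _

variable {m n : ℕ} {u : E m → E n} {κ : ℝ}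

/-! ### a removable singularity -/

theorem hasFDerivAt_zero_of_sq_bound {k : ℕ} {f : E m → E k} {C : ℝ}
    (h2 : ∀ y, ‖y‖ ≤ 1 → ‖f y‖ ≤ C * ‖y‖ ^ 2) : HasFDerivAt f (0 : E m →L[ℝ] E k) 0 := by
  have h1 : f =O[𝓝 (0 : E m)] fun y => ‖y - 0‖ ^ 2 := by
    refine Asymptotics.IsBigO.of_bound C ?_
    filter_upwards [Metric.closedBall_mem_nhds (0 : E m) one_pos] with y hy
    rw [Metric.mem_closedBall, dist_zero_right] at hy
    rw [sub_zero, Real.norm_eq_abs, abs_of_nonneg (by positivity)]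
    exact h2 y hy
  exact h1.hasFDerivAt (by norm_num)

theorem contDiff_one_of_removable_local {k : ℕ} (f : E m → E k) (C : ℝ)
    (h1 : ∀ y, y ≠ 0 → ContDiffAt ℝ 1 f y) (h2 : ∀ y, ‖y‖ ≤ 1 → ‖f y‖ ≤ C * ‖y‖ ^ 2)
    (h3 : ∀ y, y ≠ 0 → ‖y‖ ≤ 1 → ‖fderiv ℝ f y‖ ≤ C * ‖y‖) : ContDiff ℝ 1 f := by
  have h0 := hasFDerivAt_zero_of_sq_bound h2
  rw [contDiff_one_iff_fderiv]
  refine ⟨fun y => ?_, continuous_iff_continuousAt.2 fun y => ?_⟩
  · by_cases hy : y = 0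
    · rw [hy]; exact h0.differentiableAt
    · exact (h1 y hy).differentiableAt (by norm_num)
  · by_cases hy : y = 0
    · rw [hy, ContinuousAt, h0.fderiv, tendsto_zero_iff_norm_tendsto_zero]
      have ht : Tendsto (fun y : E m => C * ‖y‖) (𝓝 0) (𝓝 0) := by
        have : Tendsto (fun y : E m => C * ‖y‖) (𝓝 0) (𝓝 (C * ‖(0 : E m)‖)) :=
          (continuous_const.mul continuous_norm).tendsto 0
        simpa using this
      refine squeeze_zero' (Eventually.of_forall fun _ => norm_nonneg _) ?_ ht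
      filter_upwards [Metric.closedBall_mem_nhds (0 : E m) one_pos] with y' hy'
      rw [Metric.mem_closedBall, dist_zero_right] at hy'
      by_cases hy0 : y' = 0
      · rw [hy0, h0.fderiv]; simp
      · exact h3 y' hy0 hy'
    · exact ((h1 y hy).fderiv_right (m := 0) (by norm_num)).continuousAt

/-! ### derivatives on the base -/

theorem hasFDerivAt_Nv (hu : Geo κ u) (y : E m) :
    HasFDerivAt (Nv u) (-R0op u y (Fg u y - Fg u 0)) y := by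
  have h1 := (hasFDerivAt_Pv hu.c2 y).clm_apply
    ((hasFDerivAt_Fg (y := y) (hu.differentiable y)).sub_const (Fg u 0))
  refine h1.congr_fderiv ?_
  rw [Pv_comp_dF, zero_add]
  rfl

theorem contDiff_Nv (hu : Geo κ u) : ContDiff ℝ 3 (Nv u) :=
  (contDiff_Pv_of (k := 3) (by exact_mod_cast hu.smooth)).clm_apply
    ((contDiff_Fg_of (hu.smooth.of_le (by norm_num))).sub contDiff_const)

theorem rho_pos (hu : Geo κ u) {y : E m} (hy : y ≠ 0) : 0 < rho u y :=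
  lt_of_lt_of_le (norm_pos_iff.2 hy) ((rho_facts hu).2.1 y).1

theorem norm_Nv_le (hu : Geo κ u) (y : E m) : ‖Nv u y‖ ≤ κ * rho u y ^ 2 / 2 := by
  have h1 := (Gv_facts hu y).2.2.1
  have h2 := ((rho_facts hu).2.1 y).1
  have h3 : ‖y‖ ^ 2 ≤ rho u y ^ 2 := by gcongr
  have := hu.nonneg
  nlinarith

theorem norm_innerSL_comp_le {a b : ℕ} (v : E b) (L : E a →L[ℝ] E b) {x y : ℝ} (hv : ‖v‖ ≤ x)
    (hL : ‖L‖ ≤ y) : ‖innerSL ℝ v ∘L L‖ ≤ x * y := by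
  refine (ContinuousLinearMap.opNorm_comp_le _ _).trans ?_
  rw [innerSL_apply_norm]
  exact mul_le_mul hv hL (norm_nonneg _) ((norm_nonneg _).trans hv)

/-- the derivative of `w`. -/
theorem hasFDerivAt_ww (hu : Geo κ u) {y : E m} (hy : y ≠ 0) :
    HasFDerivAt (ww u)
      ((‖Nv u y‖ ^ 2 / (rho u y ^ 2) ^ 2) •
          ((2 : ℝ) • (innerSL ℝ (Gv u y) ∘L dF (fderiv ℝ u y)))
        - (rho u y ^ 2)⁻¹ •
          ((2 : ℝ) • (innerSL ℝ (Nv u y) ∘L (-R0op u y (Fg u y - Fg u 0))))) y := by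
  have hρ := rho_pos hu hy
  have hg := (hasFDerivAt_rho_sq hu y).1
  have hf := (hasFDerivAt_Nv hu y).norm_sq
  have hγ : HasFDerivAt (fun y => ‖Gv u y‖ ^ 2) _ y := hg.sub hf
    |>.congr_of_eventuallyEq (Eventually.of_forall fun y' => by
      have := (Gv_facts hu y').1
      simp only [Pi.sub_apply]
      linarith)
  have hinv : HasFDerivAt (fun y => (rho u y ^ 2)⁻¹) _ y :=
    (hasDerivAt_inv (pow_pos hρ 2).ne').comp_hasFDerivAt y hg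
  have hw := hγ.mul hinv
  have e0 : ((fun y => ‖Gv u y‖ ^ 2) * fun y => (rho u y ^ 2)⁻¹) = ww u := by
    funext y'
    rw [ww, div_eq_mul_inv]
    rfl
  rw [e0] at hw
  refine hw.congr_fderiv ?_
  have h1 := (Gv_facts hu y).1
  set g' := (2 : ℝ) • (innerSL ℝ (Gv u y) ∘L dF (fderiv ℝ u y)) with hg'
  set f' := (2 : ℕ) • (innerSL ℝ (Nv u y) ∘L (-R0op u y (Fg u y - Fg u 0))) with hf'
  have e1 : (2 : ℝ) • (innerSL ℝ (Nv u y) ∘L (-R0op u y (Fg u y - Fg u 0))) = f' := by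
    rw [hf', two_smul, two_nsmul]
  rw [e1]
  have e2 : ‖Gv u y‖ ^ 2 = rho u y ^ 2 - ‖Nv u y‖ ^ 2 := by linarith
  rw [e2]
  set r2 := rho u y ^ 2 with hr2
  have hr2pos : 0 < r2 := pow_pos hρ 2
  ext α
  simp only [add_apply, sub_apply, smul_apply, smul_eq_mul]
  field_simp
  ring

theorem norm_fderiv_ww_le (hu : Geo κ u) {y : E m} (hy : y ≠ 0) :
    ‖fderiv ℝ (ww u) y‖ ≤ 4 * κ ^ 2 * rho u y := by
  rw [(hasFDerivAt_ww hu hy).fderiv]
  have hρ := rho_pos hu hy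
  have hκ := hu.nonneg
  have hN := norm_Nv_le hu y
  have hN0 := norm_nonneg (Nv u y)
  have b1 : ‖innerSL ℝ (Gv u y) ∘L dF (fderiv ℝ u y)‖ ≤ rho u y * (3 / 2) :=
    norm_innerSL_comp_le _ _ (norm_Gv_le u y) (hu.norm_dF_le y)
  have b2 : ‖innerSL ℝ (Nv u y) ∘L (-R0op u y (Fg u y - Fg u 0))‖
      ≤ (κ * rho u y ^ 2 / 2) * (3 * κ * rho u y) :=
    norm_innerSL_comp_le _ _ hN (by rw [norm_neg]; exact hu.norm_R0op_le _ _)
  refine (norm_sub_le _ _).trans ?_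
  rw [norm_smul, norm_smul, norm_smul, norm_smul, Real.norm_eq_abs, Real.norm_eq_abs,
    Real.norm_eq_abs, abs_of_nonneg (by positivity : (0 : ℝ) ≤ ‖Nv u y‖ ^ 2 / (rho u y ^ 2) ^ 2),
    abs_of_nonneg (by positivity : (0 : ℝ) ≤ 2),
    abs_of_nonneg (by positivity : (0 : ℝ) ≤ (rho u y ^ 2)⁻¹)]
  have c1 : ‖Nv u y‖ ^ 2 / (rho u y ^ 2) ^ 2 ≤ κ ^ 2 / 4 := by
    rw [div_le_iff₀ (by positivity)]
    have : ‖Nv u y‖ ^ 2 ≤ (κ * rho u y ^ 2 / 2) ^ 2 := by gcongr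
    nlinarith
  calc ‖Nv u y‖ ^ 2 / (rho u y ^ 2) ^ 2 * (2 * ‖innerSL ℝ (Gv u y) ∘L dF (fderiv ℝ u y)‖)
        + (rho u y ^ 2)⁻¹ * (2 * ‖innerSL ℝ (Nv u y) ∘L (-R0op u y (Fg u y - Fg u 0))‖)
      ≤ κ ^ 2 / 4 * (2 * (rho u y * (3 / 2)))
        + (rho u y ^ 2)⁻¹ * (2 * ((κ * rho u y ^ 2 / 2) * (3 * κ * rho u y))) := by gcongr
    _ = 15 / 4 * κ ^ 2 * rho u y := by
        field_simp
        ring
    _ ≤ 4 * κ ^ 2 * rho u y := by nlinarith [mul_nonneg (sq_nonneg κ) hρ.le]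

theorem contDiffAt_ww (hu : Geo κ u) {y : E m} (hy : y ≠ 0) : ContDiffAt ℝ 3 (ww u) y := by
  have h1 : ContDiffAt ℝ 3 (fun y => ‖Gv u y‖ ^ 2) y := ((contDiff_Gv hu).norm_sq ℝ).contDiffAt
  have h2 : ContDiffAt ℝ 3 (fun y => rho u y ^ 2) y :=
    ((hasFDerivAt_rho_sq hu y).2.of_le (by norm_num)).contDiffAt
  exact h1.div h2 (pow_pos (rho_pos hu hy) 2).ne'

theorem norm_fderiv_Ph_le (hu : Geo κ u) (y : E m) : ‖fderiv ℝ (Ph u) y‖ ≤ 3 * κ :=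
  ContinuousLinearMap.opNorm_le_bound _ (mul_nonneg (by norm_num) hu.nonneg)
    fun α => hu.norm_dPh_le y α

/-- leaf `L-Freq-hor-base`. -/
theorem base_deriv_aux (m n : ℕ) : ∃ C : ℝ, 0 < C ∧ ∀ (κ : ℝ) (u : E m → E n), Geo κ u →
    ContDiff ℝ 3 (Gv u) ∧ ContDiff ℝ 3 (Ph u) ∧ (∀ y, ‖fderiv ℝ (Ph u) y‖ ≤ C * κ) ∧
    (∀ y α, fderiv ℝ (Gv u) y α
      = fderiv ℝ (Ph u) y α (Fg u y - Fg u 0) + dF (fderiv ℝ u y) α) ∧
    (∀ y, y ≠ 0 → ContDiffAt ℝ 3 (ww u) y ∧ ‖fderiv ℝ (ww u) y‖ ≤ C * κ ^ 2 * rho u y) :=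
  ⟨4, by norm_num, fun κ u hu =>
    ⟨contDiff_Gv hu, contDiff_Ph_of (k := 3) (by exact_mod_cast hu.smooth),
      fun y => (norm_fderiv_Ph_le hu y).trans (by linarith [hu.nonneg]),
      fun y α => by rw [(hasFDerivAt_Gv hu y).fderiv]; rfl,
      fun y hy => ⟨contDiffAt_ww hu hy, norm_fderiv_ww_le hu hy⟩⟩⟩

/-! ### the radial field -/

/-- chart components of the radial field `X₀ = G / w` -/
noncomputable def Xr (u : E m → E n) (y : E m) : E m := (ww u y)⁻¹ • dFp (fderiv ℝ u y) (Gv u y)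

/-- chart components of `G`. -/
noncomputable def Xg (u : E m → E n) (y : E m) : E m := dFp (fderiv ℝ u y) (Gv u y)

theorem winv_facts (hu : Geo κ u) {y : E m} (hy : y ≠ 0) :
    0 ≤ (ww u y)⁻¹ - 1 ∧ (ww u y)⁻¹ - 1 ≤ κ ^ 2 * rho u y ^ 2 ∧ (ww u y)⁻¹ ≤ 4 ∧
      0 < ww u y := by
  obtain ⟨h1, h2, h3⟩ := (Gv_facts hu y).2.2.2.2.2.2 hy
  have hw : 0 < ww u y := by linarith
  have e1 : (ww u y)⁻¹ - 1 = (1 - ww u y) / ww u y := by field_simp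
  refine ⟨?_, ?_, ?_, hw⟩
  · rw [e1]; exact div_nonneg (by linarith) hw.le
  · rw [e1, div_le_iff₀ hw]
    nlinarith [mul_nonneg (sq_nonneg κ) (sq_nonneg (rho u y))]
  · rw [inv_le_comm₀ hw (by norm_num)]
    linarith

theorem hasFDerivAt_winv (hu : Geo κ u) {y : E m} (hy : y ≠ 0) :
    HasFDerivAt (fun y => (ww u y)⁻¹) ((-(ww u y ^ 2)⁻¹) • fderiv ℝ (ww u) y) y :=
  (hasDerivAt_inv (winv_facts hu hy).2.2.2.ne').comp_hasFDerivAt y
    ((hasFDerivAt_ww hu hy).differentiableAt.hasFDerivAt)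

theorem norm_fderiv_winv_le (hu : Geo κ u) {y : E m} (hy : y ≠ 0) :
    ‖(-(ww u y ^ 2)⁻¹) • fderiv ℝ (ww u) y‖ ≤ 64 * κ ^ 2 * rho u y := by
  obtain ⟨-, -, h3, hw⟩ := winv_facts hu hy
  rw [norm_smul, norm_neg, Real.norm_eq_abs, abs_of_nonneg (by positivity), ← inv_pow]
  have h4 := norm_fderiv_ww_le hu hy
  have h5 : (ww u y)⁻¹ ^ 2 ≤ 4 ^ 2 := by
    have : 0 ≤ (ww u y)⁻¹ := by positivity
    gcongr
  have hρ := rho_nonneg u y
  calc (ww u y)⁻¹ ^ 2 * ‖fderiv ℝ (ww u) y‖ ≤ 4 ^ 2 * (4 * κ ^ 2 * rho u y) := by gcongr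
    _ = 64 * κ ^ 2 * rho u y := by ring

theorem contDiff_Xg (hu : Geo κ u) : ContDiff ℝ 3 (Xg u) :=
  (contDiff_dFp_Du (k := 3) (by exact_mod_cast hu.smooth)).clm_apply (contDiff_Gv hu)

/-- `α ↦ (D_α T⁺) G`. -/
noncomputable def DTG (u : E m → E n) (y : E m) : E m →L[ℝ] E m :=
  (fderiv ℝ (fun y => dFp (fderiv ℝ u y)) y).flip (Gv u y)

theorem norm_DTG_le (hu : Geo κ u) (y : E m) : ‖DTG u y‖ ≤ 27 / 4 * κ * rho u y := by
  refine ContinuousLinearMap.opNorm_le_bound _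
    (mul_nonneg (mul_nonneg (by norm_num) hu.nonneg) (rho_nonneg u y)) fun α => ?_
  change ‖fderiv ℝ (fun y => dFp (fderiv ℝ u y)) y α (Gv u y)‖ ≤ _
  rw [fderiv_dFp_Du hu.c2]
  refine ((dTp u y α).le_opNorm _).trans ?_
  calc ‖dTp u y α‖ * ‖Gv u y‖ ≤ (27 / 4 * κ * ‖α‖) * rho u y :=
        mul_le_mul (hu.norm_dTp_le y α) (norm_Gv_le u y) (norm_nonneg _)
          (mul_nonneg (mul_nonneg (by norm_num) hu.nonneg) (norm_nonneg _))
    _ = _ := by ring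

theorem hasFDerivAt_Xg (hu : Geo κ u) (y : E m) :
    HasFDerivAt (Xg u)
      (𝟙 + dFp (fderiv ℝ u y) ∘L R0op u y (Fg u y - Fg u 0) + DTG u y) y := by
  have h1 := (hasFDerivAt_dFp_Du hu.c2 y).clm_apply (hasFDerivAt_Gv hu y)
  refine h1.congr_fderiv ?_
  rw [ContinuousLinearMap.comp_add, dFp_comp_dF]
  unfold DTG
  abel

theorem norm_Xg_le (u : E m → E n) (y : E m) : ‖Xg u y‖ ≤ rho u y := by
  have h1 := norm_le_norm_dF (fderiv ℝ u y) (Xg u y)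
  have h2 : dF (fderiv ℝ u y) (Xg u y) = Ph u y (Gv u y) :=
    (congrArg (fun T : E (m + n) →L[ℝ] E (m + n) => T (Gv u y)) (Ph_eq u y)).symm
  rw [h2] at h1
  exact h1.trans ((norm_Ph_apply_le u y _).trans (norm_Gv_le u y))

theorem Gv_zero (u : E m → E n) : Gv u 0 = 0 := by
  unfold Gv
  rw [sub_self, map_zero]

theorem rho_zero (u : E m → E n) : rho u 0 = 0 := by
  unfold rho
  rw [sub_self, norm_zero]

theorem Xg_zero (u : E m → E n) : Xg u 0 = 0 := by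
  unfold Xg
  rw [Gv_zero, map_zero]

theorem Xr_zero (u : E m → E n) : Xr u 0 = 0 := by
  unfold Xr
  rw [Gv_zero, map_zero, smul_zero]

/-- the correction `e = Xr - Xg = (w⁻¹ - 1) Xg`. -/
noncomputable def Xe (u : E m → E n) (y : E m) : E m := ((ww u y)⁻¹ - 1) • Xg u y

theorem Xr_eq_add (u : E m → E n) : Xr u = fun y => Xg u y + Xe u y := by
  funext y
  unfold Xr Xe Xg
  rw [sub_smul, one_smul]
  abel

theorem hasFDerivAt_Xe (hu : Geo κ u) {y : E m} (hy : y ≠ 0) :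
    HasFDerivAt (Xe u)
      (((ww u y)⁻¹ - 1) • (𝟙 + dFp (fderiv ℝ u y) ∘L R0op u y (Fg u y - Fg u 0) + DTG u y)
        + ((-(ww u y ^ 2)⁻¹) • fderiv ℝ (ww u) y).smulRight (Xg u y)) y :=
  ((hasFDerivAt_winv hu hy).sub_const 1).smul (hasFDerivAt_Xg hu y)

theorem norm_fderiv_Xg_le (hu : Geo κ u) (y : E m) :
    ‖(𝟙 + dFp (fderiv ℝ u y) ∘L R0op u y (Fg u y - Fg u 0) + DTG u y : E m →L[ℝ] E m)‖
      ≤ 1 + 45 / 4 * κ * rho u y := by
  have h1 := ContinuousLinearMap.norm_id_le (𝕜 := ℝ) (E := E m)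
  have h2 : ‖dFp (fderiv ℝ u y) ∘L R0op u y (Fg u y - Fg u 0)‖ ≤ 3 / 2 * (3 * κ * rho u y) :=
    norm_comp_le' _ _ (hu.norm_dFp_le y) (hu.norm_R0op_le _ _)
  have h3 := norm_DTG_le hu y
  refine (norm_add_le _ _).trans ?_
  have h4 := norm_add_le (𝟙 : E m →L[ℝ] E m) (dFp (fderiv ℝ u y) ∘L R0op u y (Fg u y - Fg u 0))
  linarith

theorem norm_fderiv_Xe_le (hu : Geo κ u) {y : E m} (hy : y ≠ 0) :
    ‖fderiv ℝ (Xe u) y‖ ≤ κ ^ 2 * rho u y ^ 2 * (65 + 45 / 4 * κ * rho u y) := by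
  rw [(hasFDerivAt_Xe hu hy).fderiv]
  obtain ⟨h1, h2, -, -⟩ := winv_facts hu hy
  have hρ := rho_nonneg u y
  have hκ := hu.nonneg
  refine (norm_add_le _ _).trans ?_
  rw [norm_smul, ContinuousLinearMap.norm_smulRight_apply, Real.norm_eq_abs, abs_of_nonneg h1]
  calc ((ww u y)⁻¹ - 1)
          * ‖(𝟙 + dFp (fderiv ℝ u y) ∘L R0op u y (Fg u y - Fg u 0) + DTG u y : E m →L[ℝ] E m)‖
        + ‖(-(ww u y ^ 2)⁻¹) • fderiv ℝ (ww u) y‖ * ‖Xg u y‖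
      ≤ κ ^ 2 * rho u y ^ 2 * (1 + 45 / 4 * κ * rho u y) + 64 * κ ^ 2 * rho u y * rho u y := by
        gcongr
        · exact norm_fderiv_Xg_le hu y
        · exact norm_fderiv_winv_le hu hy
        · exact norm_Xg_le u y
    _ = _ := by ring

theorem norm_Xe_le (hu : Geo κ u) (y : E m) : ‖Xe u y‖ ≤ κ ^ 2 * rho u y ^ 3 := by
  by_cases hy : y = 0
  · rw [hy, Xe, Xg_zero, smul_zero, norm_zero, rho_zero]
    simp
  · obtain ⟨h1, h2, -, -⟩ := winv_facts hu hy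
    unfold Xe
    rw [norm_smul, Real.norm_eq_abs, abs_of_nonneg h1]
    have hρ := rho_nonneg u y
    calc ((ww u y)⁻¹ - 1) * ‖Xg u y‖ ≤ (κ ^ 2 * rho u y ^ 2) * rho u y := by
          gcongr
          exact norm_Xg_le u y
      _ = _ := by ring

theorem contDiffAt_Xe (hu : Geo κ u) {y : E m} (hy : y ≠ 0) : ContDiffAt ℝ 3 (Xe u) y :=
  (((contDiffAt_ww hu hy).inv (winv_facts hu hy).2.2.2.ne').sub contDiffAt_const).smul
    (contDiff_Xg hu).contDiffAt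

theorem Xe_local_bounds (hu : Geo κ u) :
    (∀ y, ‖y‖ ≤ 1 → ‖Xe u y‖ ≤ 100 * ‖y‖ ^ 2) ∧
      (∀ y, y ≠ 0 → ‖y‖ ≤ 1 → ‖fderiv ℝ (Xe u) y‖ ≤ 100 * ‖y‖) := by
  have hκ := hu.nonneg
  have hκ1 := hu.le_one
  have hκ2 : κ ^ 2 ≤ 1 := by nlinarith
  constructor
  · intro y hy
    have h1 := norm_Xe_le hu y
    have h2 := ((rho_facts hu).2.1 y).2
    have h0 := norm_nonneg y
    have hρ := rho_nonneg u y
    have h3 : rho u y ^ 3 ≤ (9 / 8 * ‖y‖) ^ 3 := by gcongr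
    have h4 : ‖y‖ ^ 3 ≤ ‖y‖ ^ 2 := by nlinarith [sq_nonneg ‖y‖]
    have h5 : κ ^ 2 * rho u y ^ 3 ≤ 1 * rho u y ^ 3 := by gcongr
    nlinarith
  · intro y hy0 hy
    have h1 := norm_fderiv_Xe_le hu hy0
    have h2 := ((rho_facts hu).2.1 y).2
    have h0 := norm_nonneg y
    have hρ := rho_nonneg u y
    have hρ1 : rho u y ≤ 9 / 8 := by linarith
    have h3 : rho u y ^ 2 ≤ (9 / 8 * ‖y‖) ^ 2 := by gcongr
    have h4 : ‖y‖ ^ 2 ≤ ‖y‖ := by nlinarith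
    have h5 : 65 + 45 / 4 * κ * rho u y ≤ 78 := by nlinarith
    have h6 : κ ^ 2 * rho u y ^ 2 * (65 + 45 / 4 * κ * rho u y) ≤ 1 * rho u y ^ 2 * 78 := by
      gcongr
    nlinarith

theorem contDiff_Xe (hu : Geo κ u) : ContDiff ℝ 1 (Xe u) :=
  contDiff_one_of_removable_local (Xe u) 100
    (fun _ hy => (contDiffAt_Xe hu hy).of_le (by norm_num))
    (Xe_local_bounds hu).1 (Xe_local_bounds hu).2

/-- leaf `L-Freq-hor-C1`. -/
theorem Xr_contDiff_aux (hu : Geo κ u) : ContDiff ℝ 1 (Xr u) := by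
  rw [Xr_eq_add]
  exact ((contDiff_Xg hu).of_le (by norm_num)).add (contDiff_Xe hu)

/-- leaf `L-Freq-hor-divtr`. -/
theorem divS_eq_trc_aux (hu : Geo κ u) (Xc : E m → E m) (y : E m)
    (hX : DifferentiableAt ℝ Xc y) : divS u Xc y = trc (nabS u Xc y) :=
  (trc_nabS hu.c2 hX).symm

theorem tanF_Xr (hu : Geo κ u) (y : E m) : tanF u (Xr u) y = (ww u y)⁻¹ • Gv u y := by
  unfold tanF Xr
  rw [map_smul]
  have h2 : dF (fderiv ℝ u y) (dFp (fderiv ℝ u y) (Gv u y)) = Ph u y (Gv u y) :=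
    (congrArg (fun T : E (m + n) →L[ℝ] E (m + n) => T (Gv u y)) (Ph_eq u y)).symm
  rw [h2, (Gv_facts hu y).2.1]

theorem inner_Gv_tanF_Xr (hu : Geo κ u) (y : E m) :
    inner ℝ (Gv u y) (tanF u (Xr u) y) = rho u y ^ 2 := by
  rw [tanF_Xr hu, inner_smul_right, real_inner_self_eq_norm_sq]
  by_cases hy : y = 0
  · rw [hy, Gv_zero, rho_zero]; simp
  · have hρ := rho_pos hu hy
    have hG : 0 < ‖Gv u y‖ := by
      have := (Gv_facts hu y).2.2.2.2.1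
      have h0 := norm_pos_iff.2 hy
      linarith
    unfold ww
    field_simp

theorem norm_Xr_le (hu : Geo κ u) (y : E m) : ‖Xr u y‖ ≤ 4 * rho u y := by
  by_cases hy : y = 0
  · rw [hy, Xr_zero, rho_zero]; simp
  · obtain ⟨-, -, h3, hw⟩ := winv_facts hu hy
    have h1 : Xr u y = (ww u y)⁻¹ • Xg u y := rfl
    rw [h1, norm_smul, Real.norm_eq_abs, abs_of_nonneg (by positivity)]
    exact mul_le_mul h3 (norm_Xg_le u y) (norm_nonneg _) (by norm_num)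

/-- `‖H R₀(p)‖ ≤ (3/2) κ² ρ²`. -/
theorem norm_Ph_comp_R0op_le (hu : Geo κ u) (y : E m) :
    ‖Ph u y ∘L R0op u y (Fg u y - Fg u 0)‖ ≤ 3 / 2 * κ ^ 2 * rho u y ^ 2 := by
  refine ContinuousLinearMap.opNorm_le_bound _
    (mul_nonneg (mul_nonneg (by norm_num) (sq_nonneg _)) (sq_nonneg _)) fun α => ?_
  have h1 : Fg u y - Fg u 0 = Gv u y + Nv u y := by
    unfold Gv Nv Pv
    rw [sub_apply]
    simp
  have h2 : Ph u y (dPh u y α (Gv u y)) = 0 := by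
    rw [← (Gv_facts hu y).2.1]
    exact congrArg (fun T : E (m + n) →L[ℝ] E (m + n) => T (Gv u y))
      (Ph_comp_dPh_comp_Ph hu.c2 y α)
  change ‖Ph u y (dPh u y α (Fg u y - Fg u 0))‖ ≤ _
  rw [h1, map_add, map_add, h2, zero_add]
  refine (norm_Ph_apply_le u y _).trans (((dPh u y α).le_opNorm _).trans ?_)
  calc ‖dPh u y α‖ * ‖Nv u y‖ ≤ (3 * κ * ‖α‖) * (κ * rho u y ^ 2 / 2) :=
        mul_le_mul (hu.norm_dPh_le y α) (norm_Nv_le hu y) (norm_nonneg _)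
          (mul_nonneg (mul_nonneg (by norm_num) hu.nonneg) (norm_nonneg _))
    _ = _ := by ring

theorem nabS_Xr_sub (hu : Geo κ u) {y : E m} (hy : y ≠ 0) :
    nabS u (Xr u) y - Ph u y = ((ww u y)⁻¹ - 1) • Ph u y
      + (ww u y)⁻¹ • ((Ph u y ∘L R0op u y (Fg u y - Fg u 0)) ∘L dFp (fderiv ℝ u y))
      + Ph u y ∘L (((-(ww u y ^ 2)⁻¹) • fderiv ℝ (ww u) y).smulRight (Gv u y))
          ∘L dFp (fderiv ℝ u y) := by
  have h1 : tanF u (Xr u) = fun y => (ww u y)⁻¹ • Gv u y := funext (tanF_Xr hu)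
  have h2 : HasFDerivAt (fun y => (ww u y)⁻¹ • Gv u y) _ y :=
    (hasFDerivAt_winv hu hy).smul (hasFDerivAt_Gv hu y)
  unfold nabS
  rw [h1, h2.fderiv]
  have h3 : Ph u y ∘L dF (fderiv ℝ u y) ∘L dFp (fderiv ℝ u y) = Ph u y := by
    rw [← Ph_eq, Ph_comp_Ph]
  simp only [ContinuousLinearMap.add_comp, ContinuousLinearMap.comp_add,
    ContinuousLinearMap.smul_comp, ContinuousLinearMap.comp_smul, h3,
    ContinuousLinearMap.comp_assoc, smul_add]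
  module

theorem norm_nabS_Xr_sub_le (hu : Geo κ u) (y : E m) :
    ‖nabS u (Xr u) y - Ph u y‖ ≤ 106 * κ * rho u y ^ 2 := by
  have hκ := hu.nonneg
  have hκ1 := hu.le_one
  by_cases hy : y = 0
  · -- at the centre `D Xr = 1`
    subst hy
    have hd : DifferentiableAt ℝ (Xr u) 0 := (Xr_contDiff_aux hu).differentiable (by norm_num) 0
    have he : HasFDerivAt (Xe u) (0 : E m →L[ℝ] E m) 0 :=
      hasFDerivAt_zero_of_sq_bound (Xe_local_bounds hu).1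
    have hg := hasFDerivAt_Xg hu 0
    have hr : HasFDerivAt (Xr u) (𝟙 : E m →L[ℝ] E m) 0 := by
      have h1 := hg.add he
      have h2 : (Xg u + Xe u) = Xr u := (Xr_eq_add u).symm
      rw [h2] at h1
      refine h1.congr_fderiv ?_
      have e1 : R0op u 0 (Fg u 0 - Fg u 0) = 0 := by
        rw [sub_self]
        ext1 α
        simp [R0op_apply]
      have e2 : DTG u 0 = 0 := by
        ext1 α
        change fderiv ℝ (fun y => dFp (fderiv ℝ u y)) 0 α (Gv u 0) = 0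
        rw [Gv_zero, map_zero]
      rw [e1, e2]
      simp
    have e3 : nabS u (Xr u) 0 = Ph u 0 := by
      unfold nabS
      rw [(hasFDerivAt_tanF hu.c2 hd).fderiv, hr.fderiv, Xr_zero]
      have e4 : Wop u 0 0 = 0 := by
        unfold Wop
        rw [map_zero]
        simp
      rw [e4, add_zero, ContinuousLinearMap.comp_id, ← Ph_eq, Ph_comp_Ph]
    rw [e3, sub_self, norm_zero, rho_zero]
    simp
  · rw [nabS_Xr_sub hu hy]
    obtain ⟨h1, h2, h3, hw⟩ := winv_facts hu hy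
    have hρ := rho_nonneg u y
    have b1 : ‖((ww u y)⁻¹ - 1) • Ph u y‖ ≤ κ ^ 2 * rho u y ^ 2 * 1 := by
      rw [norm_smul, Real.norm_eq_abs, abs_of_nonneg h1]
      exact mul_le_mul h2 (norm_Ph_le u y) (norm_nonneg _) (by positivity)
    have b2 : ‖(ww u y)⁻¹ • ((Ph u y ∘L R0op u y (Fg u y - Fg u 0)) ∘L dFp (fderiv ℝ u y))‖
        ≤ 4 * (3 / 2 * κ ^ 2 * rho u y ^ 2 * (3 / 2)) := by
      rw [norm_smul, Real.norm_eq_abs, abs_of_nonneg (by positivity)]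
      exact mul_le_mul h3 (norm_comp_le' _ _ (norm_Ph_comp_R0op_le hu y) (hu.norm_dFp_le y))
        (norm_nonneg _) (by norm_num)
    have b3 : ‖Ph u y ∘L (((-(ww u y ^ 2)⁻¹) • fderiv ℝ (ww u) y).smulRight (Gv u y))
        ∘L dFp (fderiv ℝ u y)‖ ≤ 1 * ((64 * κ ^ 2 * rho u y * rho u y) * (3 / 2)) := by
      refine norm_comp_le' _ _ (norm_Ph_le u y) (norm_comp_le' _ _ ?_ (hu.norm_dFp_le y))
      rw [ContinuousLinearMap.norm_smulRight_apply]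
      exact mul_le_mul (norm_fderiv_winv_le hu hy) (norm_Gv_le u y) (norm_nonneg _)
        (by positivity)
    refine (norm_add_le _ _).trans ?_
    have b4 := norm_add_le (((ww u y)⁻¹ - 1) • Ph u y)
      ((ww u y)⁻¹ • ((Ph u y ∘L R0op u y (Fg u y - Fg u 0)) ∘L dFp (fderiv ℝ u y)))
    have p1 : 0 ≤ κ * rho u y ^ 2 := by positivity
    have p2 : κ ^ 2 * rho u y ^ 2 ≤ κ * rho u y ^ 2 := by nlinarith
    nlinarith

/-- leaf `L-Freq-hor-field`. -/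
theorem Xr_facts_aux (m n : ℕ) : ∃ C : ℝ, 0 < C ∧ ∀ (κ : ℝ) (u : E m → E n), Geo κ u →
    ∀ y, rho u y ≤ 1 →
    tanF u (Xr u) y = (ww u y)⁻¹ • Gv u y ∧
    inner ℝ (Gv u y) (tanF u (Xr u) y) = rho u y ^ 2 ∧
    ‖Xr u y‖ ≤ 4 * rho u y ∧
    ‖nabS u (Xr u) y - Ph u y‖ ≤ C * κ * rho u y ^ 2 ∧
    |divS u (Xr u) y - m| ≤ C * κ * rho u y ^ 2 := by
  refine ⟨106 * (((m + n : ℕ) : ℝ) + 1), by positivity, fun κ u hu y _ => ?_⟩
  have hb := norm_nabS_Xr_sub_le hu y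
  have hM : (0 : ℝ) ≤ ((m + n : ℕ) : ℝ) := Nat.cast_nonneg _
  have hp : 0 ≤ κ * rho u y ^ 2 := mul_nonneg hu.nonneg (sq_nonneg _)
  refine ⟨tanF_Xr hu y, inner_Gv_tanF_Xr hu y, norm_Xr_le hu y, hb.trans ?_, ?_⟩
  · nlinarith
  · have hd : DifferentiableAt ℝ (Xr u) y := (Xr_contDiff_aux hu).differentiable (by norm_num) y
    have h1 : divS u (Xr u) y - m = trc (nabS u (Xr u) y - Ph u y) := by
      rw [divS_eq_trc_aux hu _ _ hd, trc_sub]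
      congr 1
      exact (isProj_Ph u y).tr.symm
    rw [h1]
    refine (abs_trc_le _).trans ?_
    have : ((m + n : ℕ) : ℝ) * ‖nabS u (Xr u) y - Ph u y‖
        ≤ ((m + n : ℕ) : ℝ) * (106 * κ * rho u y ^ 2) := by gcongr
    nlinarith

end Claimed.Agent.R322.Freq
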