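import Claimed.Agent.R322.Pack055
import Claimed.Agent.R322.Pack048

/-!
# CO Lemma 4.3: the divergence theorem on the base, for a general radial field
(leaf `L-Freq-hor-div`, helper297; used by `Freq/Hor.lean`, `base_div`)
-/

set_option autoImplicit false

open scoped ENNReal ContDiff
open MeasureTheory

namespace Claimed.Agent.R322.Freq

open Claimed.Agent.R322.Tube

variable {m n : ℕ}

/-- Leibniz rule for the chart divergence. -/
theorem hd_divS_smul (u : E m → E n) {φ : E m → ℝ} {Xc : E m → E m} {y : E m}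
    (hφ : DifferentiableAt ℝ φ y) (hX : DifferentiableAt ℝ Xc y) :
    divS u (fun y' => φ y' • Xc y') y = φ y * divS u Xc y + fderiv ℝ φ y (Xc y) := by
  have h : fderiv ℝ (fun y' => φ y' • Xc y') y
      = φ y • fderiv ℝ Xc y + (fderiv ℝ φ y).smulRight (Xc y) :=
    (hφ.hasFDerivAt.smul hX.hasFDerivAt).fderiv
  have h2 : trc ((fderiv ℝ φ y).smulRight (Xc y)) = fderiv ℝ φ y (Xc y) :=
    LinearMap.trace_smulRight ((fderiv ℝ φ y : E m →L[ℝ] ℝ) : E m →ₗ[ℝ] ℝ) (Xc y)
  unfold divS
  rw [h, trc_add, trc_smul, h2, map_smul, smul_eq_mul]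
  ring

theorem hd_continuous_divS {u : E m → E n} (hu : ContDiff ℝ 2 u) {Xc : E m → E m}
    (hX : ContDiff ℝ 1 Xc) : Continuous (divS u Xc) := by
  have h1 : Continuous fun y => trc (fderiv ℝ Xc y) :=
    (trcL m).continuous.comp (hX.continuous_fderiv one_ne_zero)
  have h2 : Continuous (fderiv ℝ fun y' => Real.log (vdens (fderiv ℝ u y'))) :=
    (Lin.contDiff_log_vdens_Du hu).continuous_fderiv one_ne_zero
  exact h1.add (h2.clm_apply hX.continuous)

/-- the reference volume of a frame is finite. -/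
theorem hd_volS_finite (N : NCyl m n) (hΩ : N.Ω = Metric.ball 0 4)
    (hs : ∀ y, ‖fderiv ℝ N.u y‖ ≤ 1 / 2) : IsFiniteMeasure N.volS := by
  obtain ⟨Cv, -, hCv⟩ := Lin.exists_vdens_bound m n
  have := isAddHaar_hausdorff m
  refine ⟨lt_of_le_of_lt (Lin.volS_le N (fun y => hCv _ ((hs y).trans (by norm_num))) Set.univ) ?_⟩
  rw [hΩ]
  exact ENNReal.mul_lt_top ENNReal.ofReal_lt_top measure_ball_lt_top

theorem hd_integrable {μ : Measure (E m)} [IsFiniteMeasure μ] {f : E m → ℝ} (hf : Continuous f)
    (hc : HasCompactSupport f) : Integrable f μ := by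
  obtain ⟨C, hC⟩ := hf.bounded_above_of_compact_support hc
  exact Integrable.of_bound hf.aestronglyMeasurable C (Filter.Eventually.of_forall hC)

/-- **divergence theorem on the base** for a `C¹` field `Xc` with `⟨G, dF Xc⟩ = ρ²`. -/
theorem base_div_aux {κ : ℝ} (N : NCyl m n) (hG : Geo κ N.u) (hΩ : N.Ω = Metric.ball 0 4) {r : ℝ}
    (hr : 0 < r) (hr1 : r ≤ 1) (Xc : E m → E m) (hX : ContDiff ℝ 1 Xc)
    (hin : ∀ y, rho N.u y ≤ 1 → inner ℝ (Gv N.u y) (tanF N.u Xc y) = rho N.u y ^ 2) :
    ∫ y, phiR N.u r y * divS N.u Xc y ∂N.volS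
      = (r ^ 2)⁻¹ * ∫ y, psiR N.u r y * rho N.u y ^ 2 ∂N.volS := by
  obtain ⟨-, hout, -, -, hφ, hψ, hD, -, -, -, hsupp⟩ := ker_facts hG hr
  have hu2 : ContDiff ℝ 2 N.u := hG.smooth.of_le (by norm_num)
  have := hd_volS_finite N hΩ hG.slope
  have hφc : HasCompactSupport (phiR N.u r) :=
    HasCompactSupport.of_support_subset_isCompact (isCompact_closedBall (0 : E m) r)
      ((subset_tsupport _).trans hsupp)
  have hY : ContDiff ℝ 1 fun y => phiR N.u r y • Xc y := hφ.smul hX
  have hYs : tsupport (fun y => phiR N.u r y • Xc y) ⊆ tsupport (phiR N.u r) :=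
    tsupport_smul_subset_left _ _
  have hYc : HasCompactSupport fun y => phiR N.u r y • Xc y := hφc.smul_right
  have h0 := Lin.divS_integral' N hu2 _ hY hYc (by
    rw [hΩ]
    exact (hYs.trans hsupp).trans (Metric.closedBall_subset_ball (by linarith)))
  -- the pointwise identity
  have hpt : ∀ y, divS N.u (fun y' => phiR N.u r y' • Xc y') y
      = phiR N.u r y * divS N.u Xc y - (r ^ 2)⁻¹ * (psiR N.u r y * rho N.u y ^ 2) := by
    intro y
    rw [hd_divS_smul N.u (hφ.differentiable one_ne_zero y) (hX.differentiable one_ne_zero y),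
      (hD y).fderiv]
    simp only [_root_.smul_apply, _root_.neg_apply, ContinuousLinearMap.comp_apply,
      innerSL_apply_apply, smul_eq_mul, neg_smul]
    by_cases hy : y ∈ Bs N.u r
    · have h1 : rho N.u y ≤ 1 := (le_of_lt hy).trans hr1
      have h2 := hin y h1
      unfold tanF at h2
      rw [h2]
      field_simp
      ring
    · have h1 : psiR N.u r y = 0 := by
        unfold psiR
        rw [hout y hy]
        simp
      rw [h1]
      simp
  simp only [hpt] at h0
  have hρ : Continuous fun y => rho N.u y ^ 2 := by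
    unfold rho
    exact (((contDiff_Fg_of hG.smooth).continuous.sub continuous_const).norm).pow 2
  have i1 : Integrable (fun y => phiR N.u r y * divS N.u Xc y) N.volS :=
    hd_integrable (hφ.continuous.mul (hd_continuous_divS hu2 hX)) hφc.mul_right
  have hψc : HasCompactSupport (psiR N.u r) := by
    refine HasCompactSupport.intro (isCompact_closedBall (0 : E m) r) fun y hy => ?_
    have hy' : y ∉ Bs N.u r := fun h => hy (by
      have := (ker_facts hG hr).2.2.2.2.2.2.2.2.1 h
      exact Metric.ball_subset_closedBall this)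
    unfold psiR
    rw [hout y hy']
    simp
  have i2 : Integrable (fun y => psiR N.u r y * rho N.u y ^ 2) N.volS :=
    hd_integrable (hψ.continuous.mul hρ) hψc.mul_right
  rw [integral_sub i1 (i2.const_mul _), integral_const_mul] at h0
  linarith

end Claimed.Agent.R322.Freq
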