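import Claimed.Agent.R322.Freq.Cells
import Claimed.Agent.R322.Freq.HorDiv
import Claimed.Agent.R322.Freq.HorBase
import Claimed.Agent.R322.Pack048
import Claimed.Agent.R322.Tube.Geom.LiftReg

/-!
# CO Lemma 4.3: the horizontal identity (4.17)

Owner: helper109.  Leaves `L-Freq-hor-*`.

Radial field on `S`: `X₀ = G / w`, `w = |G|²/ρ²`, chart components `Xr u y = w⁻¹ dFp G`; `⟨X₀, G⟩ = ρ²`, so `X₀ (ρ²) = 2 ρ²` EXACTLY.
Test field: `φ(π X) J_z X₀`.  With `f₀ = div_S X₀ - m = O(ρ²)`: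
`A' = 2 A - E + R~ + r^{2-m} (I₁ - I₂ + I₃)`,
`R~ = r^{-m} ∫ ψ rtl`, `rtl = ⟨(1-P) V, (1-P) J_z G⟩ / w`,
`I₁ = ∫ φ f₀ dM`, `I₂ = ∫ φ tr (B (∇^S X₀ - P_h)) dμ`, `I₃ = ∫ φ (error of Tube.lift_trace) dμ`.
-/

set_option autoImplicit false

open scoped ENNReal ContDiff
open MeasureTheory

namespace Claimed.Agent.R322.Freq

open Claimed.Agent.R322.Tube

variable {m n : ℕ}

/- `Xr` (chart components of the radial field `X₀ = G / w`) is defined in `Freq/HorBase.lean`. -/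

/-- density of `R~` -/
noncomputable def rtl (u : E m → E n) (P : E (m + n) →L[ℝ] E (m + n)) (X : E (m + n)) : ℝ :=
  inner ℝ (Vv u X - P (Vv u X)) (Jz u X (Gv u (npr u X)) - P (Jz u X (Gv u (npr u X)))) / ww u (npr u X)

/-- error of `Tube.lift_trace` for the radial field -/
noncomputable def epsZ (u : E m → E n) (P : E (m + n) →L[ℝ] E (m + n)) (X : E (m + n)) : ℝ :=
  tdiv P (fderiv ℝ (lift u (Xr u)) X) - (divS u (Xr u) (npr u X) - trc (Bop u P X ∘L nabS u (Xr u) (npr u X)))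

/-- removable singularity for `C¹` (leaf `L-Freq-hor-remov`; Mathlib only).
PLAN.  `HasFDerivAt f 0 0` from `|f y| ≤ C |y|²`; `fderiv f` is continuous at `0` by the bound and elsewhere by `ContDiffAt`;
`contDiff_one_iff_fderiv`. -/
theorem contDiff_one_of_removable {k : ℕ} (f : E m → E k) (C : ℝ) (h1 : ∀ y, y ≠ 0 → ContDiffAt ℝ 1 f y)
    (h2 : ∀ y, ‖f y‖ ≤ C * ‖y‖ ^ 2) (h3 : ∀ y, y ≠ 0 → ‖fderiv ℝ f y‖ ≤ C * ‖y‖) : ContDiff ℝ 1 f := by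
  have hf0 : f 0 = 0 := by
    have := h2 0
    rw [norm_zero] at this
    simpa using this
  have hd0 : HasFDerivAt f (0 : E m →L[ℝ] E k) 0 := by
    rw [hasFDerivAt_iff_isLittleO_nhds_zero]
    simp only [zero_add, hf0, sub_zero, _root_.zero_apply]
    have hO : (fun h : E m => f h) =O[nhds 0] fun h => ‖h‖ ^ 2 := by
      refine Asymptotics.IsBigO.of_bound C (Filter.Eventually.of_forall fun h => ?_)
      rw [Real.norm_of_nonneg (by positivity)]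
      exact h2 h
    have ho : (fun h : E m => ‖h‖ ^ 2) =o[nhds 0] fun h => h := by
      have := Asymptotics.isLittleO_norm_pow_id (E' := E m) (n := 2) (by norm_num)
      exact this
    exact hO.trans_isLittleO ho
  have hdiff : Differentiable ℝ f := by
    intro y
    by_cases hy : y = 0
    · rw [hy]; exact hd0.differentiableAt
    · exact (h1 y hy).differentiableAt (by norm_num)
  rw [contDiff_one_iff_fderiv]
  refine ⟨hdiff, ?_⟩
  rw [continuous_iff_continuousAt]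
  intro y
  by_cases hy : y = 0
  · rw [hy, ContinuousAt, hd0.fderiv]
    rw [tendsto_zero_iff_norm_tendsto_zero]
    have hb : ∀ z : E m, ‖fderiv ℝ f z‖ ≤ |C| * ‖z‖ := by
      intro z
      by_cases hz : z = 0
      · rw [hz, hd0.fderiv]; simp
      · exact (h3 z hz).trans (mul_le_mul_of_nonneg_right (le_abs_self C) (norm_nonneg _))
    refine squeeze_zero (fun z => norm_nonneg _) hb ?_
    have : Filter.Tendsto (fun z : E m => |C| * ‖z‖) (nhds 0) (nhds (|C| * ‖(0 : E m)‖)) :=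
      (continuous_const.mul continuous_norm).continuousAt
    simpa using this
  · have := (h1 y hy).fderiv_right (m := 0) (by norm_num)
    exact this.continuousAt

/-- derivatives of `G`, `N`, `w` on the base (leaf `L-Freq-hor-base`).
PLAN.  `P_h = PhA ∘ Du` is `C³` with `‖D P_h‖ ≤ C κ` (this is part of the tube geometry; `PhA A = dF A (gmat A)⁻¹ (dF A)ᵀ`).
`DG α = (D_α P_h)(F y - F 0) + dF α`, `DN α = - (D_α P_h)(F y - F 0)`; `|N| ≤ κ|y|²/2`;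
`w = 1 - |N|²/ρ²`: `|Dw| ≤ |D|N|²|/ρ² + |N|² |Dρ²|/ρ⁴ ≤ C κ² ρ`. -/
theorem base_deriv (m n : ℕ) : ∃ C : ℝ, 0 < C ∧ ∀ (κ : ℝ) (u : E m → E n), Geo κ u →
    ContDiff ℝ 3 (Gv u) ∧ ContDiff ℝ 3 (Ph u) ∧ (∀ y, ‖fderiv ℝ (Ph u) y‖ ≤ C * κ) ∧
    (∀ y α, fderiv ℝ (Gv u) y α = fderiv ℝ (Ph u) y α (Fg u y - Fg u 0) + dF (fderiv ℝ u y) α) ∧
    (∀ y, y ≠ 0 → ContDiffAt ℝ 3 (ww u) y ∧ ‖fderiv ℝ (ww u) y‖ ≤ C * κ ^ 2 * rho u y) :=
  base_deriv_aux m n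

/-- the radial field is `C¹` (leaf `L-Freq-hor-C1`).
PLAN.  `1/w = 1 + |N|²/|G|²`, so `Xr = Xg + e`, `Xg = dFp G` smooth, `e = (|N|²/|G|²) Xg`, `|e| ≤ C |y|³`, `|De| ≤ C |y|²` near `0`;
for `|y| ≥ 1` no bound is needed if `contDiff_one_of_removable` is applied to `χ e` with a cutoff, or use the global bounds
`|N| ≤ ρ`, `|G| ≥ (2/3)|y|`.  (`base_deriv`, `Gv_facts`.) -/
theorem Xr_contDiff {κ : ℝ} {u : E m → E n} (hu : Geo κ u) : ContDiff ℝ 1 (Xr u) :=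
  Xr_contDiff_aux hu

/-- divergence = trace of the covariant derivative (leaf `L-Freq-hor-divtr`; tube geometry).
PLAN.  `tr (P_h D(dF Xc) dFp) = tr (dFp D(dF Xc))` (cyclicity, `dFp P_h = dFp`) `= tr (DXc) + tr (α ↦ dFp (D²F(α, Xc)))`;
`D_X log sqrt(det g) = (1/2) tr (g⁻¹ D_X g) = tr (g⁻¹ dFᵀ D²F(X, ·))`; Jacobi's formula from `Matrix.det_one_add_smul`-type expansion
(see `Base/JacExp.lean`). -/
theorem divS_eq_trc {κ : ℝ} {u : E m → E n} (hu : Geo κ u) (Xc : E m → E m) (y : E m) (hX : DifferentiableAt ℝ Xc y) :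
    divS u Xc y = trc (nabS u Xc y) :=
  divS_eq_trc_aux hu Xc y hX

/-- the radial field: values and first derivatives (leaf `L-Freq-hor-field`).
PLAN.  `dF dFp = P_h`: `tanF u Xr = G/w`.  `P_h (D_α P_h) P_h = 0` and the definition of `Shp`: `P_h DG dFp = P_h + Shp u y (F y - F 0)`,
`‖Shp u y (F y - F 0)‖ = ‖Shp u y N‖ ≤ C κ |N| ≤ C κ² ρ²` (`Tube.shape_facts`).  `∇^S (G/w) = (P_h + A_N)/w - w⁻² G ⊗ ∇w`,
`|1/w - 1| ≤ κ² ρ²` , `|G||Dw| ≤ C κ² ρ²` (`base_deriv`, `Gv_facts`).  Divergence: `divS_eq_trc`, `tr P_h = m`, `|tr T| ≤ (m+n)‖T‖`.  At `y = 0` all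
quantities are limits (`Xr_contDiff`) or compute directly: `D Xr(0) = id`. -/
theorem Xr_facts (m n : ℕ) : ∃ C : ℝ, 0 < C ∧ ∀ (κ : ℝ) (u : E m → E n), Geo κ u → ∀ y, rho u y ≤ 1 →
    tanF u (Xr u) y = (ww u y)⁻¹ • Gv u y ∧
    inner ℝ (Gv u y) (tanF u (Xr u) y) = rho u y ^ 2 ∧
    ‖Xr u y‖ ≤ 4 * rho u y ∧
    ‖nabS u (Xr u) y - Ph u y‖ ≤ C * κ * rho u y ^ 2 ∧
    |divS u (Xr u) y - m| ≤ C * κ * rho u y ^ 2 :=
  Xr_facts_aux m n

/-- lifts of `C¹` fields are `C¹` in the tube (leaf `L-Freq-hor-lift`; tube geometry: `Jz` is `C²`, `npr` is `C³`, `tanF` is `C¹`) -/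
theorem lift_contDiffOn (m n : ℕ) : ∃ h₀ : ℝ, 0 < h₀ ∧ ∀ (κ : ℝ) (u : E m → E n), Geo κ u → ∀ Xc : E m → E m, ContDiff ℝ 1 Xc →
    ContDiffOn ℝ 1 (lift u Xc) (Tub u h₀) :=
  ⟨2 / 9, by norm_num, fun _ _ hu _ hXc => contDiffOn_lift hu le_rfl (by norm_num) hXc⟩

/- `tanF_Xr` (`tanF u Xr = G / w` without restriction on `ρ`) is in `Freq/HorBase.lean`. -/

/-- `|G|² / w = ρ²`, also at the centre -/
theorem Gv_sq_div_ww {κ : ℝ} {u : E m → E n} (hu : Geo κ u) (y : E m) : ‖Gv u y‖ ^ 2 / ww u y = rho u y ^ 2 := by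
  obtain ⟨h1, -, h3, -, h5, h6, -⟩ := Gv_facts hu y
  by_cases hG : ‖Gv u y‖ = 0
  · have hy : ‖y‖ = 0 := le_antisymm (by nlinarith) (norm_nonneg _)
    have hN : ‖Nv u y‖ = 0 := le_antisymm (by rw [hy] at h3; simpa using h3) (norm_nonneg _)
    rw [← h1, hG, hN]; simp
  · have hρ : rho u y ≠ 0 := fun h => hG (le_antisymm (h ▸ h6) (norm_nonneg _))
    rw [ww]
    field_simp

/-- `⟨(1-P) a, (1-P) b⟩ = ⟨a, b⟩ - ⟨a, P b⟩` -/
theorem inner_compl_compl {N : ℕ} {P : E N →L[ℝ] E N} (hP : IsProj m P) (a b : E N) :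
    inner ℝ (a - P a) (b - P b) = inner ℝ a b - inner ℝ a (P b) := by
  have h1 : P (P b) = P b := congrArg (fun T : E N →L[ℝ] E N => T b) hP.idem
  rw [inner_sub_left, inner_sub_right, inner_sub_right, hP.symm a b, hP.symm a (P b), h1]
  ring

/-- **pointwise first variation of the horizontal test field** (leaf `L-Freq-hor-pt`).
PLAN.  `tdiv_fderiv_smul`, `kerT_facts`: `Dφ (P J_z X₀) = - ψ r^{-2} ⟨V, P J_z G⟩ / w`;
`⟨V, P J_z G⟩ = ⟨V, J_z G⟩ - ⟨(1-P)V, (1-P) J_z G⟩`, `⟨V, J_z G⟩ = ⟨J_z V, G⟩ = |G|²` (`Vv_facts`), `|G|²/w = ρ²` (also at `y = 0`). -/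
theorem hor_point (m n : ℕ) : ∃ h₀ : ℝ, 0 < h₀ ∧ ∀ (κ : ℝ) (u : E m → E n), Geo κ u → ∀ r : ℝ, 0 < r → ∀ X ∈ Tub u h₀,
    ∀ P : E (m + n) →L[ℝ] E (m + n), IsProj m P →
    tdiv P (fderiv ℝ (fun X => phiR u r (npr u X) • lift u (Xr u) X) X)
      = phiR u r (npr u X) * tdiv P (fderiv ℝ (lift u (Xr u)) X)
        - psiR u r (npr u X) / r ^ 2 * (rho u (npr u X) ^ 2 - rtl u P X) := by
  refine ⟨2 / 9, by norm_num, fun κ u hu r hr X hX2 P hP => ?_⟩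
  have hL : DifferentiableAt ℝ (lift u (Xr u)) X := (lift_trace_of_le hu le_rfl (Xr_contDiff hu) hX2 hP).1
  have hφ := ((kerT_facts_of_le hu hr).2.2 X hX2).1
  obtain ⟨-, hJV, -, hJs, -⟩ := Vv_facts_of_le hu hX2
  rw [tdiv_fderiv_smul P hφ.differentiableAt hL, hφ.fderiv]
  have e1 : lift u (Xr u) X = (ww u (npr u X))⁻¹ • Jz u X (Gv u (npr u X)) := by
    rw [lift, tanF_Xr hu, map_smul]
  have e2 : inner ℝ (Vv u X) (Jz u X (Gv u (npr u X))) = ‖Gv u (npr u X)‖ ^ 2 := by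
    rw [← hJs, hJV, real_inner_self_eq_norm_sq]
  have e3 := inner_compl_compl hP (Vv u X) (Jz u X (Gv u (npr u X)))
  have e4 := Gv_sq_div_ww hu (npr u X)
  rw [e1, map_smul, smul_apply, innerSL_apply_apply, inner_smul_right, rtl, e3, e2, sub_div, e4]
  simp only [smul_eq_mul]
  ring

/-- arithmetic of `rtl_est` -/
theorem rtl_arith {A D g v ρ k : ℝ} (hA : 0 ≤ A) (hg : 0 < g) (hv : 0 < v) (hρ : 0 ≤ ρ) (hk : 0 ≤ k)
    (hD : |D| ≤ A * (18 * k * v)) (hvg : v ≤ 2 * g) (hd : |v ^ 2 - g ^ 2| ≤ 6 * k * v ^ 2) :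
    |(D + A ^ 2) / (g ^ 2 / ρ ^ 2) - A ^ 2 * ρ ^ 2 / v ^ 2|
      ≤ 72 * k * (Real.sqrt (A ^ 2 * ρ ^ 2 / v ^ 2) * ρ + A ^ 2 * ρ ^ 2 / v ^ 2) := by
  have hs : Real.sqrt (A ^ 2 * ρ ^ 2 / v ^ 2) = A * ρ / v := by
    rw [show A ^ 2 * ρ ^ 2 / v ^ 2 = (A * ρ / v) ^ 2 by ring, Real.sqrt_sq (by positivity)]
  rw [hs]
  have e : (D + A ^ 2) / (g ^ 2 / ρ ^ 2) - A ^ 2 * ρ ^ 2 / v ^ 2
      = D * (ρ ^ 2 / g ^ 2) + (v ^ 2 - g ^ 2) * (A ^ 2 * ρ ^ 2 / (g ^ 2 * v ^ 2)) := by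
    rw [div_div_eq_mul_div]
    field_simp
    ring
  have h4 : v ^ 2 ≤ 4 * g ^ 2 := by nlinarith
  have q1 : v / g ^ 2 ≤ 4 / v := by
    rw [div_le_div_iff₀ (by positivity) hv]
    nlinarith
  have q2 : 1 / g ^ 2 ≤ 4 / v ^ 2 := by
    rw [div_le_div_iff₀ (by positivity) (by positivity)]
    nlinarith
  have b1 : |D * (ρ ^ 2 / g ^ 2)| ≤ 72 * k * (A * ρ / v * ρ) := by
    rw [abs_mul, abs_of_nonneg (by positivity : 0 ≤ ρ ^ 2 / g ^ 2)]
    calc |D| * (ρ ^ 2 / g ^ 2) ≤ A * (18 * k * v) * (ρ ^ 2 / g ^ 2) := by gcongr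
      _ = 18 * k * A * ρ ^ 2 * (v / g ^ 2) := by ring
      _ ≤ 18 * k * A * ρ ^ 2 * (4 / v) := by gcongr
      _ = 72 * k * (A * ρ / v * ρ) := by ring
  have b2 : |(v ^ 2 - g ^ 2) * (A ^ 2 * ρ ^ 2 / (g ^ 2 * v ^ 2))| ≤ 72 * k * (A ^ 2 * ρ ^ 2 / v ^ 2) := by
    rw [abs_mul, abs_of_nonneg (by positivity : 0 ≤ A ^ 2 * ρ ^ 2 / (g ^ 2 * v ^ 2))]
    calc |v ^ 2 - g ^ 2| * (A ^ 2 * ρ ^ 2 / (g ^ 2 * v ^ 2))
        ≤ 6 * k * v ^ 2 * (A ^ 2 * ρ ^ 2 / (g ^ 2 * v ^ 2)) := by gcongr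
      _ = 6 * k * A ^ 2 * ρ ^ 2 * (1 / g ^ 2) := by field_simp
      _ ≤ 6 * k * A ^ 2 * ρ ^ 2 * (4 / v ^ 2) := by gcongr
      _ = 24 * k * (A ^ 2 * ρ ^ 2 / v ^ 2) := by ring
      _ ≤ 72 * k * (A ^ 2 * ρ ^ 2 / v ^ 2) := by
        have : 0 ≤ k * (A ^ 2 * ρ ^ 2 / v ^ 2) := by positivity
        nlinarith
  rw [e]
  calc _ ≤ _ := abs_add_le _ _
    _ ≤ _ := add_le_add b1 b2
    _ = _ := by ring

/-- comparison of `rtl` with the radial tilt density (leaf `L-Freq-hor-rtl`).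
PLAN.  `rtl - rwt = ρ² [⟨(1-P)V, (1-P)(J_z G - V)⟩/|G|² + bet (1/|G|² - 1/|V|²)]`, `J_z G - V = (J_z² - 1) V`, `‖J_z² - 1‖ ≤ C κ |z|`,
`|V| ≤ 2 |G|`, `||V|² - |G|²| ≤ C κ |z| |V|²` (`Vv_facts`). -/
theorem rtl_est (m n : ℕ) : ∃ h₀ C : ℝ, 0 < h₀ ∧ 0 < C ∧ ∀ (κ : ℝ) (u : E m → E n), Geo κ u → ∀ X ∈ Tub u h₀,
    ∀ P : E (m + n) →L[ℝ] E (m + n), IsProj m P →
    |rtl u P X - rwt u P X| ≤ C * κ * ‖zz u X‖ * (Real.sqrt (rwt u P X) * rho u (npr u X) + rwt u P X) := by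
  refine ⟨2 / 9, 72, by norm_num, by norm_num, fun κ u hu X hX P hP => ?_⟩
  obtain ⟨-, hJV, -, -, hJ1, -, -, hGV, hVG, hsq, -⟩ := Vv_facts_of_le hu hX
  have hκ := hu.nonneg
  set V := Vv u X with hV
  set G := Gv u (npr u X) with hG
  set J := Jz u X with hJ
  by_cases hg : ‖G‖ = 0
  · have hv : V = 0 := by
      rw [← norm_eq_zero]
      exact le_antisymm (by rw [hg] at hVG; simpa using hVG) (norm_nonneg _)
    have e1 : rtl u P X = 0 := by rw [rtl, ← hV, hv]; simp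
    have e2 : rwt u P X = 0 := by rw [rwt, ← hV, hv]; simp
    rw [e1, e2]; simp
  · have hg0 : 0 < ‖G‖ := lt_of_le_of_ne (norm_nonneg _) (Ne.symm hg)
    have hv0 : 0 < ‖V‖ := by linarith
    set a := V - P V with ha
    set d := J G - V with hd
    have hPa : P a = 0 := by
      have h1 : P (P V) = P V := congrArg (fun T : E (m + n) →L[ℝ] E (m + n) => T V) hP.idem
      rw [ha, map_sub, h1, sub_self]
    have e1 : inner ℝ a (J G - P (J G)) = inner ℝ a d + ‖a‖ ^ 2 := by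
      have : J G - P (J G) = d - P d + a := by rw [hd, ha, map_sub]; abel
      rw [this, inner_add_right, inner_sub_right, ← hP.symm, hPa, inner_zero_left, sub_zero,
        real_inner_self_eq_norm_sq]
    have hdn : ‖d‖ ≤ 18 * (κ * ‖zz u X‖) * ‖V‖ := by
      have : d = (J - ContinuousLinearMap.id ℝ (E (m + n))) G + (J - ContinuousLinearMap.id ℝ (E (m + n))) V := by
        rw [hd, sub_apply, sub_apply, hJV]
        simp
      rw [this]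
      have b1 := (J - ContinuousLinearMap.id ℝ (E (m + n))).le_opNorm G
      have b2 := (J - ContinuousLinearMap.id ℝ (E (m + n))).le_opNorm V
      have b3 := mul_le_mul_of_nonneg_right hJ1 (norm_nonneg G)
      have b4 := mul_le_mul_of_nonneg_right hJ1 (norm_nonneg V)
      have b5 : 0 ≤ κ * ‖zz u X‖ := by positivity
      have b6 : κ * ‖zz u X‖ * ‖G‖ ≤ κ * ‖zz u X‖ * (2 * ‖V‖) := by gcongr; linarith
      refine (norm_add_le _ _).trans ?_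
      nlinarith
    have hD : |inner ℝ a d| ≤ ‖a‖ * (18 * (κ * ‖zz u X‖) * ‖V‖) :=
      (abs_real_inner_le_norm _ _).trans (by gcongr)
    have key := rtl_arith (norm_nonneg a) hg0 hv0 (rho_nonneg u (npr u X)) (by positivity : 0 ≤ κ * ‖zz u X‖) hD hVG
      (by rw [← mul_assoc]; exact hsq)
    have r1 : rtl u P X = (inner ℝ a d + ‖a‖ ^ 2) / (‖G‖ ^ 2 / rho u (npr u X) ^ 2) := by
      rw [rtl, ← e1]; rfl
    have r2 : rwt u P X = ‖a‖ ^ 2 * rho u (npr u X) ^ 2 / ‖V‖ ^ 2 := rfl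
    rw [r1, r2]
    rw [mul_assoc 72 κ]
    exact key

/-- **divergence theorem on the base** (leaf `L-Freq-hor-div`).
PLAN.  `transfer` (volS): `∫ (φ div_S Xr + Dφ(Xr)) vdens dy = ∫ div (vdens φ Xr) dy = 0` (compact support in `Ω`, `C¹`;
`integral_fderiv`-type lemma for compactly supported functions, coordinatewise: `MeasureTheory.integral_eq_zero_of_hasCompactSupport`-like /
`integral_mul_fderiv_eq_neg_fderiv_mul_of_integrable`; `μH[m]` is a Haar measure, `isAddHaar_hausdorff`);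
`divS u Xc = tr DXc + D(log vdens)(Xc)`; `Dφ(Xr) = - ψ r^{-2} ⟨G, dF Xr⟩ = - ψ ρ²/r²` (`ker_facts`, `Xr_facts`). -/
theorem base_div (m n Q : ℕ) : Unif₀ m n Q (fun N r =>
    ∫ y, phiR N.u r y * divS N.u (Xr N.u) y ∂N.volS = (r ^ 2)⁻¹ * ∫ y, psiR N.u r y * rho N.u y ^ 2 ∂N.volS) := by
  obtain ⟨_, -, hXf⟩ := Xr_facts m n
  refine ⟨4, 1 / 2, by norm_num, fun J k κ Ca N r hJ hκ h => ?_⟩
  have hG := h.geo hJ hκ
  exact base_div_aux N hG h.Ω_eq h.r_pos h.r_le (Xr N.u) (Xr_contDiff hG)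
    fun y hy => (hXf κ N.u hG y hy).2.1

/-- `rtl = ρ² - ⟨P V, J_z X₀⟩` -/
theorem rtl_eq {κ : ℝ} {u : E m → E n} (hu : Geo κ u) {X : E (m + n)} (hX : X ∈ Tub u (2 / 9))
    {P : E (m + n) →L[ℝ] E (m + n)} (hP : IsProj m P) :
    rtl u P X = rho u (npr u X) ^ 2 - inner ℝ (P (Vv u X)) (lift u (Xr u) X) := by
  obtain ⟨-, hJV, -, hJs, -⟩ := Vv_facts_of_le hu hX
  have e1 : lift u (Xr u) X = (ww u (npr u X))⁻¹ • Jz u X (Gv u (npr u X)) := by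
    rw [lift, tanF_Xr hu, map_smul]
  have e2 : inner ℝ (Vv u X) (Jz u X (Gv u (npr u X))) = ‖Gv u (npr u X)‖ ^ 2 := by
    rw [← hJs, hJV, real_inner_self_eq_norm_sq]
  rw [rtl, inner_compl_compl hP, e2, sub_div, Gv_sq_div_ww hu, e1, inner_smul_right, hP.symm]
  ring

theorem rtl_abs_le {κ : ℝ} {u : E m → E n} (hu : Geo κ u) {X : E (m + n)} (hX : X ∈ Tub u (2 / 9))
    {P : E (m + n) →L[ℝ] E (m + n)} (hP : IsProj m P) :
    |rtl u P X| ≤ 5 * rho u (npr u X) ^ 2 := by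
  obtain ⟨-, hJV, -, hJs, -, -, -, -, hVG, -⟩ := Vv_facts_of_le hu hX
  have hS := hu.norm_Shp_zz_le_half le_rfl hX
  have e2 : inner ℝ (Vv u X) (Jz u X (Gv u (npr u X))) = ‖Gv u (npr u X)‖ ^ 2 := by
    rw [← hJs, hJV, real_inner_self_eq_norm_sq]
  have hw : 0 ≤ ww u (npr u X) := by unfold ww; positivity
  have b0 : ‖P (Jz u X (Gv u (npr u X)))‖ ≤ 2 * ‖Gv u (npr u X)‖ := by
    have h1 := P.le_opNorm (Jz u X (Gv u (npr u X)))
    have h2 := (Jz u X).le_opNorm (Gv u (npr u X))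
    have h3 : ‖Jz u X‖ ≤ 2 := norm_Jw_le hS
    have h4 := Base.isProj_norm_le_one hP
    have h5 := mul_le_mul_of_nonneg_right h3 (norm_nonneg (Gv u (npr u X)))
    have h6 := mul_le_mul_of_nonneg_right h4 (norm_nonneg (Jz u X (Gv u (npr u X))))
    linarith
  have b1 : |inner ℝ (Vv u X) (P (Jz u X (Gv u (npr u X))))| ≤ 4 * ‖Gv u (npr u X)‖ ^ 2 := by
    calc _ ≤ ‖Vv u X‖ * ‖P (Jz u X (Gv u (npr u X)))‖ := abs_real_inner_le_norm _ _
      _ ≤ (2 * ‖Gv u (npr u X)‖) * (2 * ‖Gv u (npr u X)‖) := by gcongr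
      _ = _ := by ring
  have b2 : |inner ℝ (Vv u X) (P (Jz u X (Gv u (npr u X)))) / ww u (npr u X)| ≤ 4 * rho u (npr u X) ^ 2 := by
    rw [abs_div, abs_of_nonneg hw]
    calc _ ≤ 4 * ‖Gv u (npr u X)‖ ^ 2 / ww u (npr u X) := by gcongr
      _ = _ := by rw [mul_div_assoc, Gv_sq_div_ww hu]
  rw [rtl, inner_compl_compl hP, e2, sub_div, Gv_sq_div_ww hu]
  have h0 : 0 ≤ rho u (npr u X) ^ 2 := by positivity
  rw [abs_le] at b2 ⊢
  constructor <;> linarith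

theorem continuous_nabS {u : E m → E n} (hu : ContDiff ℝ 2 u) {Xc : E m → E m} (hX : ContDiff ℝ 1 Xc) :
    Continuous (nabS u Xc) := by
  have h1 : ContDiff ℝ 1 (tanF u Xc) := (contDiff_dF_Du (k := 1) (by exact_mod_cast hu)).clm_apply hX
  have h2 : Continuous (Ph u) := (contDiff_Ph_of (k := 1) (by exact_mod_cast hu)).continuous
  have h3 : Continuous (fun y => dFp (fderiv ℝ u y)) := (contDiff_dFp_Du (k := 1) (by exact_mod_cast hu)).continuous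
  exact h2.clm_comp ((h1.continuous_fderiv (by norm_num)).clm_comp h3)

theorem continuous_divS {u : E m → E n} (hu : ContDiff ℝ 2 u) {Xc : E m → E m} (hX : ContDiff ℝ 1 Xc) :
    Continuous (divS u Xc) := by
  have h1 : Continuous fun y => trc (fderiv ℝ Xc y) :=
    (trcL m).continuous.comp (hX.continuous_fderiv (by norm_num))
  have h2 := (Lin.contDiff_log_vdens_Du hu).continuous_fderiv (by norm_num)
  exact h1.add (h2.clm_apply hX.continuous)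

/-- linearity bookkeeping of `hor_id` -/
theorem hor_lin {α : Type*} [MeasurableSpace α] {μ : Measure α} {fe fY fd fB ft fρ fr : α → ℝ} {c : ℝ}
    (hY : Integrable fY μ) (hd : Integrable fd μ) (hB : Integrable fB μ) (ht : Integrable ft μ) (hρ : Integrable fρ μ)
    (hr : Integrable fr μ) (h : ∀ᵐ X ∂μ, fe X = fY X - fd X + fB X + ft X + c * (fρ X - fr X)) :
    Integrable fe μ ∧
      ∫ X, fe X ∂μ = ∫ X, fY X ∂μ - ∫ X, fd X ∂μ + ∫ X, fB X ∂μ + ∫ X, ft X ∂μ + c * (∫ X, fρ X ∂μ - ∫ X, fr X ∂μ) := by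
  have J1 : Integrable (fun X => fY X - fd X) μ := hY.sub hd
  have J2 : Integrable (fun X => fY X - fd X + fB X) μ := J1.add hB
  have J3 : Integrable (fun X => fY X - fd X + fB X + ft X) μ := J2.add ht
  have J4 : Integrable (fun X => fρ X - fr X) μ := hρ.sub hr
  have J5 : Integrable (fun X => c * (fρ X - fr X)) μ := J4.const_mul c
  have J6 : Integrable (fun X => fY X - fd X + fB X + ft X + c * (fρ X - fr X)) μ := J3.add J5
  refine ⟨J6.congr (h.mono fun X hX => hX.symm), ?_⟩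
  rw [integral_congr_ae h, integral_add J3 J5, integral_add J2 ht, integral_add J1 hB, integral_sub hY hd,
    integral_const_mul, integral_sub hρ hr]

/-- **the horizontal identity** (leaf `L-Freq-hor-id`).
PLAN.  `Tube.stat_cyl` with `Y = φ(npr) lift u Xr` (`lift_contDiffOn`, `kerT_facts`, `Xr_contDiff`), `hor_point`, definition of `epsZ`;
`tr (B P_h) = tr B = tilt` (`Tube.block_facts`); subtract `Q ×` `base_div`; `transfer`; definitions of `qA`, `qA'`, `qE`, `intM`. -/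
theorem hor_id (m n Q : ℕ) : Unif₀ m n Q (fun N r =>
    Integrable (fun X => psiR N.u r (npr N.u X) * rtl N.u (N.W.P X) X) N.μ ∧
    Integrable (fun X => phiR N.u r (npr N.u X) *
      trc (Bop N.u (N.W.P X) X ∘L (nabS N.u (Xr N.u) (npr N.u X) - Ph N.u (npr N.u X)))) N.μ ∧
    Integrable (fun X => phiR N.u r (npr N.u X) * epsZ N.u (N.W.P X) X) N.μ ∧
    qA' N r = 2 * qA N r - qE N r + (r ^ m)⁻¹ * ∫ X, psiR N.u r (npr N.u X) * rtl N.u (N.W.P X) X ∂N.μ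
      + r ^ 2 * (r ^ m)⁻¹ * (N.intM (fun y => (divS N.u (Xr N.u) y - m) * phiR N.u r y)
        - ∫ X, phiR N.u r (npr N.u X) *
            trc (Bop N.u (N.W.P X) X ∘L (nabS N.u (Xr N.u) (npr N.u X) - Ph N.u (npr N.u X))) ∂N.μ
        + ∫ X, phiR N.u r (npr N.u X) * epsZ N.u (N.W.P X) X ∂N.μ)) := by
  obtain ⟨J1, κ1, hκ1, Hmeas⟩ := meas m n Q
  obtain ⟨J2, κ2, hκ2, Hint⟩ := integrable_base m n Q
  obtain ⟨J3, κ3, hκ3, Htr⟩ := transfer m n Q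
  obtain ⟨J4, κ4, hκ4, Hdiv⟩ := base_div m n Q
  obtain ⟨h5, hh5, Hstat⟩ := stat_cyl m n
  obtain ⟨h6, hh6, Hpt⟩ := hor_point m n
  obtain ⟨h7, hh7, Hlift⟩ := lift_contDiffOn m n
  obtain ⟨h8, hh8, Hok⟩ := Lin.exists_cylOK m n
  obtain ⟨CX, hCX, HX⟩ := Xr_facts m n
  obtain ⟨Cv, hCv, Hv⟩ := Lin.exists_vdens_bound m n
  refine ⟨J1 + J2 + J3 + J4 + 4, min κ1 (min κ2 (min κ3 (min κ4 (min h5 (min h6 (min h7 (min h8 (2 / 9)))))))),
    by positivity, fun J k κ Ca N r hJ hκ hF => ?_⟩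
  simp only [le_min_iff] at hκ
  obtain ⟨k1, k2, k3, k4, k5, k6, k7, k8, k9⟩ := hκ
  have hu : Geo κ N.u := hF.geo (by omega) (k9.trans (by norm_num))
  have hr := hF.r_pos
  have hr1 := hF.r_le
  have hκ0 := hF.κ_nonneg
  have hκ1' : κ ≤ 1 := hu.le_one
  have hh := hF.h_le
  have M : Meas N := Hmeas J k κ Ca N r (by omega) k1 hF
  have HI := Hint J k κ Ca N r (by omega) k2 hF
  have HT := Htr J k κ Ca N r (by omega) k3 hF
  have HD := Hdiv J k κ Ca N r (by omega) k4 hF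
  have ok : Lin.CylOK N := Hok κ N hu (hh.trans k8)
  have hsub : ∀ h₀ : ℝ, κ ≤ h₀ → Cyl N.u N.Ω N.h ⊆ Tub N.u h₀ := fun h₀ h X hX =>
    ⟨npr N.u X, hX.2.trans_le (hh.trans h)⟩
  have hXr : ContDiff ℝ 1 (Xr N.u) := Xr_contDiff hu
  have hc2 : ContDiff ℝ 2 N.u := hu.smooth.of_le (by norm_num)
  obtain ⟨hdep, hout, -, -, hφc, hψc, -, -, hBs, -, -⟩ := ker_facts hu hr
  have hφ01 : ∀ y, 0 ≤ phiR N.u r y ∧ phiR N.u r y ≤ 1 := fun y =>
    ⟨pow_nonneg (hdep y).1 _, pow_le_one₀ (hdep y).1 (hdep y).2⟩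
  have hψ01 : ∀ y, 0 ≤ psiR N.u r y ∧ psiR N.u r y ≤ 20 := fun y => by
    have h1 := pow_nonneg (hdep y).1 9
    have h2 := pow_le_one₀ (n := 9) (hdep y).1 (hdep y).2
    unfold psiR
    constructor <;> linarith
  have hφ0 : ∀ y, y ∉ Bs N.u r → phiR N.u r y = 0 := fun y hy => by rw [phiR, hout y hy]; norm_num
  have hψ0 : ∀ y, y ∉ Bs N.u r → psiR N.u r y = 0 := fun y hy => by rw [psiR, hout y hy]; norm_num
  have hρ1 : ∀ y ∈ Bs N.u r, rho N.u y ≤ 1 := fun y hy => (le_of_lt hy).trans hr1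
  have hρsq : ∀ y ∈ Bs N.u r, rho N.u y ^ 2 ≤ 1 := fun y hy => pow_le_one₀ (rho_nonneg _ _) (hρ1 y hy)
  have hκρ : ∀ y ∈ Bs N.u r, CX * κ * rho N.u y ^ 2 ≤ CX := fun y hy => by
    have h1 := hρsq y hy
    have h2 : 0 ≤ rho N.u y ^ 2 := by positivity
    have h3 : κ * rho N.u y ^ 2 ≤ 1 := by nlinarith
    nlinarith
  -- integrability of `a(π X) g(X)`
  have tool : ∀ (a : E m → ℝ) (g : E (m + n) → ℝ) (A B : ℝ), (∀ y, 0 ≤ a y ∧ a y ≤ A) → (∀ y, y ∉ Bs N.u r → a y = 0) →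
      (∀ X ∈ Cyl N.u N.Ω N.h, npr N.u X ∈ Bs N.u r → |g X| ≤ B) → 0 ≤ B →
      AEStronglyMeasurable (fun X => a (npr N.u X) * g X) N.μ → Integrable (fun X => a (npr N.u X) * g X) N.μ := by
    intro a g A B ha ha0 hg hB hm
    have hA : 0 ≤ A := (ha 0).1.trans (ha 0).2
    refine (HI _ (A * B) (by positivity) hm ?_ (fun X hX => by rw [ha0 _ hX, zero_mul])).1
    filter_upwards [ok.ae_cyl] with X hX
    by_cases hb : npr N.u X ∈ Bs N.u r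
    · rw [abs_mul, abs_of_nonneg (ha _).1]
      exact mul_le_mul (ha _).2 (hg X hX hb) (abs_nonneg _) hA
    · rw [ha0 _ hb, zero_mul, abs_zero]; positivity
  -- measurability
  have mφ : AEStronglyMeasurable (fun X => phiR N.u r (npr N.u X)) N.μ := ok.aesm_comp_npr hφc.continuous
  have mψ : AEStronglyMeasurable (fun X => psiR N.u r (npr N.u X)) N.μ := ok.aesm_comp_npr hψc.continuous
  have mlift : AEStronglyMeasurable (lift N.u (Xr N.u)) N.μ :=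
    ok.aesm ((Hlift κ N.u hu _ hXr).continuousOn.mono (hsub _ k7))
  have hρc : Continuous (fun y => rho N.u y ^ 2) := (hasFDerivAt_rho_sq hu 0).2.continuous
  have mρ : AEStronglyMeasurable (fun X => rho N.u (npr N.u X) ^ 2) N.μ := ok.aesm_comp_npr hρc
  have mrtl : AEStronglyMeasurable (fun X => rtl N.u (N.W.P X) X) N.μ := by
    refine (mρ.sub (M.mPV.inner mlift)).congr ?_
    filter_upwards [ok.ae_cyl] with X hX
    exact (rtl_eq hu (hsub _ k9 hX) (N.W.P_proj X)).symm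
  have hT : Continuous (fun y => nabS N.u (Xr N.u) y - Ph N.u y) := (continuous_nabS hc2 hXr).sub ok.continuous_Ph
  have mB : AEStronglyMeasurable (fun X =>
      trc (Bop N.u (N.W.P X) X ∘L (nabS N.u (Xr N.u) (npr N.u X) - Ph N.u (npr N.u X)))) N.μ := by
    have hy : Continuous fun q : (E (m + n) →L[ℝ] E (m + n)) × E m × E (m + n) => q.2.1 :=
      continuous_fst.comp continuous_snd
    exact ok.aesm3 (Φ := fun q => trc ((Ph N.u q.2.1 ∘L (ContinuousLinearMap.id ℝ _ - q.1) ∘L Ph N.u q.2.1) ∘L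
        (nabS N.u (Xr N.u) q.2.1 - Ph N.u q.2.1)))
      ((trcL (m + n)).continuous.comp (((ok.continuous_Ph.comp hy).clm_comp ((continuous_const.sub continuous_fst).clm_comp
        (ok.continuous_Ph.comp hy))).clm_comp (hT.comp hy)))
  have hdc := continuous_divS hc2 hXr
  have mdiv : AEStronglyMeasurable (fun X => divS N.u (Xr N.u) (npr N.u X)) N.μ := ok.aesm_comp_npr hdc
  have hdivb : ∀ y ∈ Bs N.u r, |divS N.u (Xr N.u) y| ≤ m + CX := fun y hy => by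
    have h1 := (HX κ N.u hu y (hρ1 y hy)).2.2.2.2
    have h2 := hκρ y hy
    rw [abs_le] at h1 ⊢
    have h3 : (0 : ℝ) ≤ m := Nat.cast_nonneg _
    constructor <;> linarith
  -- integrability
  have I_rtl : Integrable (fun X => psiR N.u r (npr N.u X) * rtl N.u (N.W.P X) X) N.μ :=
    tool _ _ 20 5 hψ01 hψ0 (fun X hX hb => (rtl_abs_le hu (hsub _ k9 hX) (N.W.P_proj X)).trans
      (by have := hρsq _ hb; linarith)) (by norm_num) (mψ.mul mrtl)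
  have I_B : Integrable (fun X => phiR N.u r (npr N.u X) *
      trc (Bop N.u (N.W.P X) X ∘L (nabS N.u (Xr N.u) (npr N.u X) - Ph N.u (npr N.u X)))) N.μ :=
    tool _ _ 1 (m * CX) hφ01 hφ0 (fun X hX hb => by
      refine (abs_trc_Bop_comp_le N.u (N.W.P_proj X) X _).trans ?_
      exact mul_le_mul (tilt_le N.u (N.W.P_proj X) X) (((HX κ N.u hu _ (hρ1 _ hb)).2.2.2.1).trans (hκρ _ hb))
        (norm_nonneg _) (Nat.cast_nonneg _)) (by positivity) (mφ.mul mB)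
  have I_div : Integrable (fun X => phiR N.u r (npr N.u X) * divS N.u (Xr N.u) (npr N.u X)) N.μ :=
    tool _ _ 1 (m + CX) hφ01 hφ0 (fun X _ hb => hdivb _ hb) (by positivity) (mφ.mul mdiv)
  have I_tilt : Integrable (fun X => phiR N.u r (npr N.u X) * tilt N.u (N.W.P X) X) N.μ :=
    tool _ _ 1 m hφ01 hφ0 (fun X _ _ => by
      rw [abs_of_nonneg (tilt_nonneg N.u (N.W.P_proj X) X)]
      exact tilt_le N.u (N.W.P_proj X) X) (Nat.cast_nonneg _) (mφ.mul ok.aesm_tilt)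
  have I_ρ : Integrable (fun X => psiR N.u r (npr N.u X) * rho N.u (npr N.u X) ^ 2) N.μ :=
    tool _ (fun X => rho N.u (npr N.u X) ^ 2) 20 1 hψ01 hψ0 (fun X _ hb => by
      rw [abs_of_nonneg (by positivity)]
      exact hρsq _ hb) zero_le_one (mψ.mul mρ)
  have I_φ : Integrable (fun X => phiR N.u r (npr N.u X)) N.μ := by
    have := tool _ (fun _ => (1 : ℝ)) 1 1 hφ01 hφ0 (fun X _ _ => by simp) zero_le_one (by simpa using mφ)
    simpa using this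
  -- stationarity
  obtain ⟨I_Y, hY0⟩ := Hstat κ N hu (hh.trans k5) (fun X => phiR N.u r (npr N.u X) • lift N.u (Xr N.u) X)
    (Metric.closedBall 0 r)
    (((kerT_facts_of_le hu hr).1.mono (hsub _ k9)).smul ((Hlift κ N.u hu _ hXr).mono (hsub _ k7)))
    (isCompact_closedBall _ _) (by rw [hF.Ω_eq]; exact Metric.closedBall_subset_ball (by linarith))
    (fun X _ hK => by rw [hφ0 _ (fun hb => hK (Metric.ball_subset_closedBall (hBs hb))), zero_smul])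
  have hpt : ∀ X ∈ Cyl N.u N.Ω N.h,
      phiR N.u r (npr N.u X) * epsZ N.u (N.W.P X) X =
        tdiv (N.W.P X) (fderiv ℝ (fun X => phiR N.u r (npr N.u X) • lift N.u (Xr N.u) X) X)
        - phiR N.u r (npr N.u X) * divS N.u (Xr N.u) (npr N.u X)
        + phiR N.u r (npr N.u X) *
            trc (Bop N.u (N.W.P X) X ∘L (nabS N.u (Xr N.u) (npr N.u X) - Ph N.u (npr N.u X)))
        + phiR N.u r (npr N.u X) * tilt N.u (N.W.P X) X
        + (r ^ 2)⁻¹ * (psiR N.u r (npr N.u X) * rho N.u (npr N.u X) ^ 2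
            - psiR N.u r (npr N.u X) * rtl N.u (N.W.P X) X) := by
    intro X hX
    have h1 := Hpt κ N.u hu r hr X (hsub _ k6 hX) (N.W.P X) (N.W.P_proj X)
    have h2 : trc (Bop N.u (N.W.P X) X ∘L nabS N.u (Xr N.u) (npr N.u X))
        = trc (Bop N.u (N.W.P X) X ∘L (nabS N.u (Xr N.u) (npr N.u X) - Ph N.u (npr N.u X)))
          + tilt N.u (N.W.P X) X := by
      have e : Bop N.u (N.W.P X) X ∘L Ph N.u (npr N.u X) = Bop N.u (N.W.P X) X := by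
        unfold Bop
        rw [ContinuousLinearMap.comp_assoc, ContinuousLinearMap.comp_assoc, Ph_comp_Ph]
      rw [(block_facts m n κ N.u hu X _ (N.W.P_proj X)).2.2.1, ContinuousLinearMap.comp_sub, trc_sub, e]
      ring
    rw [h1, epsZ, h2]
    ring
  obtain ⟨I_eps, hint⟩ := hor_lin (c := (r ^ 2)⁻¹) I_Y I_div I_B I_tilt I_ρ I_rtl
    (ok.ae_cyl.mono fun X hX => hpt X hX)
  -- transfer to the base
  have mφb : Measurable (phiR N.u r) := hφc.continuous.measurable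
  have mψρ : Measurable (fun y => psiR N.u r y * rho N.u y ^ 2) := (hψc.continuous.mul hρc).measurable
  have cdφ : Continuous (fun y => (divS N.u (Xr N.u) y - m) * phiR N.u r y) :=
    (hdc.sub continuous_const).mul hφc.continuous
  have t1 := (HT _ mφb).1
  have t2 := (HT _ mφb).2.1
  have t3 := (HT _ mψρ).1
  have t4 := (HT _ cdφ.measurable).1
  have t5 : ∫ X, (divS N.u (Xr N.u) (npr N.u X) - m) * phiR N.u r (npr N.u X) ∂N.μ
      = ∫ X, phiR N.u r (npr N.u X) * divS N.u (Xr N.u) (npr N.u X) ∂N.μ - m * ∫ X, phiR N.u r (npr N.u X) ∂N.μ := by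
    have e : (fun X => (divS N.u (Xr N.u) (npr N.u X) - m) * phiR N.u r (npr N.u X))
        = fun X => phiR N.u r (npr N.u X) * divS N.u (Xr N.u) (npr N.u X) - m * phiR N.u r (npr N.u X) := by
      funext X; ring
    rw [e, integral_sub I_div (I_φ.const_mul _), integral_const_mul]
  have : IsFiniteMeasure N.volS := ⟨by
    have := Lin.volS_le N (Cv := Cv) (fun y => Hv _ ((hu.slope y).trans (by norm_num))) Set.univ
    rw [hF.Ω_eq, hausdorff_ball m 0 (by norm_num : (0 : ℝ) < 4)] at this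
    exact this.trans_lt (ENNReal.mul_lt_top ENNReal.ofReal_lt_top ENNReal.ofReal_lt_top)⟩
  have V_φ : Integrable (phiR N.u r) N.volS :=
    Integrable.of_bound hφc.continuous.aestronglyMeasurable 1 (ae_of_all _ fun y => by
      rw [Real.norm_eq_abs, abs_of_nonneg (hφ01 y).1]; exact (hφ01 y).2)
  have V_div : Integrable (fun y => phiR N.u r y * divS N.u (Xr N.u) y) N.volS :=
    Integrable.of_bound (hφc.continuous.mul hdc).aestronglyMeasurable (m + CX) (ae_of_all _ fun y => by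
      rw [Real.norm_eq_abs]
      by_cases hb : y ∈ Bs N.u r
      · rw [abs_mul, abs_of_nonneg (hφ01 y).1]
        calc _ ≤ 1 * (m + CX) := mul_le_mul (hφ01 y).2 (hdivb y hb) (abs_nonneg _) zero_le_one
          _ = _ := one_mul _
      · rw [hφ0 y hb, zero_mul, abs_zero]; positivity)
  have v5 : ∫ y, (divS N.u (Xr N.u) y - m) * phiR N.u r y ∂N.volS
      = ∫ y, phiR N.u r y * divS N.u (Xr N.u) y ∂N.volS - m * ∫ y, phiR N.u r y ∂N.volS := by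
    have e : (fun y => (divS N.u (Xr N.u) y - m) * phiR N.u r y)
        = fun y => phiR N.u r y * divS N.u (Xr N.u) y - m * phiR N.u r y := by
      funext y; ring
    rw [e, integral_sub V_div (V_φ.const_mul _), integral_const_mul]
  refine ⟨I_rtl, I_B, I_eps, ?_⟩
  simp only [qA', qA, qE, NCyl.intM]
  rw [t1, t2, t3, t4, t5, v5, HD, hint, hY0]
  have hr2 : r ^ 2 ≠ 0 := by positivity
  field_simp
  ring

/-- optimisation of `t A + B / t` (aux of `hor_R`) -/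
theorem hrz_opt {A B D : ℝ} (hA : 0 ≤ A) (hB : 0 ≤ B) (h : ∀ t : ℝ, 0 < t → 2 * D ≤ t * A + B / t) :
    D ≤ Real.sqrt (A * B) := by
  rcases le_or_gt D 0 with hD | hD
  · exact hD.trans (Real.sqrt_nonneg _)
  · have hq : ∀ x : ℝ, 0 ≤ A * (x * x) + (-(2 * D)) * x + B := by
      intro x
      rcases le_or_gt x 0 with hx | hx
      · have h1 : 0 ≤ A * (x * x) := mul_nonneg hA (mul_self_nonneg x)
        have h2 : 0 ≤ (-(2 * D)) * x := mul_nonneg_of_nonpos_of_nonpos (by linarith) hx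
        linarith
      · have h1 := mul_le_mul_of_nonneg_right (h x hx) hx.le
        have h2 : (x * A + B / x) * x = A * (x * x) + B := by field_simp
        rw [h2] at h1
        linarith
    have h3 := discrim_le_zero hq
    unfold discrim at h3
    refine Real.le_sqrt_of_sq_le ?_
    nlinarith

/-- pointwise arithmetic of `hor_R` -/
theorem hrz_ptR {C₂ κ z d r ρ w p t x : ℝ} (hC₂ : 0 < C₂) (hκ0 : 0 ≤ κ) (hκ1 : κ ≤ 1) (hz0 : 0 ≤ z)
    (hz1 : z ≤ d * r) (hρ0 : 0 ≤ ρ) (hρr : ρ ≤ r) (hr : 0 < r) (hw : 0 ≤ w) (hp : 0 ≤ p) (ht : 0 < t)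
    (h1 : |x - w| ≤ C₂ * κ * z * (Real.sqrt w * ρ + w)) :
    |p * x - p * w| ≤ C₂ * r / 2 * t * (p * z ^ 2)
      + (C₂ * r / 2 / t * (p * w) + C₂ * (d * r) * (p * w)) := by
  set s := Real.sqrt w with hs
  have hs0 : 0 ≤ s := Real.sqrt_nonneg _
  have hs2 : s ^ 2 = w := Real.sq_sqrt hw
  have hy1 : z * s ≤ (t * z ^ 2 + w / t) / 2 := by
    rw [← hs2]
    have h2 : 0 ≤ (t * z - s) ^ 2 / t := by positivity
    have h3 : (t * z - s) ^ 2 / t = t * z ^ 2 + s ^ 2 / t - 2 * (z * s) := by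
      field_simp
      ring
    linarith
  have h5 : C₂ * κ ≤ C₂ := by nlinarith
  have h7 : z * s * ρ ≤ z * s * r := mul_le_mul_of_nonneg_left hρr (mul_nonneg hz0 hs0)
  have h8 : z * s * r ≤ (t * z ^ 2 + w / t) / 2 * r := mul_le_mul_of_nonneg_right hy1 hr.le
  have h9 : z * w ≤ d * r * w := mul_le_mul_of_nonneg_right hz1 hw
  have h6 : z * (s * ρ + w) ≤ r * ((t * z ^ 2 + w / t) / 2) + d * r * w := by
    have e1 : z * (s * ρ + w) = z * s * ρ + z * w := by ring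
    rw [e1]
    linarith
  have h4 : C₂ * κ * z * (s * ρ + w) ≤ C₂ * (r * ((t * z ^ 2 + w / t) / 2) + d * r * w) := by
    calc C₂ * κ * z * (s * ρ + w) = C₂ * κ * (z * (s * ρ + w)) := by ring
      _ ≤ C₂ * (r * ((t * z ^ 2 + w / t) / 2) + d * r * w) :=
        mul_le_mul h5 h6 (by positivity) hC₂.le
  rw [← mul_sub, abs_mul, abs_of_nonneg hp]
  refine (mul_le_mul_of_nonneg_left (h1.trans h4) hp).trans (le_of_eq ?_)
  field_simp
  ring

/-- final arithmetic of `hor_R` -/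
theorem hrz_finR {C₂ C₃ r d E R H Z L : ℝ} (hC₂ : 0 < C₂) (hC₃ : 1 ≤ C₃) (hr : 0 < r) (hr1 : r ≤ 1)
    (sd : 0 < d) (sE : 0 ≤ E) (sR : 0 ≤ R) (sH : 0 ≤ H) (hZ : Z ≤ C₃ * (H + d ^ 2 * (E + R)))
    (hL : L ≤ C₂ * r * Real.sqrt (Z * R) + C₂ * (d * r) * R) :
    L ≤ (1 + (C₂ * C₃ + C₂)) * (r * Real.sqrt (R * H) + d * (E + R)) := by
  set s := Real.sqrt (R * H) with hs
  have hs0 : 0 ≤ s := Real.sqrt_nonneg _
  have hs2 : s ^ 2 = R * H := Real.sq_sqrt (mul_nonneg sR sH)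
  set w := d * (E + R) with hw
  have hw0 : 0 ≤ w := mul_nonneg sd.le (add_nonneg sE sR)
  have hCr : 0 < C₂ * r := by positivity
  have hsqrt : Real.sqrt (Z * R) ≤ C₃ * (s + w) := by
    refine Real.sqrt_le_iff.2 ⟨by positivity, ?_⟩
    have h1 : Z * R ≤ C₃ * (H + d ^ 2 * (E + R)) * R := mul_le_mul_of_nonneg_right hZ sR
    have h2 : (H + d ^ 2 * (E + R)) * R ≤ s ^ 2 + w ^ 2 := by
      rw [hs2, hw]
      have : 0 ≤ d ^ 2 * (E + R) * E := mul_nonneg (mul_nonneg (by positivity) (add_nonneg sE sR)) sE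
      nlinarith
    have h3 : s ^ 2 + w ^ 2 ≤ (s + w) ^ 2 := by nlinarith
    have h4 : C₃ * (s + w) ^ 2 ≤ C₃ ^ 2 * (s + w) ^ 2 :=
      mul_le_mul_of_nonneg_right (by nlinarith) (by positivity)
    calc Z * R ≤ C₃ * ((H + d ^ 2 * (E + R)) * R) := by linarith
      _ ≤ C₃ * (s + w) ^ 2 := mul_le_mul_of_nonneg_left (h2.trans h3) (by linarith)
      _ ≤ (C₃ * (s + w)) ^ 2 := by rw [mul_pow]; exact h4
  have h5 : C₂ * r * Real.sqrt (Z * R) ≤ C₂ * r * (C₃ * (s + w)) :=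
    mul_le_mul_of_nonneg_left hsqrt hCr.le
  have h6 : C₂ * (d * r) * R ≤ C₂ * w := by
    have : d * r * R ≤ w := by
      rw [hw]
      have h7 : d * r * R ≤ d * 1 * R :=
        mul_le_mul_of_nonneg_right (mul_le_mul_of_nonneg_left hr1 sd.le) sR
      nlinarith [mul_nonneg sd.le sE]
    calc C₂ * (d * r) * R = C₂ * (d * r * R) := by ring
      _ ≤ C₂ * w := mul_le_mul_of_nonneg_left this hC₂.le
  have h7 : C₂ * r * (C₃ * (s + w)) ≤ C₂ * C₃ * (r * s + w) := by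
    have h10 : r * w ≤ w := by nlinarith
    have h8 : 0 ≤ C₂ * C₃ := by positivity
    calc C₂ * r * (C₃ * (s + w)) = C₂ * C₃ * (r * s + r * w) := by ring
      _ ≤ C₂ * C₃ * (r * s + w) := mul_le_mul_of_nonneg_left (by linarith) h8
  have h9 : 0 ≤ r * s := mul_nonneg hr.le hs0
  have h11 : C₂ * w ≤ C₂ * (r * s + w) := mul_le_mul_of_nonneg_left (by linarith) hC₂.le
  calc L ≤ C₂ * C₃ * (r * s + w) + C₂ * (r * s + w) := by linarith
    _ ≤ (1 + (C₂ * C₃ + C₂)) * (r * s + w) := by nlinarith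

/-- `R~ - R` (leaf `L-Freq-hor-R`).  PLAN.  `rtl_est`, `|z| ≤ δ r`, `ρ ≤ r`, Cauchy-Schwarz `∫ ψ |z| sqrt(rwt) ≤ sqrt(∫ ψ |z|²) sqrt(∫ ψ rwt)`;
`wcompB`: `sqrt (R Zψ) ≤ C (sqrt (R H) + δ (E + R))`. -/
theorem hor_R (m n Q : ℕ) (hm : 1 ≤ m) : Unif m n Q (fun C N r =>
    |(r ^ m)⁻¹ * ∫ X, psiR N.u r (npr N.u X) * rtl N.u (N.W.P X) X ∂N.μ - qR N r|
      ≤ C * (r * Real.sqrt (qR N r * qH N r) + qd N r * (qE N r + qR N r))) := by
  obtain ⟨J₁, κ₁, hκ₁, hints⟩ := ints m n Q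
  obtain ⟨J₂, κ₂, hκ₂, hsg⟩ := signs m n Q
  obtain ⟨J₃, κ₃, hκ₃, hht⟩ := ae_height m n Q
  obtain ⟨J₄, κ₄, hκ₄, hid⟩ := hor_id m n Q
  obtain ⟨J₅, κ₅, hκ₅, hwB⟩ := wcompB m n Q hm
  obtain ⟨h₀, C₂, hh₀, hC₂, hrtl⟩ := rtl_est m n
  refine ⟨max (max (max J₁ J₂) (max J₃ J₄)) (max J₅ 4),
    min (min (min κ₁ κ₂) (min κ₃ κ₄)) (min κ₅ (min h₀ (1 / 2))), by positivity, fun Ca => ?_⟩
  obtain ⟨C₃, r₀, hC₃, hr₀, hwB⟩ := hwB Ca
  refine ⟨1 + (C₂ * C₃ + C₂), r₀, by nlinarith, hr₀, ?_⟩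
  intro J k κ N r hJ hκ hrr hF
  simp only [max_le_iff] at hJ
  simp only [le_min_iff] at hκ
  obtain ⟨⟨⟨hJ1, hJ2⟩, hJ3, hJ4⟩, hJ5, hJ6⟩ := hJ
  obtain ⟨⟨⟨hk1, hk2⟩, hk3, hk4⟩, hk5, hk6, hk7⟩ := hκ
  have hgeo : Geo κ N.u := hF.geo hJ6 hk7
  have I : Ints N r := hints J k κ Ca N r hJ1 hk1 hF
  obtain ⟨sH, sE, sR, -, sZ, -, -, sd⟩ := hsg J k κ Ca N r hJ2 hk2 hF
  obtain ⟨-, hae, hz⟩ := hht J k κ Ca N r hJ3 hk3 hF
  obtain ⟨irtl, -, -, -⟩ := hid J k κ Ca N r hJ4 hk4 hF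
  obtain ⟨-, hZψ⟩ := hwB J k κ N r hJ5 hk5 hrr hF
  clear hints hsg hht hid hwB
  have hr : 0 < r := hF.r_pos
  have hr1 : r ≤ 1 := hF.r_le
  have hκ0 : 0 ≤ κ := hF.κ_nonneg
  have ha : 0 < (r ^ m)⁻¹ := by positivity
  refine hrz_finR hC₂ hC₃ hr hr1 sd sE sR sH.le hZψ ?_
  set A : ℝ := ∫ X, psiR N.u r (npr N.u X) * ‖zz N.u X‖ ^ 2 ∂N.μ with hA
  set B : ℝ := ∫ X, psiR N.u r (npr N.u X) * rwt N.u (N.W.P X) X ∂N.μ with hB
  have hA0 : 0 ≤ A := integral_nonneg fun X =>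
    mul_nonneg (flw_ker N.u hr _).2.1 (by positivity)
  have hB0 : 0 ≤ B := integral_nonneg fun X =>
    mul_nonneg (flw_ker N.u hr _).2.1 (by unfold rwt bet; positivity)
  set D₀ : ℝ := ∫ X, (psiR N.u r (npr N.u X) * rtl N.u (N.W.P X) X
      - psiR N.u r (npr N.u X) * rwt N.u (N.W.P X) X) ∂N.μ with hD₀
  -- the estimate with a parameter
  have hpar : ∀ t : ℝ, 0 < t →
      |D₀| ≤ C₂ * r / 2 * t * A + (C₂ * r / 2 / t * B + C₂ * (qd N r * r) * B) := by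
    intro t ht
    have hpw : ∀ᵐ X ∂N.μ, ‖psiR N.u r (npr N.u X) * rtl N.u (N.W.P X) X
        - psiR N.u r (npr N.u X) * rwt N.u (N.W.P X) X‖ ≤
        C₂ * r / 2 * t * (psiR N.u r (npr N.u X) * ‖zz N.u X‖ ^ 2)
          + (C₂ * r / 2 / t * (psiR N.u r (npr N.u X) * rwt N.u (N.W.P X) X)
          + C₂ * (qd N r * r) * (psiR N.u r (npr N.u X) * rwt N.u (N.W.P X) X)) := by
      filter_upwards [hae, hz] with X hX hzX
      obtain ⟨-, p0, -, off, -⟩ := flw_ker N.u hr (npr N.u X)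
      by_cases hy : npr N.u X ∈ Bs N.u r
      · have hT : X ∈ Tub N.u h₀ := ⟨npr N.u X, lt_of_lt_of_le hX.2.2 (hF.h_le.trans hk6)⟩
        rw [Real.norm_eq_abs]
        exact hrz_ptR hC₂ hκ0 hgeo.le_one (norm_nonneg _) (hzX hy) (norm_nonneg _) (le_of_lt hy) hr
          (by unfold rwt bet; positivity) p0 ht (hrtl κ N.u hgeo X hT _ (N.W.P_proj X))
      · rw [(off hy).2]
        simp
    have i1 := I.iZψ.const_mul (C₂ * r / 2 * t)
    have i2 := I.iR.const_mul (C₂ * r / 2 / t)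
    have i3 := I.iR.const_mul (C₂ * (qd N r * r))
    have h := norm_integral_le_of_norm_le (i1.add (i2.add i3)) hpw
    rw [integral_add' i1 (i2.add i3), integral_add' i2 i3, integral_const_mul, integral_const_mul,
      integral_const_mul, Real.norm_eq_abs] at h
    exact h
  have hCr : 0 < C₂ * r := by positivity
  have hopt : (|D₀| - C₂ * (qd N r * r) * B) / (C₂ * r) ≤ Real.sqrt (A * B) := by
    refine hrz_opt hA0 hB0 fun t ht => ?_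
    have h1 := hpar t ht
    rw [mul_div_assoc', div_le_iff₀ hCr]
    have h2 : (t * A + B / t) * (C₂ * r) = 2 * (C₂ * r / 2 * t * A + C₂ * r / 2 / t * B) := by
      field_simp
    rw [h2]
    linarith
  rw [div_le_iff₀ hCr] at hopt
  have hD : |D₀| ≤ C₂ * r * Real.sqrt (A * B) + C₂ * (qd N r * r) * B := by linarith
  -- normalisation
  have hsq : (r ^ m)⁻¹ * Real.sqrt (A * B) = Real.sqrt (qZψ N r * qR N r) := by
    have : qZψ N r * qR N r = ((r ^ m)⁻¹) ^ 2 * (A * B) := by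
      unfold qZψ qR
      ring
    rw [this, Real.sqrt_mul (by positivity : (0 : ℝ) ≤ ((r ^ m)⁻¹) ^ 2) (A * B), Real.sqrt_sq ha.le]
  have h1 : (r ^ m)⁻¹ * ∫ X, psiR N.u r (npr N.u X) * rtl N.u (N.W.P X) X ∂N.μ - qR N r
      = (r ^ m)⁻¹ * D₀ := by
    rw [hD₀, integral_sub irtl I.iR]
    unfold qR
    ring
  rw [h1, abs_mul, abs_of_pos ha, ← hsq]
  refine (mul_le_mul_of_nonneg_left hD ha.le).trans (le_of_eq ?_)
  unfold qR
  ring

/-- measurability of the divergence of a continuous field (aux of `hor_I1`) -/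
theorem hrz_meas_divS (u : E m → E n) (Xc : E m → E m) (hX : Continuous Xc) :
    Measurable (divS u Xc) := by
  unfold divS
  refine Measurable.add ?_ ?_
  · have h1 : (fun y => trc (fderiv ℝ Xc y))
        = fun y => ∑ i : Fin m, inner ℝ (fderiv ℝ Xc y (EuclideanSpace.single i 1))
            (EuclideanSpace.single i (1 : ℝ)) := by
      funext y
      rw [trc_eq_sum]
    rw [h1]
    refine Finset.measurable_sum _ fun i _ => ?_
    exact (measurable_fderiv_apply_const ℝ Xc _).inner measurable_const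
  · exact ContinuousLinearMap.measurable_apply₂.comp
      ((measurable_fderiv ℝ _).prodMk hX.measurable)

/-- `I₁` (leaf `L-Freq-hor-I1`): `abs_est` with the multiplier `a = (div_S Xr - m)/(C r²)` on `Bs r` (extended by `0`; it is continuous there, hence Borel). -/
theorem hor_I1 (m n Q : ℕ) (hm : 1 ≤ m) (hn : 1 ≤ n) : Unif m n Q (fun C N r =>
    |r ^ 2 * (r ^ m)⁻¹ * N.intM (fun y => (divS N.u (Xr N.u) y - m) * phiR N.u r y)| ≤ C * r ^ 2 * (qE N r + qH N r)) := by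
  obtain ⟨J₁, κ₁, hκ₁, habs⟩ := abs_est m n Q hm hn
  obtain ⟨J₂, κ₂, hκ₂, hsg⟩ := signs m n Q
  obtain ⟨C₁, hC₁, hXr⟩ := Xr_facts m n
  refine ⟨max (max J₁ J₂) 4, min (min κ₁ κ₂) (1 / 2), by positivity, fun Ca => ?_⟩
  obtain ⟨C₃, r₀, hC₃, hr₀, habs⟩ := habs Ca
  refine ⟨1 + C₁ * C₃, r₀, by nlinarith, hr₀, ?_⟩
  intro J k κ N r hJ hκ hrr hF
  simp only [max_le_iff] at hJ
  simp only [le_min_iff] at hκ
  obtain ⟨⟨hJ1, hJ2⟩, hJ6⟩ := hJ
  obtain ⟨⟨hk1, hk2⟩, hk7⟩ := hκ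
  have hgeo : Geo κ N.u := hF.geo hJ6 hk7
  obtain ⟨sH, sE, -, -, -, -, -, -⟩ := hsg J k κ Ca N r hJ2 hk2 hF
  have hab := habs J k κ N r hJ1 hk1 hrr hF
  clear habs hsg
  have hr : 0 < r := hF.r_pos
  have hr1 : r ≤ 1 := hF.r_le
  have hκ0 : 0 ≤ κ := hF.κ_nonneg
  have hopen : IsOpen (Bs N.u r) := (ker_facts hgeo hr).2.2.2.2.2.2.2.1
  set a : E m → ℝ := (Bs N.u r).indicator (fun y => (divS N.u (Xr N.u) y - m) / (C₁ * r ^ 2)) with hadef
  have ma : Measurable a :=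
    (((hrz_meas_divS N.u _ (Xr_contDiff hgeo).continuous).sub measurable_const).div_const _).indicator
      hopen.measurableSet
  have ba : ∀ y, |a y| ≤ 1 := by
    intro y
    by_cases hy : y ∈ Bs N.u r
    · rw [hadef, Set.indicator_of_mem hy, abs_div, abs_of_pos (by positivity : 0 < C₁ * r ^ 2),
        div_le_one (by positivity)]
      have hρ0 : 0 ≤ rho N.u y := norm_nonneg _
      have hρr : rho N.u y ≤ r := le_of_lt hy
      obtain ⟨-, -, -, -, h1⟩ := hXr κ N.u hgeo y (hρr.trans hr1)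
      refine h1.trans ?_
      have h2 : C₁ * κ ≤ C₁ := by nlinarith [hgeo.le_one]
      exact mul_le_mul h2 (pow_le_pow_left₀ hρ0 hρr 2) (by positivity) hC₁.le
    · rw [hadef, Set.indicator_of_notMem hy]
      simp
  have hfun : (fun y => (divS N.u (Xr N.u) y - m) * phiR N.u r y)
      = fun y => (C₁ * r ^ 2) * (a y * phiR N.u r y) := by
    funext y
    by_cases hy : y ∈ Bs N.u r
    · rw [hadef, Set.indicator_of_mem hy]
      field_simp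
    · rw [((flw_ker N.u hr y).2.2.2.1 hy).1]
      simp
  have hlin : N.intM (fun y => (C₁ * r ^ 2) * (a y * phiR N.u r y))
      = (C₁ * r ^ 2) * N.intM (fun y => a y * phiR N.u r y) := by
    unfold NCyl.intM
    rw [integral_const_mul, integral_const_mul]
    ring
  rw [hfun, hlin]
  have h1 : r ^ 2 * (r ^ m)⁻¹ * (C₁ * r ^ 2 * N.intM fun y => a y * phiR N.u r y)
      = (C₁ * r ^ 2) * (r ^ 2 * (r ^ m)⁻¹ * N.intM fun y => a y * phiR N.u r y) := by ring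
  rw [h1, abs_mul, abs_of_pos (by positivity : 0 < C₁ * r ^ 2)]
  have h2 := mul_le_mul_of_nonneg_left (hab a ma ba) (by positivity : 0 ≤ C₁ * r ^ 2)
  refine h2.trans ?_
  have hr2 : r ^ 2 ≤ 1 := pow_le_one₀ hr.le hr1
  have h3 : r ^ 2 * qH N r ≤ 1 * qH N r := mul_le_mul_of_nonneg_right hr2 sH.le
  have h4 : C₃ * (qE N r + r ^ 2 * qH N r) ≤ C₃ * (qE N r + qH N r) :=
    mul_le_mul_of_nonneg_left (by linarith) (by linarith)
  have h5 : 0 ≤ r ^ 2 * (qE N r + qH N r) := mul_nonneg (by positivity) (add_nonneg sE sH.le)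
  calc C₁ * r ^ 2 * (C₃ * (qE N r + r ^ 2 * qH N r)) ≤ C₁ * r ^ 2 * (C₃ * (qE N r + qH N r)) :=
        mul_le_mul_of_nonneg_left h4 (by positivity)
    _ = C₁ * C₃ * (r ^ 2 * (qE N r + qH N r)) := by ring
    _ ≤ (1 + C₁ * C₃) * r ^ 2 * (qE N r + qH N r) := by linarith

/-- `I₂` (leaf `L-Freq-hor-I2`): `|tr (B T)| ≤ tr B ‖T‖` for `B ≥ 0` symmetric (`Tube.block_facts`), `Xr_facts`. -/
theorem hor_I2 (m n Q : ℕ) : Unif m n Q (fun C N r =>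
    |r ^ 2 * (r ^ m)⁻¹ * ∫ X, phiR N.u r (npr N.u X) *
      trc (Bop N.u (N.W.P X) X ∘L (nabS N.u (Xr N.u) (npr N.u X) - Ph N.u (npr N.u X))) ∂N.μ| ≤ C * r ^ 2 * qE N r) := by
  obtain ⟨J₁, κ₁, hκ₁, hints⟩ := ints m n Q
  obtain ⟨J₂, κ₂, hκ₂, hsg⟩ := signs m n Q
  obtain ⟨C₁, hC₁, hXr⟩ := Xr_facts m n
  refine ⟨max (max J₁ J₂) 4, min (min κ₁ κ₂) (1 / 2), by positivity, fun Ca =>
    ⟨1 + C₁, 1, by linarith, one_pos, ?_⟩⟩
  intro J k κ N r hJ hκ hrr hF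
  simp only [max_le_iff] at hJ
  simp only [le_min_iff] at hκ
  obtain ⟨⟨hJ1, hJ2⟩, hJ6⟩ := hJ
  obtain ⟨⟨hk1, hk2⟩, hk7⟩ := hκ
  have hgeo : Geo κ N.u := hF.geo hJ6 hk7
  have I : Ints N r := hints J k κ Ca N r hJ1 hk1 hF
  obtain ⟨-, sE, -, -, -, -, -, -⟩ := hsg J k κ Ca N r hJ2 hk2 hF
  clear hints hsg
  have hr : 0 < r := hF.r_pos
  have hr1 : r ≤ 1 := hF.r_le
  have hκ0 : 0 ≤ κ := hF.κ_nonneg
  have hpw : ∀ᵐ X ∂N.μ, ‖phiR N.u r (npr N.u X) *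
      trc (Bop N.u (N.W.P X) X ∘L (nabS N.u (Xr N.u) (npr N.u X) - Ph N.u (npr N.u X)))‖
      ≤ C₁ * r ^ 2 * (phiR N.u r (npr N.u X) * tilt N.u (N.W.P X) X) := by
    refine Filter.Eventually.of_forall fun X => ?_
    obtain ⟨f0, -, -, off, -⟩ := flw_ker N.u hr (npr N.u X)
    by_cases hy : npr N.u X ∈ Bs N.u r
    · have hρ0 : 0 ≤ rho N.u (npr N.u X) := norm_nonneg _
      have hρr : rho N.u (npr N.u X) ≤ r := le_of_lt hy
      obtain ⟨-, -, -, h1, -⟩ := hXr κ N.u hgeo _ (hρr.trans hr1)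
      obtain ⟨t0, -, -⟩ := block_facts m n κ N.u hgeo X _ (N.W.P_proj X)
      have h2 : |trc (Bop N.u (N.W.P X) X ∘L (nabS N.u (Xr N.u) (npr N.u X) - Ph N.u (npr N.u X)))|
          ≤ tilt N.u (N.W.P X) X * ‖nabS N.u (Xr N.u) (npr N.u X) - Ph N.u (npr N.u X)‖ :=
        abs_trc_B_comp_le (isProj_Ph N.u (npr N.u X)) (N.W.P_proj X) _
      have h3 : ‖nabS N.u (Xr N.u) (npr N.u X) - Ph N.u (npr N.u X)‖ ≤ C₁ * r ^ 2 := by
        refine h1.trans ?_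
        have h2 : C₁ * κ ≤ C₁ := by nlinarith [hgeo.le_one]
        exact mul_le_mul h2 (pow_le_pow_left₀ hρ0 hρr 2) (by positivity) hC₁.le
      rw [Real.norm_eq_abs, abs_mul, abs_of_nonneg f0]
      have h4 := h2.trans (mul_le_mul_of_nonneg_left h3 t0)
      have h5 := mul_le_mul_of_nonneg_left h4 f0
      refine h5.trans (le_of_eq ?_)
      ring
    · rw [(off hy).1]
      simp
  have h := norm_integral_le_of_norm_le (I.iE.const_mul (C₁ * r ^ 2)) hpw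
  rw [integral_const_mul, Real.norm_eq_abs] at h
  rw [abs_mul, abs_of_pos (by positivity : 0 < r ^ 2 * (r ^ m)⁻¹)]
  have h2 := mul_le_mul_of_nonneg_left h (by positivity : 0 ≤ r ^ 2 * (r ^ m)⁻¹)
  refine h2.trans ?_
  have h3 : r ^ 2 * (r ^ m)⁻¹ * (C₁ * r ^ 2 * ∫ X, phiR N.u r (npr N.u X) * tilt N.u (N.W.P X) X ∂N.μ)
      = C₁ * r ^ 2 * qE N r := by
    rw [I.eE]
    ring
  rw [h3]
  have : 0 ≤ r ^ 2 * qE N r := mul_nonneg (by positivity) sE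
  linarith

/-- pointwise arithmetic of `hor_I3` -/
theorem hrz_ptI3 {C₁ κ z d r e dh hs nab xr : ℝ} (hκ0 : 0 ≤ κ) (hκ1 : κ ≤ 1) (hz0 : 0 ≤ z)
    (hz1 : z ≤ d * r) (hr : 0 < r) (hr1 : r ≤ 1) (sd : 0 < d) (t0 : 0 ≤ e) (hdh0 : 0 ≤ dh)
    (hhs : 0 ≤ hs) (hn0 : 0 ≤ nab) (hnab : nab ≤ 1 + C₁) (hx0 : 0 ≤ xr) (hXn : xr ≤ 4 * r) :
    κ * z * e * nab
      + (Real.sqrt dh * z + κ ^ 2 * z ^ 2 + κ * e * z + κ ^ 2 * Real.sqrt e * z) * xr
    ≤ ((5 + C₁) * d + 2 * r ^ 2) * e + 2 * (hs + dh) + 8 * z ^ 2 := by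
  set sd' := Real.sqrt dh with hsd'
  have hsd0 : 0 ≤ sd' := Real.sqrt_nonneg _
  have hsd2 : sd' ^ 2 = dh := Real.sq_sqrt hdh0
  set se := Real.sqrt e with hse
  have hse0 : 0 ≤ se := Real.sqrt_nonneg _
  have hse2 : se ^ 2 = e := Real.sq_sqrt t0
  have hκ2 : κ ^ 2 ≤ 1 := pow_le_one₀ hκ0 hκ1
  have hzd : z ≤ d := by
    have := mul_le_mul_of_nonneg_left hr1 sd.le
    linarith
  have hz2 : 0 ≤ z ^ 2 := sq_nonneg z
  have b1 : κ * z * e * nab ≤ (1 + C₁) * d * e := by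
    have h2 : κ * z ≤ d := (mul_le_of_le_one_left hz0 hκ1).trans hzd
    have h3 : κ * z * e ≤ d * e := mul_le_mul_of_nonneg_right h2 t0
    calc κ * z * e * nab ≤ d * e * (1 + C₁) := mul_le_mul h3 hnab hn0 (mul_nonneg sd.le t0)
      _ = (1 + C₁) * d * e := by ring
  have c1 : sd' * z ≤ (dh + z ^ 2) / 2 := by
    have h1 := sq_nonneg (sd' - z)
    have h2 : (sd' - z) ^ 2 = dh - 2 * (sd' * z) + z ^ 2 := by rw [← hsd2]; ring
    linarith
  have c2 : κ ^ 2 * z ^ 2 ≤ z ^ 2 := mul_le_of_le_one_left hz2 hκ2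
  have c3 : κ * e * z ≤ e * (d * r) :=
    mul_le_mul (mul_le_of_le_one_left t0 hκ1) hz1 hz0 t0
  have c4 : κ ^ 2 * se * z ≤ se * z := by
    rw [mul_assoc]
    exact mul_le_of_le_one_left (mul_nonneg hse0 hz0) hκ2
  have c5 : (sd' * z + κ ^ 2 * z ^ 2 + κ * e * z + κ ^ 2 * se * z) * xr
      ≤ ((dh + z ^ 2) / 2 + z ^ 2 + e * (d * r) + se * z) * (4 * r) :=
    mul_le_mul (by linarith) hXn hx0 (by positivity)
  have c6 : se * z * r ≤ (e * r ^ 2 + z ^ 2) / 2 := by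
    have h1 := sq_nonneg (se * r - z)
    have h2 : (se * r - z) ^ 2 = e * r ^ 2 - 2 * (se * z * r) + z ^ 2 := by rw [← hse2]; ring
    linarith
  have c7 : (dh + z ^ 2) / 2 * (4 * r) ≤ 2 * (dh + z ^ 2) := by
    have h1 : (dh + z ^ 2) * r ≤ (dh + z ^ 2) * 1 :=
      mul_le_mul_of_nonneg_left hr1 (add_nonneg hdh0 hz2)
    have h2 : (dh + z ^ 2) / 2 * (4 * r) = 2 * ((dh + z ^ 2) * r) := by ring
    linarith
  have c8 : z ^ 2 * (4 * r) ≤ 4 * z ^ 2 := by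
    have h1 : z ^ 2 * r ≤ z ^ 2 * 1 := mul_le_mul_of_nonneg_left hr1 hz2
    have h2 : z ^ 2 * (4 * r) = 4 * (z ^ 2 * r) := by ring
    linarith
  have c9 : e * (d * r) * (4 * r) ≤ 4 * d * e := by
    have h1 : r * r ≤ 1 := mul_le_one₀ hr1 hr.le hr1
    have h0 : 0 ≤ e * d := mul_nonneg t0 sd.le
    have h2 : e * d * (r * r) ≤ e * d * 1 := mul_le_mul_of_nonneg_left h1 h0
    have h3 : e * (d * r) * (4 * r) = 4 * (e * d * (r * r)) := by ring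
    linarith
  have c10 : ((dh + z ^ 2) / 2 + z ^ 2 + e * (d * r) + se * z) * (4 * r)
      = (dh + z ^ 2) / 2 * (4 * r) + z ^ 2 * (4 * r) + e * (d * r) * (4 * r) + 4 * (se * z * r) := by
    ring
  have c11 : ((5 + C₁) * d + 2 * r ^ 2) * e = (1 + C₁) * d * e + 4 * d * e + 2 * (e * r ^ 2) := by
    ring
  rw [c11]
  linarith

/-- final arithmetic of `hor_I3` -/
theorem hrz_finI3 {C₁ C₂ Ca r d E H Z a IE IK IZ T : ℝ} (hC₁ : 0 < C₁) (hC₂ : 0 < C₂) (hr : 0 < r)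
    (hr1 : r ≤ 1) (sd : 0 < d) (hd1 : d ≤ 1) (sE : 0 ≤ E) (sH : 0 ≤ H) (ha : 0 < a) (hIZ0 : 0 ≤ IZ)
    (eE : E = a * IE) (eZ : r ^ 2 * Z = a * IZ) (hwc : IK ≤ Ca * IZ) (hZ : Z ≤ H + 2 * d ^ 2 * E)
    (h : T ≤ C₂ * ((5 + C₁) * d + 2 * r ^ 2) * IE + (C₂ * 2 * IK + C₂ * 8 * IZ)) :
    a * T ≤ (1 + C₂ * (5 + C₁ + 2 + 3 * (2 * |Ca| + 8))) * (r ^ 2 * (E + H) + d * E) := by
  have hK : IK ≤ |Ca| * IZ := hwc.trans (mul_le_mul_of_nonneg_right (le_abs_self _) hIZ0)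
  have h2 := mul_le_mul_of_nonneg_left h ha.le
  have h3 : a * (C₂ * ((5 + C₁) * d + 2 * r ^ 2) * IE + (C₂ * 2 * IK + C₂ * 8 * IZ))
      ≤ C₂ * ((5 + C₁) * d + 2 * r ^ 2) * E + C₂ * (2 * |Ca| + 8) * (r ^ 2 * Z) := by
    rw [eE, eZ]
    have h4 : a * (C₂ * 2 * IK) ≤ a * (C₂ * 2 * (|Ca| * IZ)) :=
      mul_le_mul_of_nonneg_left (mul_le_mul_of_nonneg_left hK (by positivity)) ha.le
    have e1 : a * (C₂ * ((5 + C₁) * d + 2 * r ^ 2) * IE + (C₂ * 2 * IK + C₂ * 8 * IZ))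
        = C₂ * ((5 + C₁) * d + 2 * r ^ 2) * (a * IE) + a * (C₂ * 2 * IK) + C₂ * 8 * (a * IZ) := by
      ring
    have e2 : C₂ * (2 * |Ca| + 8) * (a * IZ) = a * (C₂ * 2 * (|Ca| * IZ)) + C₂ * 8 * (a * IZ) := by
      ring
    rw [e1, e2]
    linarith
  refine h2.trans (h3.trans ?_)
  have hδE : 0 ≤ d * E := mul_nonneg sd.le sE
  have hrE : 0 ≤ r ^ 2 * E := mul_nonneg (by positivity) sE
  have hrH : 0 ≤ r ^ 2 * H := mul_nonneg (by positivity) sH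
  have h5 : r ^ 2 * Z ≤ r ^ 2 * H + 2 * (d * E) := by
    have h6 : r ^ 2 * Z ≤ r ^ 2 * (H + 2 * d ^ 2 * E) := mul_le_mul_of_nonneg_left hZ (by positivity)
    have h7 : r ^ 2 * (d ^ 2 * E) ≤ d * E := by
      have h8 : r ^ 2 ≤ 1 := pow_le_one₀ hr.le hr1
      have h9 : d ^ 2 ≤ d := by nlinarith
      have h10 : d ^ 2 * E ≤ d * E := mul_le_mul_of_nonneg_right h9 sE
      have h11 : 0 ≤ d ^ 2 * E := mul_nonneg (by positivity) sE
      calc r ^ 2 * (d ^ 2 * E) ≤ 1 * (d ^ 2 * E) := mul_le_mul_of_nonneg_right h8 h11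
        _ ≤ d * E := by linarith
    have e3 : r ^ 2 * (H + 2 * d ^ 2 * E) = r ^ 2 * H + 2 * (r ^ 2 * (d ^ 2 * E)) := by ring
    linarith
  have hAbs := abs_nonneg Ca
  have hc : 0 ≤ C₂ * (2 * |Ca| + 8) := by positivity
  have h6 := mul_le_mul_of_nonneg_left h5 hc
  calc C₂ * ((5 + C₁) * d + 2 * r ^ 2) * E + C₂ * (2 * |Ca| + 8) * (r ^ 2 * Z)
      ≤ C₂ * ((5 + C₁) * d + 2 * r ^ 2) * E
        + C₂ * (2 * |Ca| + 8) * (r ^ 2 * H + 2 * (d * E)) := by linarith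
    _ = C₂ * (5 + C₁ + 2 * (2 * |Ca| + 8)) * (d * E) + C₂ * 2 * (r ^ 2 * E)
        + C₂ * (2 * |Ca| + 8) * (r ^ 2 * H) := by ring
    _ ≤ C₂ * (5 + C₁ + 2 + 3 * (2 * |Ca| + 8)) * (d * E)
        + C₂ * (5 + C₁ + 2 + 3 * (2 * |Ca| + 8)) * (r ^ 2 * E)
        + C₂ * (5 + C₁ + 2 + 3 * (2 * |Ca| + 8)) * (r ^ 2 * H) := by
      have g1 : C₂ * (5 + C₁ + 2 * (2 * |Ca| + 8)) ≤ C₂ * (5 + C₁ + 2 + 3 * (2 * |Ca| + 8)) :=
        mul_le_mul_of_nonneg_left (by linarith) hC₂.le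
      have g2 : C₂ * 2 ≤ C₂ * (5 + C₁ + 2 + 3 * (2 * |Ca| + 8)) :=
        mul_le_mul_of_nonneg_left (by linarith) hC₂.le
      have g3 : C₂ * (2 * |Ca| + 8) ≤ C₂ * (5 + C₁ + 2 + 3 * (2 * |Ca| + 8)) :=
        mul_le_mul_of_nonneg_left (by linarith) hC₂.le
      have k1 := mul_le_mul_of_nonneg_right g1 hδE
      have k2 := mul_le_mul_of_nonneg_right g2 hrE
      have k3 := mul_le_mul_of_nonneg_right g3 hrH
      linarith
    _ = C₂ * (5 + C₁ + 2 + 3 * (2 * |Ca| + 8)) * (r ^ 2 * (E + H) + d * E) := by ring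
    _ ≤ (1 + C₂ * (5 + C₁ + 2 + 3 * (2 * |Ca| + 8))) * (r ^ 2 * (E + H) + d * E) := by
      have : 0 ≤ r ^ 2 * (E + H) + d * E := by
        have e4 : r ^ 2 * (E + H) = r ^ 2 * E + r ^ 2 * H := by ring
        linarith
      linarith

/-- `I₃` (leaf `L-Freq-hor-I3`).
PLAN.  `Tube.lift_trace`: `|epsZ| ≤ C (|z| e ‖∇X‖ + (|∇H||z| + |z|² + e|z| + sqrt(e)|z|) |Xr|)`, `‖∇X‖ ≤ 2`, `|Xr| ≤ 4 r`, `|z| ≤ δ r`:
`r^{2-m} ∫ φ |epsZ| ≤ C δ E + C r³ (Zφ + r^{-m} ∫ φ |∇H|²) + C r² sqrt (E Zφ)`; `Wt.wcurv`, `wcompA`. -/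
theorem hor_I3 (m n Q : ℕ) (hm : 1 ≤ m) : Unif m n Q (fun C N r =>
    |r ^ 2 * (r ^ m)⁻¹ * ∫ X, phiR N.u r (npr N.u X) * epsZ N.u (N.W.P X) X ∂N.μ|
      ≤ C * (r ^ 2 * (qE N r + qH N r) + qd N r * qE N r)) := by
  obtain ⟨J₁, κ₁, hκ₁, hints⟩ := ints m n Q
  obtain ⟨J₂, κ₂, hκ₂, hsg⟩ := signs m n Q
  obtain ⟨J₃, κ₃, hκ₃, hht⟩ := ae_height m n Q
  obtain ⟨J₄, κ₄, hκ₄, hpt⟩ := flw_pt m n Q hm
  obtain ⟨J₅, κ₅, hκ₅, hwA⟩ := wcompA m n Q hm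
  obtain ⟨C₁, hC₁, hXr⟩ := Xr_facts m n
  obtain ⟨h₀, C₂, hh₀, hC₂, hlift⟩ := lift_trace m n
  refine ⟨max (max (max J₁ J₂) (max J₃ J₄)) (max J₅ 4),
    min (min (min κ₁ κ₂) (min κ₃ κ₄)) (min κ₅ (min h₀ (1 / 2))), by positivity, fun Ca => ?_⟩
  obtain ⟨C₃, r₃, hC₃, hr₃, hpt⟩ := hpt Ca
  obtain ⟨C₄, r₄, hC₄, hr₄, hwA⟩ := hwA Ca
  refine ⟨1 + C₂ * (5 + C₁ + 2 + 3 * (2 * |Ca| + 8)), min r₃ r₄,
    by have : 0 ≤ C₂ * (5 + C₁ + 2 + 3 * (2 * |Ca| + 8)) := by positivity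
       linarith,
    by positivity, ?_⟩
  intro J k κ N r hJ hκ hrr hF
  simp only [max_le_iff] at hJ
  simp only [le_min_iff] at hκ hrr
  obtain ⟨⟨⟨hJ1, hJ2⟩, hJ3, hJ4⟩, hJ5, hJ6⟩ := hJ
  obtain ⟨⟨⟨hk1, hk2⟩, hk3, hk4⟩, hk5, hk6, hk7⟩ := hκ
  have hgeo : Geo κ N.u := hF.geo hJ6 hk7
  have I : Ints N r := hints J k κ Ca N r hJ1 hk1 hF
  obtain ⟨sH, sE, -, sZ, -, -, -, sd⟩ := hsg J k κ Ca N r hJ2 hk2 hF
  obtain ⟨-, hae, hz⟩ := hht J k κ Ca N r hJ3 hk3 hF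
  obtain ⟨hd1, -⟩ := hpt J k κ N r hJ4 hk4 hrr.1 hF
  obtain ⟨hZφ, -⟩ := hwA J k κ N r hJ5 hk5 hrr.2 hF
  clear hints hsg hht hpt hwA
  have hr : 0 < r := hF.r_pos
  have hr1 : r ≤ 1 := hF.r_le
  have hκ0 : 0 ≤ κ := hF.κ_nonneg
  have hκ1 : κ ≤ 1 := hgeo.le_one
  have ha : 0 < r ^ 2 * (r ^ m)⁻¹ := by positivity
  have hXc : ContDiff ℝ 1 (Xr N.u) := Xr_contDiff hgeo
  have hpw : ∀ᵐ X ∂N.μ, ‖phiR N.u r (npr N.u X) * epsZ N.u (N.W.P X) X‖ ≤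
      C₂ * ((5 + C₁) * qd N r + 2 * r ^ 2) * (phiR N.u r (npr N.u X) * tilt N.u (N.W.P X) X)
        + (C₂ * 2 * (phiR N.u r (npr N.u X) * (‖HS N.u (npr N.u X)‖ ^ 2 + DHSsq N.u (npr N.u X)))
        + C₂ * 8 * (phiR N.u r (npr N.u X) * ‖zz N.u X‖ ^ 2)) := by
    filter_upwards [hae, hz] with X hX hzX
    obtain ⟨f0, -, -, off, -⟩ := flw_ker N.u hr (npr N.u X)
    by_cases hy : npr N.u X ∈ Bs N.u r
    · have hT : X ∈ Tub N.u h₀ := ⟨npr N.u X, lt_of_lt_of_le hX.2.2 (hF.h_le.trans hk6)⟩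
      obtain ⟨-, h1⟩ := hlift κ N.u hgeo _ hXc X hT _ (N.W.P_proj X)
      have hρ0 : 0 ≤ rho N.u (npr N.u X) := norm_nonneg _
      have hρr : rho N.u (npr N.u X) ≤ r := le_of_lt hy
      obtain ⟨-, -, x1, x2, -⟩ := hXr κ N.u hgeo _ (hρr.trans hr1)
      obtain ⟨t0, -, -⟩ := block_facts m n κ N.u hgeo X _ (N.W.P_proj X)
      have hnab : ‖nabS N.u (Xr N.u) (npr N.u X)‖ ≤ 1 + C₁ := by
        have h2 : ‖nabS N.u (Xr N.u) (npr N.u X)‖
            ≤ ‖nabS N.u (Xr N.u) (npr N.u X) - Ph N.u (npr N.u X)‖ + ‖Ph N.u (npr N.u X)‖ := by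
          have := norm_add_le (nabS N.u (Xr N.u) (npr N.u X) - Ph N.u (npr N.u X))
            (Ph N.u (npr N.u X))
          simpa using this
        have h3 : ‖Ph N.u (npr N.u X)‖ ≤ 1 := (isProj_Ph N.u _).norm_le_one
        have h4 : C₁ * κ * rho N.u (npr N.u X) ^ 2 ≤ C₁ := by
          have h5 : rho N.u (npr N.u X) ^ 2 ≤ 1 := pow_le_one₀ hρ0 (hρr.trans hr1)
          have h6 : κ * rho N.u (npr N.u X) ^ 2 ≤ 1 := mul_le_one₀ hκ1 (by positivity) h5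
          calc C₁ * κ * rho N.u (npr N.u X) ^ 2 = C₁ * (κ * rho N.u (npr N.u X) ^ 2) := by ring
            _ ≤ C₁ * 1 := mul_le_mul_of_nonneg_left h6 hC₁.le
            _ = C₁ := mul_one _
        linarith
      have hXn : ‖Xr N.u (npr N.u X)‖ ≤ 4 * r := x1.trans (by linarith)
      have h2 := hrz_ptI3 (C₁ := C₁) (hs := ‖HS N.u (npr N.u X)‖ ^ 2) hκ0 hκ1
        (norm_nonneg (zz N.u X)) (hzX hy) hr hr1 sd t0
        (DHSsq_nonneg N.u (npr N.u X)) (by positivity) (norm_nonneg _) hnab (norm_nonneg _) hXn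
      rw [Real.norm_eq_abs, abs_mul, abs_of_nonneg f0]
      refine (mul_le_mul_of_nonneg_left (h1.trans (mul_le_mul_of_nonneg_left h2 hC₂.le)) f0).trans
        (le_of_eq ?_)
      ring
    · rw [(off hy).1]
      simp
  have i1 := I.iE.const_mul (C₂ * ((5 + C₁) * qd N r + 2 * r ^ 2))
  have i2 := I.iK.const_mul (C₂ * 2)
  have i3 := I.iZφ.const_mul (C₂ * 8)
  have h := norm_integral_le_of_norm_le (i1.add (i2.add i3)) hpw
  rw [integral_add' i1 (i2.add i3), integral_add' i2 i3, integral_const_mul, integral_const_mul,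
    integral_const_mul, Real.norm_eq_abs] at h
  rw [abs_mul, abs_of_pos ha]
  refine hrz_finI3 hC₁ hC₂ hr hr1 sd hd1 sE sH.le ha
    (integral_nonneg fun X => mul_nonneg (flw_ker N.u hr _).1 (by positivity)) I.eE ?_
    hF.wt.wcurv hZφ h
  unfold qZφ
  ring

end Claimed.Agent.R322.Freq
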