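import Claimed.Agent.R322.Freq.Target
import Claimed.Agent.R322.Pack043
import Claimed.Agent.R322.Pack056

/-!
# CO Proposition 4.5, part A: planarity criteria for stationary integral varifolds (no fitting data)

Owner: helper109 (package BP-CO4-cover).  QUANTITATIVE replacements of the compactness arguments of CO Section 4.4
("the start varifolds converge to multiplicity-`Q` planes", "every dyadic scale comparable to a late `L_i` is good").

* `height_of_small_scale` : almost-homogeneity.  If the mass ratio at `0` is pinched between the scales `0` and `Λ` and the support is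
  flat at ONE small scale `s`, then it is flat at the scale `Λ`.
* `planar_of_height` : small height + pinched ratio ⟹ the weight is weakly close to `Q` copies of the plane.
* `isGood_of_height`, `isGood_simil` : goodness criteria.
* `flat_height`, `flat_small`, `good_of_flat` : scales comparable to late targets.
-/

set_option autoImplicit false

open scoped ENNReal ContDiff
open MeasureTheory Filter Topology

namespace Claimed.Agent.R322.Freq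

open Claimed.Agent.R322.Tube

variable {m n : ℕ}

/-! ### similarities -/

theorem siv_ext {W W' : SIV m n} (hU : W.U = W'.U) (hM : W.M = W'.M) (hθ : W.θ = W'.θ)
    (hP : W.P = W'.P) : W = W' := by
  cases W; cases W'
  simp only at hU hM hθ hP
  subst hU hM hθ hP
  rfl

theorem simInv_simInv {N : ℕ} (r r' : ℝ) (O O' : E N ≃ₗᵢ[ℝ] E N) (Y : E N) :
    simInv 0 r O (simInv 0 r' O' Y) = simInv 0 (r * r') (O.trans O') Y := by
  simp [simInv, smul_smul]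

/-- composition of similarities centred at `0` -/
theorem simil_simil (W : SIV m n) (r r' : ℝ) (hr : 0 < r) (hr' : 0 < r')
    (O O' : E (m + n) ≃ₗᵢ[ℝ] E (m + n)) :
    (W.simil 0 r hr O).simil 0 r' hr' O' = W.simil 0 (r * r') (mul_pos hr hr') (O.trans O') := by
  apply siv_ext
  · ext Y
    simp only [SIV.simil, Set.mem_preimage, simInv_simInv]
  · ext Y
    simp only [SIV.simil, Set.mem_preimage, simInv_simInv]
  · funext Y
    simp only [SIV.simil, simInv_simInv]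
  · funext Y
    simp only [SIV.simil, simInv_simInv]
    ext v
    simp

theorem simil_congr (W : SIV m n) {r r' : ℝ} (hr : 0 < r) (hr' : 0 < r') (h : r = r')
    (O : E (m + n) ≃ₗᵢ[ℝ] E (m + n)) : W.simil 0 r hr O = W.simil 0 r' hr' O := by
  subst h; rfl

/-- two rescalings of the same varifold are similar to each other -/
theorem simil_rel (W : SIV m n) (R R' : ℝ) (hR : 0 < R) (hR' : 0 < R')
    (O O' : E (m + n) ≃ₗᵢ[ℝ] E (m + n)) :
    W.simil 0 R hR O = (W.simil 0 R' hR' O').simil 0 (R / R') (div_pos hR hR') (O'.symm.trans O) := by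
  rw [simil_simil]
  have h1 : O'.trans (O'.symm.trans O) = O := by
    ext v; simp
  rw [h1]
  exact simil_congr W _ _ (by field_simp) O

/-! ### leaves: planarity criteria -/

theorem hom_deriv_h2 (τ : ℝ) : deriv Flat.h2 τ = -(2 * max (1 - τ) 0) := by
  have h1 := ker_hasDerivAt_pos_pow (q := 2) le_rfl (1 - τ)
  have h2 : HasDerivAt (fun τ : ℝ => 1 - τ) (-1) τ := by
    simpa using (hasDerivAt_id τ).const_sub 1
  have h3 := h1.comp τ h2
  have h4 : deriv Flat.h2 τ = ((2 : ℕ) : ℝ) * max (1 - τ) 0 ^ (2 - 1) * -1 := h3.deriv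
  rw [h4]
  simp

theorem hom_h2_le_one {τ : ℝ} (hτ : 0 ≤ τ) : Flat.h2 τ ≤ 1 := by
  unfold Flat.h2
  exact pow_le_one₀ (le_max_right _ _) (max_le (by linarith) zero_le_one)

theorem hom_contDiff : ContDiff ℝ 1 (fun X : E (m + n) => ‖prV m n X‖ ^ 2) :=
  (prV m n).contDiff.norm_sq ℝ

theorem hom_fderiv (x v : E (m + n)) :
    fderiv ℝ (fun X : E (m + n) => ‖prV m n X‖ ^ 2) x v
      = 2 * inner ℝ (prV m n x) (prV m n v) := by
  have h := ((prV m n).hasFDerivAt (x := x)).norm_sq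
  rw [h.fderiv]
  simp

theorem hom_pointwise {P : E (m + n) →L[ℝ] E (m + n)} (x : E (m + n)) {e : ℝ}
    (he : 0 < e) :
    fderiv ℝ (fun X : E (m + n) => ‖prV m n X‖ ^ 2) x (P x)
      ≤ 2 * ‖prV m n x‖ ^ 2 + (e * ‖x‖ ^ 2 + ‖x - P x‖ ^ 2 / e) := by
  rw [hom_fderiv]
  have h1 : prV m n (P x) = prV m n x - prV m n (x - P x) := by
    rw [map_sub]; abel
  rw [h1, inner_sub_right, real_inner_self_eq_norm_sq]
  have h2 : |inner ℝ (prV m n x) (prV m n (x - P x))| ≤ ‖x‖ * ‖x - P x‖ :=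
    (abs_real_inner_le_norm _ _).trans
      (mul_le_mul (Flat.norm_prV_le _) (Flat.norm_prV_le _) (norm_nonneg _) (norm_nonneg _))
  have h3 : 2 * (‖x‖ * ‖x - P x‖) ≤ e * ‖x‖ ^ 2 + ‖x - P x‖ ^ 2 / e := by
    have h4 : e * ‖x‖ ^ 2 + ‖x - P x‖ ^ 2 / e - 2 * (‖x‖ * ‖x - P x‖)
        = (e * ‖x‖ - ‖x - P x‖) ^ 2 / e := by
      field_simp
      ring
    have h5 : 0 ≤ (e * ‖x‖ - ‖x - P x‖) ^ 2 / e := by positivity
    linarith
  have h6 := neg_abs_le (inner ℝ (prV m n x) (prV m n (x - P x)))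
  linarith

/-- upper bound of the derivative terms of `W.hasDerivAt_kint` for the squared height. -/
theorem hom_deriv_le (hm : 1 ≤ m) (W : SIV m n) {Λ ρ e η : ℝ} {Q : ℕ}
    (hU : Metric.closedBall 0 Λ ⊆ W.U) (hΘ : W.Θ 0 ≤ Q) (hr : W.ratio 0 Λ ≤ W.Θ 0 + η)
    (hηe : η ≤ e ^ 2) (he : 0 < e) (he1 : e ≤ 1) (hρ : 0 < ρ) (hρΛ : ρ < Λ) :
    (∫ x, Flat.h2 (‖x - 0‖ ^ 2 / ρ ^ 2)
          * fderiv ℝ (fun X : E (m + n) => ‖prV m n X‖ ^ 2) x (W.P x (x - 0)) ∂W.μ)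
        + (ρ ^ 2)⁻¹ * ∫ x, ‖prV m n x‖ ^ 2 * (-2 * deriv Flat.h2 (‖x - 0‖ ^ 2 / ρ ^ 2))
          * W.nsq 0 x ∂W.μ
      ≤ 2 * (∫ x, ‖prV m n x‖ ^ 2 * Flat.h2 (‖x - 0‖ ^ 2 / ρ ^ 2) ∂W.μ)
        + kap m * (Q + 6) * e * ρ ^ (m + 2) := by
  have hk := kap_pos m
  have hBU : Metric.closedBall 0 ρ ⊆ W.U := (Metric.closedBall_subset_closedBall hρΛ.le).trans hU
  have hBm : MeasurableSet (Metric.ball (0 : E (m + n)) ρ) := Metric.isOpen_ball.measurableSet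
  have hρ2 : 0 < ρ ^ 2 := by positivity
  have hrat : W.ratio 0 ρ ≤ W.Θ 0 + e ^ 2 := by
    linarith [W.ratio_mono hm hρ hρΛ.le hU]
  have he2 : e ^ 2 ≤ 1 := pow_le_one₀ he.le he1
  -- mass and defect
  have hM : (W.μ (Metric.ball 0 ρ)).toReal ≤ (Q + 1) * (kap m * ρ ^ m) := by
    have h1 : (W.μ (Metric.ball 0 ρ)).toReal = W.ratio 0 ρ * (kap m * ρ ^ m) := by
      unfold SIV.ratio
      field_simp
    rw [h1]
    exact mul_le_mul_of_nonneg_right (by linarith) (by positivity)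
  have hN : ∫ x in Metric.ball 0 ρ, W.nsq 0 x ∂W.μ ≤ ρ ^ (m + 2) * kap m * e ^ 2 :=
    (W.defect hm hρ hBU).trans (mul_le_mul_of_nonneg_left (by linarith) (by positivity))
  -- kernels
  have hc1 : Continuous fun t : ℝ => Flat.h2 (t / ρ ^ 2) :=
    Flat.isKer_h2.smooth.continuous.comp (continuous_id.div_const _)
  have hc2 : Continuous fun t : ℝ => -2 * deriv Flat.h2 (t / ρ ^ 2) :=
    continuous_const.mul ((Flat.isKer_h2.smooth.continuous_deriv le_rfl).comp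
      (continuous_id.div_const _))
  have hz1 : ∀ t : ℝ, ρ ^ 2 < t → Flat.h2 (t / ρ ^ 2) = 0 := fun t ht =>
    Flat.isKer_h2.zero _ ((one_le_div hρ2).2 ht.le)
  have hz2 : ∀ t : ℝ, ρ ^ 2 < t → -2 * deriv Flat.h2 (t / ρ ^ 2) = 0 := fun t ht => by
    rw [Flat.isKer_h2.deriv_zero ((one_le_div hρ2).2 ht.le), mul_zero]
  have hmu : Measurable fun x : E (m + n) => ‖prV m n x‖ ^ 2 :=
    ((prV m n).continuous.norm.pow 2).measurable
  -- integrability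
  have hg1m : Measurable fun x : E (m + n) =>
      fderiv ℝ (fun X : E (m + n) => ‖prV m n X‖ ^ 2) x (W.P x (x - 0)) := by
    simp only [hom_fderiv]
    refine measurable_const.mul ?_
    exact ((prV m n).continuous.measurable).inner
      ((prV m n).continuous.measurable.comp (W.measurable_P_apply (measurable_id.sub_const 0)))
  have i1 : Integrable (fun x => Flat.h2 (‖x - 0‖ ^ 2 / ρ ^ 2)
      * fderiv ℝ (fun X : E (m + n) => ‖prV m n X‖ ^ 2) x (W.P x (x - 0))) W.μ :=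
    W.rad_integrable (p := 0) hρ.le hBU hc1 hz1 (c := fun x => 2 * (‖x‖ * ‖x‖))
      (by fun_prop) hg1m (fun x => by
        rw [hom_fderiv, abs_mul, abs_two, sub_zero]
        refine mul_le_mul_of_nonneg_left ?_ zero_le_two
        exact (abs_real_inner_le_norm _ _).trans (mul_le_mul (Flat.norm_prV_le _)
          ((Flat.norm_prV_le _).trans ((W.P_proj x).norm_apply_le _)) (norm_nonneg _)
          (norm_nonneg _)))
  have i2' : Integrable (fun x => (-2 * deriv Flat.h2 (‖x - 0‖ ^ 2 / ρ ^ 2))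
      * (‖prV m n x‖ ^ 2 * W.nsq 0 x)) W.μ :=
    W.rad_integrable (p := 0) hρ.le hBU hc2 hz2 (c := fun x => ‖x‖ ^ 2 * ‖x‖ ^ 2)
      (by fun_prop) (hmu.mul (W.measurable_nsq 0)) (fun x => by
        rw [abs_of_nonneg (mul_nonneg (by positivity) (W.nsq_nonneg 0 x))]
        have h1 := W.nsq_le 0 x
        rw [sub_zero] at h1
        exact mul_le_mul (pow_le_pow_left₀ (norm_nonneg _) (Flat.norm_prV_le _) 2) h1
          (W.nsq_nonneg 0 x) (by positivity))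
  have i2 : Integrable (fun x => ‖prV m n x‖ ^ 2 * (-2 * deriv Flat.h2 (‖x - 0‖ ^ 2 / ρ ^ 2))
      * W.nsq 0 x) W.μ := i2'.congr (Eventually.of_forall fun x => by ring)
  have i0' : Integrable (fun x => Flat.h2 (‖x - 0‖ ^ 2 / ρ ^ 2) * ‖prV m n x‖ ^ 2) W.μ :=
    W.rad_integrable (p := 0) hρ.le hBU hc1 hz1 (c := fun x => ‖x‖ ^ 2)
      (by fun_prop) hmu (fun x => by
        rw [abs_of_nonneg (by positivity)]
        exact pow_le_pow_left₀ (norm_nonneg _) (Flat.norm_prV_le _) 2)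
  have i0 : Integrable (fun x => ‖prV m n x‖ ^ 2 * Flat.h2 (‖x - 0‖ ^ 2 / ρ ^ 2)) W.μ :=
    i0'.congr (Eventually.of_forall fun x => by ring)
  have iN : IntegrableOn (fun x => W.nsq 0 x) (Metric.ball 0 ρ) W.μ :=
    W.mea_integrableOn hBU hBm Metric.ball_subset_closedBall (W.measurable_nsq 0) (C := ρ ^ 2)
      fun x hx => by
        rw [abs_of_nonneg (W.nsq_nonneg 0 x)]
        refine (W.nsq_le 0 x).trans ?_
        rw [sub_zero]
        exact pow_le_pow_left₀ (norm_nonneg _) (mem_ball_zero_iff.1 hx).le 2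
  have iC : IntegrableOn (fun _ : E (m + n) => e * ρ ^ 2) (Metric.ball 0 ρ) W.μ :=
    integrableOn_const (W.rat_ball_lt_top hBU).ne
  have iG : IntegrableOn (fun x => e * ρ ^ 2 + (1 / e + 4) * W.nsq 0 x) (Metric.ball 0 ρ) W.μ :=
    iC.add (iN.const_mul _)
  have iGi : Integrable ((Metric.ball 0 ρ).indicator
      (fun x => e * ρ ^ 2 + (1 / e + 4) * W.nsq 0 x)) W.μ := iG.integrable_indicator hBm
  -- pointwise inequality
  have hpt : ∀ x : E (m + n), Flat.h2 (‖x - 0‖ ^ 2 / ρ ^ 2)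
        * fderiv ℝ (fun X : E (m + n) => ‖prV m n X‖ ^ 2) x (W.P x (x - 0))
      + (ρ ^ 2)⁻¹ * (‖prV m n x‖ ^ 2 * (-2 * deriv Flat.h2 (‖x - 0‖ ^ 2 / ρ ^ 2)) * W.nsq 0 x)
      ≤ 2 * (‖prV m n x‖ ^ 2 * Flat.h2 (‖x - 0‖ ^ 2 / ρ ^ 2))
        + (Metric.ball 0 ρ).indicator (fun x => e * ρ ^ 2 + (1 / e + 4) * W.nsq 0 x) x := by
    intro x
    by_cases hx : x ∈ Metric.ball (0 : E (m + n)) ρ
    · rw [Set.indicator_of_mem hx]
      have hxρ : ‖x‖ < ρ := mem_ball_zero_iff.1 hx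
      have hx2 : ‖x‖ ^ 2 ≤ ρ ^ 2 := pow_le_pow_left₀ (norm_nonneg _) hxρ.le 2
      rw [sub_zero]
      obtain ⟨τ, hτdef⟩ : ∃ τ : ℝ, τ = ‖x‖ ^ 2 / ρ ^ 2 := ⟨_, rfl⟩
      rw [← hτdef]
      have hτ0 : 0 ≤ τ := by rw [hτdef]; positivity
      have hh0 := Flat.isKer_h2.nonneg τ
      have hh1 := hom_h2_le_one hτ0
      have hns : W.nsq 0 x = ‖x - W.P x x‖ ^ 2 := by
        unfold SIV.nsq
        rw [sub_zero]
      have hns0 := W.nsq_nonneg 0 x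
      have hp := hom_pointwise (P := W.P x) x he
      rw [← hns] at hp
      have hbr : 0 ≤ e * ‖x‖ ^ 2 + W.nsq 0 x / e := by positivity
      have a1 : Flat.h2 τ * fderiv ℝ (fun X : E (m + n) => ‖prV m n X‖ ^ 2) x (W.P x x)
          ≤ 2 * (‖prV m n x‖ ^ 2 * Flat.h2 τ) + (e * ρ ^ 2 + W.nsq 0 x / e) := by
        calc Flat.h2 τ * fderiv ℝ (fun X : E (m + n) => ‖prV m n X‖ ^ 2) x (W.P x x)
            ≤ Flat.h2 τ * (2 * ‖prV m n x‖ ^ 2 + (e * ‖x‖ ^ 2 + W.nsq 0 x / e)) :=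
              mul_le_mul_of_nonneg_left hp hh0
          _ = 2 * (‖prV m n x‖ ^ 2 * Flat.h2 τ) + Flat.h2 τ * (e * ‖x‖ ^ 2 + W.nsq 0 x / e) := by
              ring
          _ ≤ 2 * (‖prV m n x‖ ^ 2 * Flat.h2 τ) + 1 * (e * ‖x‖ ^ 2 + W.nsq 0 x / e) := by
              gcongr
          _ ≤ _ := by
              rw [one_mul]
              gcongr
      have a2 : (ρ ^ 2)⁻¹ * (‖prV m n x‖ ^ 2 * (-2 * deriv Flat.h2 τ) * W.nsq 0 x)
          ≤ 4 * W.nsq 0 x := by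
        rw [hom_deriv_h2]
        have b1 : max (1 - τ) 0 ≤ 1 := max_le (by linarith) zero_le_one
        have b0 : 0 ≤ max (1 - τ) 0 := le_max_right _ _
        have b2 : ‖prV m n x‖ ^ 2 ≤ ρ ^ 2 :=
          (pow_le_pow_left₀ (norm_nonneg _) (Flat.norm_prV_le _) 2).trans hx2
        have b3 : ‖prV m n x‖ ^ 2 * (-2 * -(2 * max (1 - τ) 0)) ≤ ρ ^ 2 * 4 := by
          have : -2 * -(2 * max (1 - τ) 0) = 4 * max (1 - τ) 0 := by ring
          rw [this]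
          exact mul_le_mul b2 (by linarith) (by positivity) hρ2.le
        calc (ρ ^ 2)⁻¹ * (‖prV m n x‖ ^ 2 * (-2 * -(2 * max (1 - τ) 0)) * W.nsq 0 x)
            ≤ (ρ ^ 2)⁻¹ * (ρ ^ 2 * 4 * W.nsq 0 x) := by gcongr
          _ = 4 * W.nsq 0 x := by field_simp
      have a3 : e * ρ ^ 2 + (1 / e + 4) * W.nsq 0 x
          = (e * ρ ^ 2 + W.nsq 0 x / e) + 4 * W.nsq 0 x := by
        field_simp
        ring
      rw [a3]
      linarith
    · rw [Set.indicator_of_notMem hx]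
      have hxρ : ρ ≤ ‖x‖ := not_lt.1 fun h => hx (mem_ball_zero_iff.2 h)
      have h1 : 1 ≤ ‖x - 0‖ ^ 2 / ρ ^ 2 := by
        rw [sub_zero, one_le_div hρ2]
        exact pow_le_pow_left₀ hρ.le hxρ 2
      rw [Flat.isKer_h2.zero _ h1, Flat.isKer_h2.deriv_zero h1]
      simp
  have hint := integral_mono (i1.add (i2.const_mul ((ρ ^ 2)⁻¹))) ((i0.const_mul 2).add iGi) hpt
  have hG : ∫ x in Metric.ball 0 ρ, (e * ρ ^ 2 + (1 / e + 4) * W.nsq 0 x) ∂W.μ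
      = (W.μ (Metric.ball 0 ρ)).toReal * (e * ρ ^ 2)
        + (1 / e + 4) * ∫ x in Metric.ball 0 ρ, W.nsq 0 x ∂W.μ := by
    rw [integral_add iC (iN.const_mul _), setIntegral_const, integral_const_mul, smul_eq_mul]
    rfl
  rw [integral_add' i1 (i2.const_mul _), integral_add' (i0.const_mul 2) iGi, integral_const_mul,
    integral_const_mul, integral_indicator hBm, hG] at hint
  refine hint.trans ?_
  have c1 : (W.μ (Metric.ball 0 ρ)).toReal * (e * ρ ^ 2)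
      ≤ (Q + 1) * (kap m * ρ ^ m) * (e * ρ ^ 2) :=
    mul_le_mul_of_nonneg_right hM (by positivity)
  have c2 : (1 / e + 4) * ∫ x in Metric.ball 0 ρ, W.nsq 0 x ∂W.μ
      ≤ (1 / e + 4) * (ρ ^ (m + 2) * kap m * e ^ 2) :=
    mul_le_mul_of_nonneg_left hN (by positivity)
  have c3 : (Q + 1) * (kap m * ρ ^ m) * (e * ρ ^ 2) + (1 / e + 4) * (ρ ^ (m + 2) * kap m * e ^ 2)
      = kap m * ((Q : ℝ) + 2 + 4 * e) * e * ρ ^ (m + 2) := by
    field_simp
    ring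
  have c4 : kap m * ((Q : ℝ) + 2 + 4 * e) * e * ρ ^ (m + 2) ≤ kap m * (Q + 6) * e * ρ ^ (m + 2) := by
    have c5 : (Q : ℝ) + 2 + 4 * e ≤ Q + 6 := by linarith
    exact mul_le_mul_of_nonneg_right (mul_le_mul_of_nonneg_right
      (mul_le_mul_of_nonneg_left c5 hk.le) he.le) (by positivity)
  linarith

/-- growth of the normalised height integral `Y ρ = ρ⁻² kint`. -/
theorem hom_Y_le (hm : 1 ≤ m) (W : SIV m n) {Λ s Λ' e η : ℝ} {Q : ℕ}
    (hU : Metric.closedBall 0 Λ ⊆ W.U) (hΘ : W.Θ 0 ≤ Q) (hr : W.ratio 0 Λ ≤ W.Θ 0 + η)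
    (hηe : η ≤ e ^ 2) (he : 0 < e) (he1 : e ≤ 1) (hs : 0 < s) (hsΛ : s ≤ Λ') (hΛ' : Λ' < Λ) :
    (Λ' ^ 2)⁻¹ * W.kint (fun X => ‖prV m n X‖ ^ 2) Flat.h2 0 Λ'
      ≤ (s ^ 2)⁻¹ * W.kint (fun X => ‖prV m n X‖ ^ 2) Flat.h2 0 s
        + kap m * (Q + 6) * e * Real.log (Λ' / s) := by
  have hk := kap_pos m
  obtain ⟨C₁, hC₁⟩ : ∃ C₁ : ℝ, C₁ = kap m * (Q + 6) * e := ⟨_, rfl⟩
  rw [← hC₁]
  have hder : ∀ ρ ∈ Set.Icc s Λ', ∃ D : ℝ, D ≤ 0 ∧ HasDerivAt (fun ρ : ℝ =>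
      (ρ ^ 2)⁻¹ * W.kint (fun X => ‖prV m n X‖ ^ 2) Flat.h2 0 ρ - C₁ * Real.log ρ) D ρ := by
    intro ρ hρ
    have hρ0 : 0 < ρ := hs.trans_le hρ.1
    have hρΛ : ρ < Λ := hρ.2.trans_lt hΛ'
    have h1 := W.hasDerivAt_kint hU hom_contDiff Flat.isKer_h2 hρ0 hρΛ
    have h2 : HasDerivAt (fun ρ : ℝ => (ρ ^ 2)⁻¹) (-(((2 : ℕ) : ℝ) * ρ ^ (2 - 1)) / (ρ ^ 2) ^ 2) ρ :=
      (hasDerivAt_pow 2 ρ).inv (by positivity)
    have h3 := (h2.mul h1).sub ((Real.hasDerivAt_log hρ0.ne').const_mul C₁)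
    refine ⟨_, ?_, h3⟩
    have h4 := hom_deriv_le hm W hU hΘ hr hηe he he1 hρ0 hρΛ
    rw [← hC₁] at h4
    obtain ⟨T, hT⟩ : ∃ T : ℝ, T = (∫ x, Flat.h2 (‖x - 0‖ ^ 2 / ρ ^ 2)
          * fderiv ℝ (fun X : E (m + n) => ‖prV m n X‖ ^ 2) x (W.P x (x - 0)) ∂W.μ)
        + (ρ ^ 2)⁻¹ * ∫ x, ‖prV m n x‖ ^ 2 * (-2 * deriv Flat.h2 (‖x - 0‖ ^ 2 / ρ ^ 2))
          * W.nsq 0 x ∂W.μ := ⟨_, rfl⟩
    obtain ⟨a, ha⟩ : ∃ a : ℝ,
        a = ∫ x, ‖prV m n x‖ ^ 2 * Flat.h2 (‖x - 0‖ ^ 2 / ρ ^ 2) ∂W.μ := ⟨_, rfl⟩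
    unfold SIV.kint
    rw [← hT, ← ha]
    rw [← hT, ← ha] at h4
    have h5 : (ρ ^ 2)⁻¹ * ((ρ ^ (m + 1))⁻¹ * T)
        ≤ (ρ ^ 2)⁻¹ * ((ρ ^ (m + 1))⁻¹ * (2 * a + C₁ * ρ ^ (m + 2))) := by gcongr
    have h6 : -(((2 : ℕ) : ℝ) * ρ ^ (2 - 1)) / (ρ ^ 2) ^ 2 * ((ρ ^ m)⁻¹ * a)
        + (ρ ^ 2)⁻¹ * ((ρ ^ (m + 1))⁻¹ * (2 * a + C₁ * ρ ^ (m + 2))) - C₁ * ρ⁻¹ = 0 := by
      simp only [Nat.add_one_sub_one, pow_one, Nat.cast_ofNat]
      field_simp
      ring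
    linarith
  have hanti : AntitoneOn (fun ρ : ℝ =>
      (ρ ^ 2)⁻¹ * W.kint (fun X => ‖prV m n X‖ ^ 2) Flat.h2 0 ρ - C₁ * Real.log ρ)
      (Set.Icc s Λ') := by
    refine antitoneOn_of_deriv_nonpos (convex_Icc s Λ') ?_ ?_ ?_
    · intro ρ hρ
      obtain ⟨D, -, hD⟩ := hder ρ hρ
      exact hD.continuousAt.continuousWithinAt
    · intro ρ hρ
      obtain ⟨D, -, hD⟩ := hder ρ (interior_subset hρ)
      exact hD.differentiableAt.differentiableWithinAt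
    · intro ρ hρ
      obtain ⟨D, hD0, hD⟩ := hder ρ (interior_subset hρ)
      rw [hD.deriv]
      exact hD0
  have h7 := hanti (Set.left_mem_Icc.2 hsΛ) (Set.right_mem_Icc.2 hsΛ) hsΛ
  simp only at h7
  rw [Real.log_div (hs.trans_le hsΛ).ne' hs.ne']
  linarith

theorem hom_integrable (W : SIV m n) {ρ : ℝ} (hρ : 0 < ρ) (hBU : Metric.closedBall 0 ρ ⊆ W.U) :
    Integrable (fun x => ‖prV m n x‖ ^ 2 * Flat.h2 (‖x - 0‖ ^ 2 / ρ ^ 2)) W.μ := by
  have hρ2 : 0 < ρ ^ 2 := by positivity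
  have hc1 : Continuous fun t : ℝ => Flat.h2 (t / ρ ^ 2) :=
    Flat.isKer_h2.smooth.continuous.comp (continuous_id.div_const _)
  have hz1 : ∀ t : ℝ, ρ ^ 2 < t → Flat.h2 (t / ρ ^ 2) = 0 := fun t ht =>
    Flat.isKer_h2.zero _ ((one_le_div hρ2).2 ht.le)
  have i0' : Integrable (fun x => Flat.h2 (‖x - 0‖ ^ 2 / ρ ^ 2) * ‖prV m n x‖ ^ 2) W.μ :=
    W.rad_integrable (p := 0) hρ.le hBU hc1 hz1 (c := fun x => ‖x‖ ^ 2)
      (by fun_prop) ((prV m n).continuous.norm.pow 2).measurable (fun x => by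
        rw [abs_of_nonneg (by positivity)]
        exact pow_le_pow_left₀ (norm_nonneg _) (Flat.norm_prV_le _) 2)
  exact i0'.congr (Eventually.of_forall fun x => by ring)

theorem hom_integrableOn (W : SIV m n) {ρ : ℝ} (hBU : Metric.closedBall 0 ρ ⊆ W.U) :
    IntegrableOn (fun x => ‖prV m n x‖ ^ 2) (Metric.ball 0 ρ) W.μ :=
  W.mea_integrableOn hBU Metric.isOpen_ball.measurableSet Metric.ball_subset_closedBall
    ((prV m n).continuous.norm.pow 2).measurable (C := ρ ^ 2) fun x hx => by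
      rw [abs_of_nonneg (by positivity)]
      exact pow_le_pow_left₀ (norm_nonneg _)
        ((Flat.norm_prV_le x).trans (mem_ball_zero_iff.1 hx).le) 2

/-- the case of the identity rotation, `s < Λ / 4`, with a parameter `e ≥ sqrt η`. -/
theorem hom_id (hm : 1 ≤ m) (W : SIV m n) {Λ s e η σ : ℝ} {Q : ℕ}
    (hU : Metric.closedBall 0 Λ ⊆ W.U) (hΘ : W.Θ 0 ≤ Q) (hr : W.ratio 0 Λ ≤ W.Θ 0 + η)
    (hηe : η ≤ e ^ 2) (he : 0 < e) (he1 : e ≤ 1) (hs : 0 < s) (hsΛ : s < Λ / 4)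
    (hh : ∀ X ∈ W.support, ‖X‖ ≤ s → ‖prV m n X‖ ≤ σ)
    {X₀ : E (m + n)} (hX : X₀ ∈ W.support) (hX₀ : ‖X₀‖ ≤ Λ / 4) :
    ‖prV m n X₀‖ ^ 2
      ≤ 2 * 3 ^ m * (Q + 6) * Λ ^ 2 * ((σ / s) ^ 2 + Real.log (Λ / s) * e) := by
  have hk := kap_pos m
  have hΛ : 0 < Λ := by linarith
  have he2 : e ^ 2 ≤ 1 := pow_le_one₀ he.le he1
  obtain ⟨Λ', hΛ'def⟩ : ∃ Λ' : ℝ, Λ' = 3 * Λ / 4 := ⟨_, rfl⟩
  have hΛ'0 : 0 < Λ' := by rw [hΛ'def]; positivity
  have hΛ'Λ : Λ' < Λ := by rw [hΛ'def]; linarith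
  have hsΛ' : s ≤ Λ' := by rw [hΛ'def]; linarith
  have hUs : Metric.closedBall 0 s ⊆ W.U :=
    (Metric.closedBall_subset_closedBall (by linarith)).trans hU
  have hUΛ' : Metric.closedBall 0 Λ' ⊆ W.U :=
    (Metric.closedBall_subset_closedBall hΛ'Λ.le).trans hU
  have hU2 : Metric.closedBall 0 (Λ / 2) ⊆ W.U :=
    (Metric.closedBall_subset_closedBall (by linarith)).trans hU
  -- (a) the small scale
  have hMs : (W.μ (Metric.ball 0 s)).toReal ≤ (Q + 1) * (kap m * s ^ m) := by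
    have h1 : (W.μ (Metric.ball 0 s)).toReal = W.ratio 0 s * (kap m * s ^ m) := by
      unfold SIV.ratio
      field_simp
    rw [h1]
    refine mul_le_mul_of_nonneg_right ?_ (by positivity)
    linarith [W.ratio_mono hm hs (by linarith : s ≤ Λ) hU]
  have hIs : ∫ x, ‖prV m n x‖ ^ 2 * Flat.h2 (‖x - 0‖ ^ 2 / s ^ 2) ∂W.μ
      ≤ σ ^ 2 * ((Q + 1) * (kap m * s ^ m)) := by
    rw [← setIntegral_eq_integral_of_forall_compl_eq_zero (s := Metric.ball 0 s) (fun x hx => by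
      have hxs : s ≤ ‖x‖ := not_lt.1 fun h => hx (mem_ball_zero_iff.2 h)
      have h1 : 1 ≤ ‖x - 0‖ ^ 2 / s ^ 2 := by
        rw [sub_zero, one_le_div (by positivity)]
        exact pow_le_pow_left₀ hs.le hxs 2
      rw [Flat.isKer_h2.zero _ h1, mul_zero])]
    have h4 := norm_setIntegral_le_of_norm_le_const_ae' (μ := W.μ) (s := Metric.ball 0 s)
      (f := fun x => ‖prV m n x‖ ^ 2 * Flat.h2 (‖x - 0‖ ^ 2 / s ^ 2)) (C := σ ^ 2)
      (W.rat_ball_lt_top hUs) (by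
        filter_upwards [Flat.ae_mem_support W] with x hx hxB
        have h5 := hh x hx (mem_ball_zero_iff.1 hxB).le
        have h6 : ‖prV m n x‖ ^ 2 ≤ σ ^ 2 := pow_le_pow_left₀ (norm_nonneg _) h5 2
        have h7 := hom_h2_le_one (τ := ‖x - 0‖ ^ 2 / s ^ 2) (by positivity)
        have h8 := Flat.isKer_h2.nonneg (‖x - 0‖ ^ 2 / s ^ 2)
        rw [Real.norm_of_nonneg (mul_nonneg (by positivity) h8)]
        calc ‖prV m n x‖ ^ 2 * Flat.h2 (‖x - 0‖ ^ 2 / s ^ 2) ≤ σ ^ 2 * 1 :=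
              mul_le_mul h6 h7 h8 (by positivity)
          _ = σ ^ 2 := mul_one _)
    exact (le_abs_self _).trans (h4.trans (mul_le_mul_of_nonneg_left hMs (by positivity)))
  have hYs : (s ^ 2)⁻¹ * W.kint (fun X => ‖prV m n X‖ ^ 2) Flat.h2 0 s
      ≤ (Q + 1) * kap m * (σ / s) ^ 2 := by
    unfold SIV.kint
    calc (s ^ 2)⁻¹ * ((s ^ m)⁻¹ * ∫ x, ‖prV m n x‖ ^ 2 * Flat.h2 (‖x - 0‖ ^ 2 / s ^ 2) ∂W.μ)
        ≤ (s ^ 2)⁻¹ * ((s ^ m)⁻¹ * (σ ^ 2 * ((Q + 1) * (kap m * s ^ m)))) := by gcongr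
      _ = (Q + 1) * kap m * (σ / s) ^ 2 := by
        field_simp
  -- (b) growth
  have hY := hom_Y_le hm W hU hΘ hr hηe he he1 hs hsΛ' hΛ'Λ
  have hlog : Real.log (Λ' / s) ≤ Real.log (Λ / s) :=
    Real.log_le_log (by positivity) (by gcongr)
  have hlog0 : 0 ≤ Real.log (Λ / s) :=
    Real.log_nonneg ((one_le_div hs).2 (by linarith))
  -- (c) from the kernel to the ball
  obtain ⟨I, hIdef⟩ : ∃ I : ℝ,
      I = ∫ x, ‖prV m n x‖ ^ 2 * Flat.h2 (‖x - 0‖ ^ 2 / Λ' ^ 2) ∂W.μ := ⟨_, rfl⟩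
  have hc : 25 / 81 * ∫ x in Metric.ball 0 (Λ / 2), ‖prV m n x‖ ^ 2 ∂W.μ ≤ I := by
    rw [hIdef, ← integral_const_mul]
    refine le_trans ?_ (setIntegral_le_integral (s := Metric.ball 0 (Λ / 2))
      (hom_integrable W hΛ'0 hUΛ') (Eventually.of_forall fun x =>
        mul_nonneg (by positivity) (Flat.isKer_h2.nonneg _)))
    refine setIntegral_mono_on ((hom_integrableOn W hU2).const_mul _)
      (hom_integrable W hΛ'0 hUΛ').integrableOn Metric.isOpen_ball.measurableSet fun x hx => ?_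
    have hx2 : ‖x‖ < Λ / 2 := mem_ball_zero_iff.1 hx
    have h1 : ‖x - 0‖ ^ 2 / Λ' ^ 2 ≤ 4 / 9 := by
      rw [sub_zero, div_le_iff₀ (by positivity), hΛ'def]
      have h0 : ‖x‖ ^ 2 ≤ (Λ / 2) ^ 2 := pow_le_pow_left₀ (norm_nonneg _) hx2.le 2
      have h00 : 4 / 9 * (3 * Λ / 4) ^ 2 = (Λ / 2) ^ 2 := by ring
      rw [h00]
      exact h0
    have h2 : 25 / 81 ≤ Flat.h2 (‖x - 0‖ ^ 2 / Λ' ^ 2) := by
      unfold Flat.h2
      have h3 : (5 / 9 : ℝ) ≤ max (1 - ‖x - 0‖ ^ 2 / Λ' ^ 2) 0 :=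
        le_trans (by linarith) (le_max_left _ _)
      calc (25 / 81 : ℝ) = (5 / 9) ^ 2 := by norm_num
        _ ≤ _ := pow_le_pow_left₀ (by norm_num) h3 2
    rw [mul_comm]
    exact mul_le_mul_of_nonneg_left h2 (by positivity)
  -- (d) mean value
  have hsub : Metric.ball X₀ (Λ / 4) ⊆ Metric.ball 0 (Λ / 2) := by
    refine Metric.ball_subset_ball' ?_
    rw [dist_zero_right]
    linarith
  have hsubc : Metric.closedBall X₀ (Λ / 4) ⊆ W.U := by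
    refine (Metric.closedBall_subset_closedBall' ?_).trans hU2
    rw [dist_zero_right]
    linarith
  have hd := Flat.sup_height_le hm W hX (by positivity : 0 < Λ / 4) hsubc
  have hd2 : ∫ X in Metric.ball X₀ (Λ / 4), ‖prV m n X‖ ^ 2 ∂W.μ
      ≤ ∫ X in Metric.ball 0 (Λ / 2), ‖prV m n X‖ ^ 2 ∂W.μ :=
    setIntegral_mono_set (hom_integrableOn W hU2)
      (Eventually.of_forall fun X => by positivity) hsub.eventuallyLE
  -- (e) assembly
  obtain ⟨Z, hZdef⟩ : ∃ Z : ℝ, Z = (σ / s) ^ 2 + Real.log (Λ / s) * e := ⟨_, rfl⟩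
  rw [← hZdef]
  have hZ0 : 0 ≤ Z := by rw [hZdef]; positivity
  have hYΛ : (Λ' ^ 2)⁻¹ * ((Λ' ^ m)⁻¹ * I) ≤ kap m * (Q + 6) * Z := by
    have h1 : (Λ' ^ 2)⁻¹ * ((Λ' ^ m)⁻¹ * I)
        = (Λ' ^ 2)⁻¹ * W.kint (fun X => ‖prV m n X‖ ^ 2) Flat.h2 0 Λ' := by
      unfold SIV.kint
      rw [hIdef]
    rw [h1]
    have h2 : kap m * (Q + 6) * e * Real.log (Λ' / s) ≤ kap m * (Q + 6) * e * Real.log (Λ / s) :=
      mul_le_mul_of_nonneg_left hlog (by positivity)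
    have h3 : ((Q : ℝ) + 1) * kap m * (σ / s) ^ 2 ≤ kap m * (Q + 6) * (σ / s) ^ 2 := by
      have : ((Q : ℝ) + 1) * kap m ≤ kap m * (Q + 6) := by
        rw [mul_comm]
        exact mul_le_mul_of_nonneg_left (by linarith) hk.le
      exact mul_le_mul_of_nonneg_right this (by positivity)
    have h4 : kap m * (Q + 6) * Z
        = kap m * (Q + 6) * (σ / s) ^ 2 + kap m * (Q + 6) * e * Real.log (Λ / s) := by
      rw [hZdef]
      ring
    rw [h4]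
    linarith
  have hI : I ≤ Λ' ^ 2 * Λ' ^ m * (kap m * (Q + 6) * Z) := by
    have h1 : I = Λ' ^ 2 * Λ' ^ m * ((Λ' ^ 2)⁻¹ * ((Λ' ^ m)⁻¹ * I)) := by
      field_simp
    rw [h1]
    exact mul_le_mul_of_nonneg_left hYΛ (by positivity)
  have hfin : ‖prV m n X₀‖ ^ 2
      ≤ (kap m * (Λ / 4) ^ m)⁻¹ * (81 / 25 * (Λ' ^ 2 * Λ' ^ m * (kap m * (Q + 6) * Z))) := by
    refine hd.trans (mul_le_mul_of_nonneg_left ?_ (by positivity))
    linarith
  refine hfin.trans ?_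
  have e1 : (kap m * (Λ / 4) ^ m)⁻¹ * (81 / 25 * (Λ' ^ 2 * Λ' ^ m * (kap m * (Q + 6) * Z)))
      = 729 / 400 * 3 ^ m * (Q + 6) * Λ ^ 2 * Z := by
    have e2 : Λ' ^ m = 3 ^ m * (Λ / 4) ^ m := by
      rw [← mul_pow, hΛ'def]
      congr 1
      ring
    rw [e2, hΛ'def]
    field_simp
    ring
  rw [e1]
  have h9 : 0 ≤ (3 : ℝ) ^ m * (Q + 6) * Λ ^ 2 * Z := by positivity
  have e3 : 729 / 400 * 3 ^ m * (Q + 6) * Λ ^ 2 * Z
      = 729 / 400 * ((3 : ℝ) ^ m * (Q + 6) * Λ ^ 2 * Z) := by ring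
  have e4 : 2 * 3 ^ m * (Q + 6) * Λ ^ 2 * Z = 2 * ((3 : ℝ) ^ m * (Q + 6) * Λ ^ 2 * Z) := by ring
  rw [e3, e4]
  linarith

/-- **Almost-homogeneity of the height** (leaf `L-Freq-homog`).
PLAN.  `u X = |prV (O X)|²` is a quadratic form, `Y(ρ) = ρ^{-m-2} ∫ u h(|X|²/ρ²) dμ` with the kernel `h = (1-s)_+^2` (`IsKer`).
By `W.hasDerivAt_kint` / `W.kint_identity`:  `ρ Y'(ρ) = ρ^{-m-2} [ -2 ∫ h ⟨L X, L X^⊥⟩ + ρ^{-2} ∫ u (-2h') nsq ]`, `L = prV ∘ O`,
`X^⊥ = X - P X`.  Cauchy-Schwarz, `W.defect` (`∫_{B_ρ} nsq ≤ ρ^{m+2} kap (ratio ρ - Θ)`), `W.upper_mass` give `|ρ Y'| ≤ C sqrt η`.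
Hence `Y(Λ) ≤ Y(s) + C log(Λ/s) sqrt η`, `Y(s) ≤ C (σ/s)²`, `∫_{B_{Λ/2}} u ≤ C Λ^{m+2} Y(Λ)`; finish with `W.mean_value`
(`c = 0`, `tlap P u ≥ 0`) on `B(X, Λ/4) ⊆ B(0, Λ/2)`. -/
theorem height_of_small_scale (m n Q : ℕ) (hm : 1 ≤ m) :
    ∃ C : ℝ, 0 < C ∧ ∀ (W : SIV m n) (O : E (m + n) ≃ₗᵢ[ℝ] E (m + n)) (s Λ η σ : ℝ), 0 < s → s ≤ Λ →
      Metric.closedBall 0 Λ ⊆ W.U → W.Θ 0 ≤ Q → W.ratio 0 Λ ≤ W.Θ 0 + η → 0 ≤ η → η ≤ 1 →
      (∀ X ∈ W.support, ‖X‖ ≤ s → ‖prV m n (O X)‖ ≤ σ) →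
      ∀ X ∈ W.support, ‖X‖ ≤ Λ / 4 →
        ‖prV m n (O X)‖ ^ 2 ≤ C * Λ ^ 2 * ((σ / s) ^ 2 + (1 + Real.log (Λ / s)) * Real.sqrt η) := by
  obtain ⟨C, hCdef⟩ : ∃ C : ℝ, C = 2 * 3 ^ m * (Q + 6) := ⟨_, rfl⟩
  have hC1 : 1 ≤ C := by
    rw [hCdef]
    have h1 : (1 : ℝ) ≤ 3 ^ m := one_le_pow₀ (by norm_num)
    have h2 : (0 : ℝ) ≤ Q := Nat.cast_nonneg Q
    nlinarith
  refine ⟨C, by linarith, fun W O s Λ η σ hs hsΛ hU hΘ hr hη0 hη1 hh X hX hXΛ => ?_⟩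
  have hΛ : 0 < Λ := hs.trans_le hsΛ
  have hlog0 : 0 ≤ Real.log (Λ / s) := Real.log_nonneg ((one_le_div hs).2 hsΛ)
  by_cases hcase : Λ / 4 ≤ s
  · -- direct
    have h1 := hh X hX (hXΛ.trans hcase)
    have h2 : ‖prV m n (O X)‖ ^ 2 ≤ σ ^ 2 := pow_le_pow_left₀ (norm_nonneg _) h1 2
    have h3 : σ ^ 2 = s ^ 2 * (σ / s) ^ 2 := by
      field_simp
    have h4 : s ^ 2 * (σ / s) ^ 2 ≤ C * Λ ^ 2 * (σ / s) ^ 2 := by
      refine mul_le_mul_of_nonneg_right ?_ (by positivity)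
      have h5 : s ^ 2 ≤ Λ ^ 2 := pow_le_pow_left₀ hs.le hsΛ 2
      calc s ^ 2 ≤ 1 * Λ ^ 2 := by linarith
        _ ≤ C * Λ ^ 2 := mul_le_mul_of_nonneg_right hC1 (by positivity)
    have h6 : C * Λ ^ 2 * (σ / s) ^ 2
        ≤ C * Λ ^ 2 * ((σ / s) ^ 2 + (1 + Real.log (Λ / s)) * Real.sqrt η) := by
      refine mul_le_mul_of_nonneg_left ?_ (by positivity)
      have : 0 ≤ (1 + Real.log (Λ / s)) * Real.sqrt η := by positivity
      linarith
    linarith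
  rw [not_le] at hcase
  -- the rotated varifold
  have hinv : ∀ Y : E (m + n), simInv (0 : E (m + n)) 1 O Y = O.symm Y := by
    intro Y
    simp [simInv]
  have hU' : Metric.closedBall 0 Λ ⊆ (W.simil 0 1 one_pos O).U := by
    intro Y hY
    change simInv 0 1 O Y ∈ W.U
    apply hU
    rw [mem_closedBall_zero_iff] at hY ⊢
    rwa [hinv, O.symm.norm_map]
  have hΘ' : (W.simil 0 1 one_pos O).Θ 0 = W.Θ 0 := by
    rw [SIV.simil_Θ, hinv, map_zero]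
  have hr' : (W.simil 0 1 one_pos O).ratio 0 Λ = W.ratio 0 Λ := by
    rw [SIV.simil_ratio _ _ _ _ _ _ _ hΛ, hinv, map_zero, one_mul]
  have hsupp : ∀ Y : E (m + n), Y ∈ (W.simil 0 1 one_pos O).support ↔ O.symm Y ∈ W.support := by
    intro Y
    rw [SIV.simil_support, Set.mem_preimage, hinv]
  have key : ∀ e : ℝ, 0 < e → e ≤ 1 → η ≤ e ^ 2 →
      ‖prV m n (O X)‖ ^ 2 ≤ C * Λ ^ 2 * ((σ / s) ^ 2 + (1 + Real.log (Λ / s)) * e) := by
    intro e he he1 hηe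
    have h1 := hom_id hm (W.simil 0 1 one_pos O) (Q := Q) (σ := σ) hU' (by rw [hΘ']; exact hΘ)
      (by rw [hr', hΘ']; exact hr) hηe he he1 hs hcase
      (fun Y hY hYs => by
        have h2 := hh _ ((hsupp Y).1 hY) (by rwa [O.symm.norm_map])
        rwa [O.apply_symm_apply] at h2)
      (X₀ := O X) ((hsupp _).2 (by rwa [O.symm_apply_apply])) (by rwa [O.norm_map])
    rw [← hCdef] at h1
    refine h1.trans (mul_le_mul_of_nonneg_left ?_ (by positivity))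
    have : Real.log (Λ / s) * e ≤ (1 + Real.log (Λ / s)) * e :=
      mul_le_mul_of_nonneg_right (by linarith) he.le
    linarith
  rcases hη0.eq_or_lt with hη | hη
  · -- `η = 0`: limit
    rw [← hη, Real.sqrt_zero]
    have hlim : Tendsto (fun e : ℝ => C * Λ ^ 2 * ((σ / s) ^ 2 + (1 + Real.log (Λ / s)) * e))
        (𝓝[>] 0) (𝓝 (C * Λ ^ 2 * ((σ / s) ^ 2 + (1 + Real.log (Λ / s)) * 0))) := by
      have hc : Continuous fun e : ℝ => C * Λ ^ 2 * ((σ / s) ^ 2 + (1 + Real.log (Λ / s)) * e) := by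
        fun_prop
      exact (hc.tendsto 0).mono_left nhdsWithin_le_nhds
    refine ge_of_tendsto hlim ?_
    filter_upwards [Ioc_mem_nhdsGT (zero_lt_one' ℝ)] with e he
    exact key e he.1 he.2 (by rw [← hη]; positivity)
  · exact key (Real.sqrt η) (Real.sqrt_pos.2 hη) (Real.sqrt_le_one.2 hη1)
      (by rw [Real.sq_sqrt hη0])

/-- **Small height and pinched mass ratio imply weak closeness to `Q` planes** (leaves `L-Freq-planar-*`, see
`Freq/PlanarPf.lean`). -/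
theorem planar_of_height (m n Q : ℕ) (hm : 1 ≤ m) (ε : ℝ) (hε : 0 < ε) :
    ∃ η₁ : ℝ, 0 < η₁ ∧ ∀ W : SIV m n, Metric.closedBall 0 3000 ⊆ W.U → W.Θ 0 = Q →
      W.ratio 0 3000 ≤ Q + η₁ → (∀ X ∈ W.support, ‖X‖ ≤ 3000 → ‖prV m n X‖ ≤ η₁) →
      ∀ χ : E (m + n) → ℝ, (∀ X, |χ X| ≤ 1) → LipschitzWith 1 χ →
        tsupport χ ⊆ Metric.closedBall 0 1000 →
        |∫ X, χ X ∂W.μ - Q * ∫ y : E m, χ (mkHV y 0) ∂μH[(m : ℝ)]| ≤ ε := by
  obtain ⟨η₁, hη₁, H⟩ := Flat.planar_of_height_real m n hm Q 1000 ε (by norm_num) hε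
  have e : (3 : ℝ) * 1000 = 3000 := by norm_num
  rw [e] at H
  exact ⟨η₁, hη₁, fun W hU hΘ hr hh χ h1 h2 h3 => H W Q le_rfl hU hΘ hr hh χ h1 h2 h3⟩

/-- goodness criterion -/
theorem isGood_of_height (m n Q : ℕ) (hm : 1 ≤ m) (ε : ℝ) (hε : 0 < ε) :
    ∃ η₁ : ℝ, 0 < η₁ ∧ ∀ W : SIV m n, Metric.closedBall 0 3000 ⊆ W.U → W.Θ 0 = Q →
      W.ratio 0 3000 ≤ Q + η₁ → (∀ X ∈ W.support, ‖X‖ ≤ 3000 → ‖prV m n X‖ ≤ η₁) →
      IsGood W Q ε := by
  obtain ⟨η₁, hη₁, h⟩ := planar_of_height m n Q hm ε hε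
  refine ⟨min η₁ ε, lt_min hη₁ hε, fun W hU hΘ hr hh => ?_⟩
  refine ⟨(Metric.closedBall_subset_closedBall (by norm_num)).trans hU, fun X hX hX1 => ?_, ?_, hΘ, ?_⟩
  · exact (hh X hX (hX1.trans (by norm_num))).trans (min_le_right _ _)
  · exact h W hU hΘ (hr.trans (by linarith [min_le_left η₁ ε]))
      fun X hX hX1 => (hh X hX hX1).trans (min_le_left _ _)
  · exact (W.ratio_mono hm (by norm_num) (by norm_num) hU).trans (hr.trans (by linarith [min_le_right η₁ ε]))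

/-- goodness criterion for a rescaling, in the original units (leaf `L-Freq-isGood-simil`: `isGood_of_height` and the rules
`simil_support`, `simil_ratio`, `simil_Θ`, `simInv`). -/
theorem isGood_simil (m n Q : ℕ) (hm : 1 ≤ m) (ε : ℝ) (hε : 0 < ε) :
    ∃ η₁ : ℝ, 0 < η₁ ∧ ∀ (W : SIV m n) (R : ℝ) (hR : 0 < R) (O : E (m + n) ≃ₗᵢ[ℝ] E (m + n)),
      Metric.closedBall 0 (3000 * R) ⊆ W.U → W.Θ 0 = Q → W.ratio 0 (3000 * R) ≤ Q + η₁ →
      (∀ X ∈ W.support, ‖X‖ ≤ 3000 * R → ‖prV m n (O X)‖ ≤ η₁ * R) →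
      IsGood (W.simil 0 R hR O) Q ε := by
  obtain ⟨η₁, hη₁, H⟩ := isGood_of_height m n Q hm ε hε
  refine ⟨η₁, hη₁, fun W R hR O hU hΘ hr hh => ?_⟩
  have h0 : simInv (0 : E (m + n)) R O 0 = 0 := by simp [simInv]
  have hn : ∀ Y : E (m + n), ‖simInv (0 : E (m + n)) R O Y‖ = R * ‖Y‖ := by
    intro Y
    simp [simInv, norm_smul, abs_of_pos hR]
  refine H _ ?_ ?_ ?_ ?_
  · intro Y hY
    change simInv 0 R O Y ∈ W.U
    apply hU
    rw [mem_closedBall_zero_iff] at hY ⊢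
    rw [hn]
    nlinarith
  · rw [SIV.simil_Θ, h0, hΘ]
  · rw [SIV.simil_ratio _ _ _ _ _ _ _ (by norm_num), h0, mul_comm]
    exact hr
  · intro X hX hX1
    rw [SIV.simil_support] at hX
    have h1 := hh _ hX (by rw [hn]; nlinarith)
    have h2 : O (simInv (0 : E (m + n)) R O X) = R • X := by simp [simInv]
    rw [h2, map_smul, norm_smul, Real.norm_of_nonneg hR.le, mul_comm] at h1
    exact le_of_mul_le_mul_right h1 hR

/-! ### leaves: scales comparable to late targets -/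

/-- small scales: the domain contains large balls and the mass ratio is pinched (leaf `L-Freq-flat-small`:
`W.tendsto_ratio`, `D.dens_zero`, `0 ∈ U` since `0 ∈ sing ⊆ support ⊆ U`). -/
theorem flat_small {s : ℝ} (hm : 1 ≤ m) (D : Flat.FlatData m n s) (Λ η : ℝ) (hΛ : 0 < Λ) (hη : 0 < η) :
    ∃ R₀ : ℝ, 0 < R₀ ∧ ∀ R : ℝ, 0 < R → R ≤ R₀ →
      Metric.closedBall 0 (Λ * R) ⊆ D.W.U ∧ D.W.ratio 0 (Λ * R) ≤ D.Q + η := by
  obtain ⟨r₀, hr₀, H⟩ := Flat.pinch hm D.W (x := 0) D.zero_sing.1.1 Λ η hΛ hη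
  refine ⟨r₀, hr₀, fun R hR hRr => ?_⟩
  have := H R hR hRr 0 (by simpa using hR.le)
  rwa [D.dens_zero] at this

/-- the test function of `flat_height`: `1` on `{|Y| ≤ A, |prV Y| ≥ b}`, `0` on the horizontal plane and off `B_{A+1}`. -/
noncomputable def fhTest (m n : ℕ) (A b : ℝ) (Y : E (m + n)) : ℝ :=
  min 1 (max 0 (2 / b * ‖prV m n Y‖ - 1)) * max 0 (min 1 (A + 1 - ‖Y‖))

theorem fhTest_continuous (A b : ℝ) : Continuous (fhTest m n A b) := by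
  unfold fhTest
  fun_prop

theorem fhTest_nonneg (A b : ℝ) (Y : E (m + n)) : 0 ≤ fhTest m n A b Y :=
  mul_nonneg (le_min zero_le_one (le_max_left _ _)) (le_max_left _ _)

theorem fhTest_eq_one {A b : ℝ} (hb : 0 < b) {Y : E (m + n)} (h1 : ‖Y‖ ≤ A) (h2 : b ≤ ‖prV m n Y‖) :
    fhTest m n A b Y = 1 := by
  unfold fhTest
  have h3 : 1 ≤ 2 / b * ‖prV m n Y‖ - 1 := by
    have : 2 / b * b ≤ 2 / b * ‖prV m n Y‖ := mul_le_mul_of_nonneg_left h2 (by positivity)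
    have e : 2 / b * b = 2 := by field_simp
    linarith
  rw [max_eq_right (by linarith), min_eq_left h3, min_eq_left (by linarith), max_eq_right zero_le_one,
    one_mul]

theorem fhTest_plane (A b : ℝ) (y : E m) : fhTest m n A b (mkHV y 0) = 0 := by
  unfold fhTest
  rw [Flat.prV_mk, norm_zero, mul_zero, max_eq_left (by norm_num), min_eq_right zero_le_one, zero_mul]

theorem fhTest_eq_zero {A b : ℝ} {Y : E (m + n)} (h : A + 1 ≤ ‖Y‖) : fhTest m n A b Y = 0 := by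
  unfold fhTest
  have h1 : min 1 (A + 1 - ‖Y‖) ≤ 0 := (min_le_right _ _).trans (by linarith)
  rw [max_eq_left h1, mul_zero]

/-- the support is close to the horizontal plane at all scales comparable to late targets (leaf `L-Freq-flat-height`).
PLAN.  If `X ∈ support`, `|X| ≤ ρ R`, `|prV X| > d R`, then `W.lower_mass` gives mass `≥ kap (d R / 2)^m` in
`{|Y| ≤ (ρ + d) R, |prV Y| ≥ d R / 2}`.  Test `D.flat` with a continuous compactly supported `g ≥ 0`, `g = 1` on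
`{|Y| ≤ (ρ + d) l₂, |prV Y| ≥ d l₁ / 2}`, `g = 0` on the horizontal plane: the limit is `0`. -/
theorem flat_height {s : ℝ} (hm : 1 ≤ m) (D : Flat.FlatData m n s) (l₁ l₂ ρ d : ℝ) (hl₁ : 0 < l₁)
    (hρ : 0 < ρ) (hd : 0 < d) :
    ∀ᶠ i in atTop, ∀ R : ℝ, l₁ * D.L i ≤ R → R ≤ l₂ * D.L i →
      ∀ X ∈ D.W.support, ‖X‖ ≤ ρ * R → ‖prV m n X‖ ≤ d * R := by
  have hk := kap_pos m
  by_cases hl : l₁ ≤ l₂
  swap
  · refine Eventually.of_forall fun i R h1 h2 => ?_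
    exfalso
    have := D.L_pos i
    rw [not_le] at hl
    nlinarith
  have hl₂ : 0 < l₂ := hl₁.trans_le hl
  obtain ⟨A, hAdef⟩ : ∃ A : ℝ, A = (ρ + d) * l₂ := ⟨_, rfl⟩
  have hA : 0 < A := by rw [hAdef]; positivity
  obtain ⟨b, hbdef⟩ : ∃ b : ℝ, b = d * l₁ / 2 := ⟨_, rfl⟩
  have hb : 0 < b := by rw [hbdef]; positivity
  have hgc : Continuous (fhTest m n A b) := fhTest_continuous A b
  have hgs : HasCompactSupport (fhTest m n A b) :=
    HasCompactSupport.of_support_subset_isCompact (isCompact_closedBall 0 (A + 1)) fun Y hY => by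
      rw [mem_closedBall_zero_iff]
      by_contra hcon
      exact hY (fhTest_eq_zero (not_le.1 hcon).le)
  have hlim := D.flat (fhTest m n A b) hgc hgs
  simp only [fhTest_plane, integral_zero, mul_zero] at hlim
  have e1 := hlim.eventually_lt_const (by positivity : 0 < kap m * b ^ m)
  obtain ⟨r₁, hr₁, hr₁U⟩ := D.W.rat_exists_closedBall D.zero_sing.1.1
  have e2 : ∀ᶠ i in atTop, (A + 1) * D.L i ≤ r₁ := by
    have := D.L_lim.const_mul (A + 1)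
    rw [mul_zero] at this
    exact this.eventually_le_const hr₁
  filter_upwards [e1, e2] with i hi1 hi2 R hR1 hR2 X hX hXR
  by_contra hcon
  rw [not_le] at hcon
  obtain ⟨L, hLdef⟩ : ∃ L : ℝ, L = D.L i := ⟨_, rfl⟩
  rw [← hLdef] at hi1 hi2 hR1 hR2
  have hL : 0 < L := hLdef ▸ D.L_pos i
  have hR : 0 < R := lt_of_lt_of_le (by positivity) hR1
  have hU : Metric.closedBall 0 ((A + 1) * L) ⊆ D.W.U :=
    (Metric.closedBall_subset_closedBall hi2).trans hr₁U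
  have hAL : (ρ + d) * R ≤ A * L := by
    rw [hAdef, mul_assoc]
    exact mul_le_mul_of_nonneg_left hR2 (by positivity)
  -- points of the small ball
  have hball : ∀ Y ∈ Metric.ball X (d * R / 2), ‖Y‖ ≤ A * L ∧ b * L ≤ ‖prV m n Y‖ := by
    intro Y hY
    rw [Metric.mem_ball, dist_eq_norm] at hY
    constructor
    · have : ‖Y‖ ≤ ‖Y - X‖ + ‖X‖ := by
        calc ‖Y‖ = ‖(Y - X) + X‖ := by congr 1; abel
          _ ≤ _ := norm_add_le _ _
      nlinarith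
    · have h1 : ‖prV m n X‖ ≤ ‖prV m n Y‖ + ‖Y - X‖ := by
        calc ‖prV m n X‖ = ‖prV m n Y - prV m n (Y - X)‖ := by
              congr 1; rw [map_sub]; abel
          _ ≤ ‖prV m n Y‖ + ‖prV m n (Y - X)‖ := norm_sub_le _ _
          _ ≤ _ := by gcongr; exact Flat.norm_prV_le _
      have h2 : b * L ≤ d * R / 2 := by
        rw [hbdef]
        nlinarith
      linarith
  have hone : ∀ Y ∈ Metric.ball X (d * R / 2), fhTest m n A b (L⁻¹ • Y) = 1 := by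
    intro Y hY
    obtain ⟨h1, h2⟩ := hball Y hY
    refine fhTest_eq_one hb ?_ ?_
    · rw [norm_smul, norm_inv, Real.norm_of_nonneg hL.le, inv_mul_le_iff₀ hL, mul_comm]
      exact h1
    · rw [map_smul, norm_smul, norm_inv, Real.norm_of_nonneg hL.le, le_inv_mul_iff₀ hL, mul_comm]
      exact h2
  have hsubU : Metric.ball X (d * R / 2) ⊆ D.W.U := by
    intro Y hY
    apply hU
    rw [mem_closedBall_zero_iff]
    nlinarith [(hball Y hY).1]
  have hlow := D.W.lower_mass hm hX (by positivity : 0 < d * R / 2) hsubU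
  -- integrability
  have hfc : Continuous fun Y : E (m + n) => fhTest m n A b (L⁻¹ • Y) :=
    hgc.comp (continuous_const_smul _)
  have hfz : ∀ Y : E (m + n), (A + 1) * L < ‖Y‖ → fhTest m n A b (L⁻¹ • Y) = 0 := by
    intro Y hY
    refine fhTest_eq_zero ?_
    rw [norm_smul, norm_inv, Real.norm_of_nonneg hL.le, le_inv_mul_iff₀ hL, mul_comm]
    exact hY.le
  have hfsub : Function.support (fun Y : E (m + n) => fhTest m n A b (L⁻¹ • Y))
      ⊆ Metric.closedBall 0 ((A + 1) * L) := fun Y hY => by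
    rw [mem_closedBall_zero_iff]
    by_contra hc
    exact hY (hfz Y (not_le.1 hc))
  have hfi : Integrable (fun Y : E (m + n) => fhTest m n A b (L⁻¹ • Y)) D.W.μ :=
    D.W.kin_integrable_of_le hfc.measurable hfc
      (HasCompactSupport.of_support_subset_isCompact (isCompact_closedBall 0 _) hfsub)
      ((closure_minimal hfsub Metric.isClosed_closedBall).trans hU)
      (fun Y => by rw [abs_of_nonneg (fhTest_nonneg _ _ _)])
  have hfin : D.W.μ (Metric.ball X (d * R / 2)) < ⊤ := by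
    refine lt_of_le_of_lt (measure_mono ?_) (D.W.rat_closedBall_lt_top hU)
    intro Y hY
    rw [mem_closedBall_zero_iff]
    nlinarith [(hball Y hY).1]
  have h1 : (D.W.μ (Metric.ball X (d * R / 2))).toReal
      ≤ ∫ Y, fhTest m n A b (L⁻¹ • Y) ∂D.W.μ := by
    have h2 : ∫ Y in Metric.ball X (d * R / 2), fhTest m n A b (L⁻¹ • Y) ∂D.W.μ
        = (D.W.μ (Metric.ball X (d * R / 2))).toReal := by
      rw [setIntegral_congr_fun Metric.isOpen_ball.measurableSet hone, setIntegral_const]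
      simp [Measure.real]
    rw [← h2]
    exact setIntegral_le_integral hfi (Eventually.of_forall fun Y => fhTest_nonneg _ _ _)
  have h3 : kap m * (d * R / 2) ^ m ≤ (D.W.μ (Metric.ball X (d * R / 2))).toReal :=
    (ENNReal.ofReal_le_iff_le_toReal hfin.ne).1 hlow
  have h4 : kap m * (b * L) ^ m ≤ kap m * (d * R / 2) ^ m := by
    have h2 : b * L ≤ d * R / 2 := by
      rw [hbdef]
      nlinarith
    gcongr
  have h5 : kap m * b ^ m ≤ (L ^ m)⁻¹ * ∫ Y, fhTest m n A b (L⁻¹ • Y) ∂D.W.μ := by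
    rw [le_inv_mul_iff₀ (by positivity)]
    calc L ^ m * (kap m * b ^ m) = kap m * (b * L) ^ m := by rw [mul_pow]; ring
      _ ≤ _ := h4.trans (h3.trans h1)
  linarith

/-- **Every scale comparable to a sufficiently late target is good** (with the identity rotation). -/
theorem good_of_flat {s : ℝ} (hm : 1 ≤ m) (D : Flat.FlatData m n s) (l₁ l₂ ε : ℝ) (hl₁ : 0 < l₁)
    (hε : 0 < ε) :
    ∀ᶠ i in atTop, ∀ (R : ℝ) (hR : 0 < R), l₁ * D.L i ≤ R → R ≤ l₂ * D.L i →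
      IsGood (D.W.simil 0 R hR (LinearIsometryEquiv.refl ℝ _)) D.Q ε := by
  obtain ⟨η₁, hη₁, h⟩ := isGood_simil m n D.Q hm ε hε
  obtain ⟨R₀, hR₀, hsm⟩ := flat_small hm D 3000 η₁ (by norm_num) hη₁
  have hl₂ : ∀ᶠ i in atTop, |l₂| * D.L i < R₀ := by
    have := (D.L_lim.const_mul |l₂|)
    rw [mul_zero] at this
    exact this.eventually (gt_mem_nhds hR₀)
  filter_upwards [flat_height hm D l₁ l₂ 3000 η₁ hl₁ (by norm_num) hη₁, hl₂] with i hi hi2 R hR h1 h2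
  have hRR : R ≤ R₀ := by
    have : l₂ * D.L i ≤ |l₂| * D.L i := mul_le_mul_of_nonneg_right (le_abs_self _) (D.L_pos i).le
    linarith
  obtain ⟨hU, hr⟩ := hsm R hR hRR
  exact h D.W R hR _ hU D.dens_zero hr fun X hX hX1 => hi R h1 h2 X hX hX1

end Claimed.Agent.R322.Freq
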