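import Claimed.Agent.R322.Freq.Endpt

/-!
# CO Proposition 4.5, part C: late starts are planar; failure scales at comparable scales; the chain of restarts

Owner: helper109 (package BP-CO4-cover).
-/

set_option autoImplicit false

open scoped ENNReal ContDiff
open MeasureTheory Filter Topology

namespace Claimed.Agent.R322.Freq

open Claimed.Agent.R322.Tube

variable {m n : ℕ}

/-- a rotation taking the tangent plane of a graph to the horizontal plane (leaf `L-Freq-rot`: `LinearIsometry.extend` applied to an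
isometry from `range (dF A)` onto the horizontal plane, e.g. built from orthonormal bases of the two `m`-dimensional subspaces;
`LinearIsometry.toLinearIsometryEquiv`). -/
theorem exists_rot (A : E m →L[ℝ] E n) :
    ∃ O' : E (m + n) ≃ₗᵢ[ℝ] E (m + n), ∀ t : E m, prV m n (O' (dF A t)) = 0 := by
  set S : Submodule ℝ (E (m + n)) :=
    LinearMap.range ((dF A : E m →L[ℝ] E (m + n)) : E m →ₗ[ℝ] E (m + n)) with hS
  have hinj : Function.Injective ((dF A : E m →L[ℝ] E (m + n)) : E m →ₗ[ℝ] E (m + n)) := by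
    intro x y hxy
    have := congrArg (prH m n) hxy
    simpa [prH_dF] using this
  have hfr : Module.finrank ℝ S = m := by
    rw [hS, LinearMap.finrank_range_of_inj hinj, finrank_euclideanSpace_fin]
  let e : S ≃ₗᵢ[ℝ] E m := ((stdOrthonormalBasis ℝ S).reindex (finCongr hfr)).repr
  let iH : E m →ₗᵢ[ℝ] E (m + n) := ⟨(inH m n : E m →ₗ[ℝ] E (m + n)), fun y => norm_inH y⟩
  let L : S →ₗᵢ[ℝ] E (m + n) := iH.comp e.toLinearIsometry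
  refine ⟨L.extend.toLinearIsometryEquiv rfl, fun t => ?_⟩
  have ht : dF A t ∈ S := ⟨t, rfl⟩
  have h1 : (L.extend.toLinearIsometryEquiv rfl) (dF A t) = L ⟨dF A t, ht⟩ :=
    L.extend_apply ⟨dF A t, ht⟩
  rw [h1]
  exact prV_inH _

/-- **Late starts are planar: `2R` is good** (CO: "planar convergence of `V_R` on every fixed ball makes `2R` good").
Leaf `L-Freq-two-good` (glue).
PLAN.  `η₁` from `isGood_simil` (`ε = π.eg`), `C` from `height_of_small_scale`, `O'` from `exists_rot (Du 0)`.  By `start_flat`,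
`|prV (O' X)| ≤ |e| ≤ C₁ s²` for support points `|X| ≤ s` if `b ≤ s`.  `height_of_small_scale` with `Λ = 24000`, `σ = C₁ s²`:
`|prV (O' X)|² ≤ C Λ² (C₁² s² + (1 + log (Λ/s)) sqrt η₀)` for `|X| ≤ 6000`.  Choose `s`, then `η₀ ≤ η₁`; `b₀ = s`. -/
theorem two_good (m n Q : ℕ) (hm : 1 ≤ m) (hn : 1 ≤ n) (hQ : 1 ≤ Q) :
    ∃ J₁ : ℕ, ∀ B : FitBase, J₁ ≤ B.J → B.Adm m →
      Ev B (fun π => ∃ b₀ η₀ : ℝ, 0 < b₀ ∧ 0 < η₀ ∧ ∀ S : Start m n Q π, S.b ≤ b₀ →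
        Metric.closedBall 0 24000 ⊆ S.N.W.U → S.N.W.ratio 0 24000 ≤ Q + η₀ →
        ∃ O' : E (m + n) ≃ₗᵢ[ℝ] E (m + n), IsGood (S.N.W.simil 0 2 two_pos O') Q π.eg) := by
  obtain ⟨C, hC0, hhom⟩ := height_of_small_scale m n Q hm
  refine ⟨4, fun B hJ hB => ?_⟩
  refine ((Ev.pos B).and (start_flat (n := n) (Q := Q) hm B hB hJ)).mono fun π hπ h => ?_
  obtain ⟨hpos, hflat⟩ := h
  obtain ⟨-, -, -, -, hC₁, -, -, -, -, -, -, heg0, -⟩ := hpos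
  obtain ⟨η₁, hη₁, hgood⟩ := isGood_simil m n Q hm π.eg heg0
  have hC₁0 : 0 < π.C₁ := by linarith
  -- the small scale
  obtain ⟨s, hsdef⟩ : ∃ s : ℝ, s = min 1 (η₁ / (24000 * π.C₁ * (C + 1))) := ⟨_, rfl⟩
  have hs0 : 0 < s := by rw [hsdef]; exact lt_min one_pos (by positivity)
  have hs1 : s ≤ 1 := hsdef ▸ min_le_left _ _
  have hs2 : s ≤ η₁ / (24000 * π.C₁ * (C + 1)) := hsdef ▸ min_le_right _ _
  have hlog : 0 ≤ Real.log (24000 / s) := by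
    apply Real.log_nonneg
    rw [le_div_iff₀ hs0]
    linarith
  obtain ⟨K, hKdef⟩ : ∃ K : ℝ, K = C * 24000 ^ 2 * (1 + Real.log (24000 / s)) := ⟨_, rfl⟩
  have hK0 : 0 < K := by rw [hKdef]; positivity
  obtain ⟨η₀, hη₀def⟩ : ∃ η₀ : ℝ, η₀ = min (min 1 η₁) ((η₁ ^ 2 / K) ^ 2) := ⟨_, rfl⟩
  have hη₀0 : 0 < η₀ := by
    rw [hη₀def]; exact lt_min (lt_min one_pos hη₁) (by positivity)
  have hη₀1 : η₀ ≤ 1 := hη₀def ▸ (min_le_left _ _).trans (min_le_left _ _)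
  have hη₀2 : η₀ ≤ η₁ := hη₀def ▸ (min_le_left _ _).trans (min_le_right _ _)
  have hη₀3 : Real.sqrt η₀ ≤ η₁ ^ 2 / K := by
    have : η₀ ≤ (η₁ ^ 2 / K) ^ 2 := hη₀def ▸ min_le_right _ _
    exact (Real.sqrt_le_sqrt this).trans (le_of_eq (Real.sqrt_sq (by positivity)))
  refine ⟨s, η₀, hs0, hη₀0, fun S hSb hU hratio => ?_⟩
  obtain ⟨O', hO'⟩ := exists_rot (fderiv ℝ S.N.u 0)
  refine ⟨O', ?_⟩
  have hΘ : S.N.W.Θ 0 = Q := S.good.dens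
  have hsmall : ∀ X ∈ S.N.W.support, ‖X‖ ≤ s → ‖prV m n (O' X)‖ ≤ π.C₁ * s ^ 2 := by
    intro X hX hXs
    obtain ⟨t, e, hXe, he⟩ := hflat S s hSb hs1 X hX hXs
    rw [hXe, map_add, map_add, hO' t, zero_add]
    exact (norm_prV_le _).trans ((O'.norm_map e).le.trans he)
  have hbig := hhom S.N.W O' s 24000 η₀ (π.C₁ * s ^ 2) hs0 (by linarith) hU hΘ.le
    (by rw [hΘ]; exact hratio) hη₀0.le hη₀1 hsmall
  have hU6 : Metric.closedBall (0 : E (m + n)) (3000 * 2) ⊆ S.N.W.U :=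
    (Metric.closedBall_subset_closedBall (by norm_num)).trans hU
  refine hgood S.N.W 2 two_pos O' hU6 hΘ ?_ ?_
  · exact (S.N.W.ratio_mono hm (by norm_num) (by norm_num) hU).trans (by linarith)
  · intro X hX hX1
    have h1 := hbig X hX (by linarith)
    have h2 : (π.C₁ * s ^ 2 / s) ^ 2 = π.C₁ ^ 2 * s ^ 2 := by
      field_simp
    have h3 : C * 24000 ^ 2 * (π.C₁ ^ 2 * s ^ 2) ≤ η₁ ^ 2 := by
      have h4 : 24000 * π.C₁ * (C + 1) * s ≤ η₁ := by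
        rw [le_div_iff₀ (by positivity)] at hs2
        linarith
      have h5 : (24000 * π.C₁ * (C + 1) * s) ^ 2 ≤ η₁ ^ 2 :=
        pow_le_pow_left₀ (by positivity) h4 2
      have h6 : C * 24000 ^ 2 * (π.C₁ ^ 2 * s ^ 2) ≤ (24000 * π.C₁ * (C + 1) * s) ^ 2 := by
        have h7 : C ≤ (C + 1) ^ 2 := by nlinarith
        have h8 : 0 ≤ 24000 ^ 2 * (π.C₁ ^ 2 * s ^ 2) := by positivity
        calc C * 24000 ^ 2 * (π.C₁ ^ 2 * s ^ 2) = C * (24000 ^ 2 * (π.C₁ ^ 2 * s ^ 2)) := by ring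
          _ ≤ (C + 1) ^ 2 * (24000 ^ 2 * (π.C₁ ^ 2 * s ^ 2)) := by gcongr
          _ = _ := by ring
      exact h6.trans h5
    have h4 : C * 24000 ^ 2 * ((1 + Real.log (24000 / s)) * Real.sqrt η₀) ≤ η₁ ^ 2 := by
      calc C * 24000 ^ 2 * ((1 + Real.log (24000 / s)) * Real.sqrt η₀) = K * Real.sqrt η₀ := by
            rw [hKdef]; ring
        _ ≤ K * (η₁ ^ 2 / K) := by gcongr
        _ = η₁ ^ 2 := by field_simp
    have h5 : ‖prV m n (O' X)‖ ^ 2 ≤ (η₁ * 2) ^ 2 := by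
      rw [h2, mul_add] at h1
      nlinarith
    exact (pow_le_pow_iff_left₀ (norm_nonneg _) (by positivity) (by norm_num)).1 h5

theorem rst_coneSet_mono {ε ε' : ℝ} {Γ : Set (E (m + n))} (h : ConeSet ε Γ) (hε : ε ≤ ε') :
    ConeSet ε' Γ := fun p hp p' hp' =>
  (h p hp p' hp').trans (mul_le_mul_of_nonneg_right hε (norm_nonneg _))

/-- `x < t ^ (m+1)` gives `x ^ (1/(m+1)) < t` -/
theorem rst_rpow_lt {x t : ℝ} (m : ℕ) (hx : 0 ≤ x) (ht : 0 ≤ t) (h : x < t ^ (m + 1)) :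
    x ^ ((1 : ℝ) / (m + 1)) < t := by
  have h1 : (1 : ℝ) / (m + 1) = (((m + 1 : ℕ) : ℝ))⁻¹ := by push_cast; rw [one_div]
  rw [h1]
  calc x ^ (((m + 1 : ℕ) : ℝ))⁻¹ < (t ^ (m + 1)) ^ (((m + 1 : ℕ) : ℝ))⁻¹ :=
        Real.rpow_lt_rpow hx h (by positivity)
    _ = t := Real.pow_rpow_inv_natCast ht (Nat.succ_ne_zero m)

/-- **All failure scales are small at starts comparable to late targets** (CO: "the start varifolds would then converge to planes,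
contradicting failed-fit separation at a scale bounded away from zero").  Leaf `L-Freq-comparable` (glue).
PLAN.  `flat_height` with `l₁ = 1000 / r_*`, `l₂ = 1 / (100 β₀)`, `ρ = 10`, `d' < c m₀ β₀^k` small.  In start coordinates the
support in `B_10` is `d'`-close to `Γ = O '' (horizontal plane)`.  `angle_of_near` (`s = 0`), `coneSet_rot` (`Γ₀` = horizontal plane,
slope `0`), `fail_small`. -/
theorem fail_of_comparable (m n Q : ℕ) (hm : 1 ≤ m) (hn : 1 ≤ n) (hQ : 1 ≤ Q) (B : FitBase)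
    (hB : B.Adm m) :
    Ev B (fun π => ∀ (s : ℝ) (D : Flat.FlatData m n s), D.Q = Q → ∀ β₀ : ℝ, 0 < β₀ →
      ∀ᶠ i in atTop, ∀ (R : ℝ) (hR : 0 < R) (O : E (m + n) ≃ₗᵢ[ℝ] E (m + n)) (S : Start m n D.Q π),
        S.N.W = D.W.simil 0 R hR O → 100 * β₀ * R ≤ D.L i → D.L i ≤ π.rs / 1000 * R →
        ∀ x : E m, ‖x‖ < 5 → S.ℓ x < β₀) := by
  obtain ⟨C, hC1, hang⟩ := angle_of_near m n Q hm hQ
  have hC0 : 0 < C := by linarith
  have ht0 : 0 < B.ε₁ / (8 * C) := div_pos hB.ε₁_pos (by positivity)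
  have hev := ((Ev.pos B).and (fail_small (n := n) (Q := Q) hm B hB)).and
    (Ev.eg_lt B (fun _ _ _ _ _ _ _ _ => (B.ε₁ / (8 * C)) ^ (m + 1)) (fun _ _ _ _ _ _ _ _ => by positivity))
  refine hev.mono fun π hπ h => ?_
  obtain ⟨⟨hpos, hfail⟩, heg⟩ := h
  obtain ⟨-, -, hm₀, -, -, hrs, -, -, -, -, -, heg0, heg1⟩ := hpos
  have hc : π.c = B.c := by rw [← hπ]
  have hε₁ : π.ε₁ = B.ε₁ := by rw [← hπ]
  have hcpos : 0 < π.c := hc ▸ hB.c_pos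
  intro s D hDQ β₀ hβ₀
  subst hDQ
  -- the closeness parameter
  obtain ⟨d, hddef⟩ : ∃ d : ℝ, d = min (B.ε₁ / (8 * C)) (π.c * π.m₀ * β₀ ^ π.k / 2) := ⟨_, rfl⟩
  have hd0 : 0 < d := by rw [hddef]; exact lt_min ht0 (by positivity)
  have hd1 : d ≤ B.ε₁ / (8 * C) := hddef ▸ min_le_left _ _
  have hd2 : d < π.c * π.m₀ * β₀ ^ π.k := by
    have : d ≤ π.c * π.m₀ * β₀ ^ π.k / 2 := hddef ▸ min_le_right _ _
    have h0 : 0 < π.c * π.m₀ * β₀ ^ π.k := by positivity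
    linarith
  filter_upwards [flat_height hm D (1000 / π.rs) (1 / (100 * β₀)) 10 d (by positivity) (by norm_num) hd0]
    with i hi R hR O S hSW hL1 hL2 x hx
  have hR1 : 1000 / π.rs * D.L i ≤ R := by
    rw [div_mul_eq_mul_div, div_le_iff₀ hrs]
    have : D.L i * 1000 ≤ π.rs * R := by
      have := hL2
      rw [div_mul_eq_mul_div, le_div_iff₀ (by norm_num)] at this
      exact this
    linarith
  have hR2 : R ≤ 1 / (100 * β₀) * D.L i := by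
    rw [div_mul_eq_mul_div, le_div_iff₀ (by positivity)]
    linarith
  have hflat := hi R hR1 hR2
  -- the plane
  set Γ₀ : Set (E (m + n)) := {X | prV m n X = 0} with hΓ₀
  have hcone0 : ConeSet 0 Γ₀ := by
    intro p hp p' hp'
    have hp0 : prV m n p = 0 := hp
    have hp0' : prV m n p' = 0 := hp'
    rw [map_sub, hp0, hp0']
    simp
  set Γ : Set (E (m + n)) := (fun X => (1 : ℝ) • O X) '' Γ₀ with hΓ
  have hclose : ∀ Y ∈ S.N.W.support, ‖Y‖ ≤ 10 → ∃ p ∈ Γ, ‖Y - p‖ ≤ d := by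
    intro Y hY hY10
    rw [hSW, SIV.simil_support] at hY
    have hY' : simInv (0 : E (m + n)) R O Y ∈ D.W.support := hY
    have hn : ‖simInv (0 : E (m + n)) R O Y‖ = R * ‖Y‖ := by
      simp [simInv, norm_smul, abs_of_pos hR]
    have h1 := hflat _ hY' (by rw [hn]; nlinarith)
    have h2 : simInv (0 : E (m + n)) R O Y = R • O.symm Y := by simp [simInv]
    rw [h2, map_smul, norm_smul, Real.norm_of_nonneg hR.le, mul_comm] at h1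
    have h3 : ‖prV m n (O.symm Y)‖ ≤ d := le_of_mul_le_mul_right h1 hR
    refine ⟨(1 : ℝ) • O (PH m n (O.symm Y)), ⟨PH m n (O.symm Y), ?_, rfl⟩, ?_⟩
    · show prV m n (PH m n (O.symm Y)) = 0
      exact prV_inH _
    · have h4 : Y - (1 : ℝ) • O (PH m n (O.symm Y)) = O (O.symm Y - PH m n (O.symm Y)) := by
        rw [one_smul, map_sub, O.apply_symm_apply]
      rw [h4, O.norm_map, norm_sub_PH]
      exact h3
  have hslope : ∀ p ∈ Γ, ∀ p' ∈ Γ,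
      ‖prV m n (O.symm (p - p'))‖ ≤ 0 * ‖prH m n (O.symm (p - p'))‖ := by
    rintro _ ⟨q, hq, rfl⟩ _ ⟨q', hq', rfl⟩
    have hq0 : prV m n q = 0 := hq
    have hq0' : prV m n q' = 0 := hq'
    simp [hq0, hq0']
  have hθ := hang S.N.W π.eg heg0 heg1 S.good Γ O 0 d le_rfl zero_le_one hslope hclose
  have hegr : π.eg ^ ((1 : ℝ) / (m + 1)) < B.ε₁ / (8 * C) := rst_rpow_lt m heg0.le ht0.le heg
  have hθ2 : C * (0 + d + π.eg ^ ((1 : ℝ) / (m + 1))) ≤ B.ε₁ / 4 := by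
    have : C * (0 + d + π.eg ^ ((1 : ℝ) / (m + 1))) ≤ C * (B.ε₁ / (8 * C) + B.ε₁ / (8 * C)) := by
      gcongr
      linarith
    refine this.trans (le_of_eq ?_)
    field_simp
    ring
  have hrot := (coneSet_rot Γ₀ O 0 (B.ε₁ / 4) 1 le_rfl zero_le_one one_pos hcone0 (hθ.trans hθ2)
    (by linarith [hB.ε₁_le])).1
  have hcone : ConeSet π.ε₁ Γ := rst_coneSet_mono hrot (by rw [hε₁]; linarith)
  have hfin := hfail S Γ d hcone hclose x hx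
  by_contra hcon
  rw [not_lt] at hcon
  have : π.c * π.m₀ * β₀ ^ π.k ≤ π.c * π.m₀ * S.ℓ x ^ π.k := by gcongr
  linarith

/-! ### combinatorics of the restarts -/

/-- a dyadic scale in `[x, 2x]`. -/
theorem chain_dyadic {x : ℝ} (hx : 0 < x) (hx1 : x < 1) :
    ∃ j : ℕ, x ≤ (2 : ℝ)⁻¹ ^ j ∧ (2 : ℝ)⁻¹ ^ j ≤ 2 * x := by
  obtain ⟨n, h1, h2⟩ := exists_nat_pow_near_of_lt_one hx hx1.le (y := (2 : ℝ)⁻¹) (by norm_num)
    (by norm_num)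
  refine ⟨n, h2, ?_⟩
  rw [pow_succ] at h1
  linarith

theorem chain_pow_le_iff {a b : ℕ} : (2 : ℝ)⁻¹ ^ a ≤ (2 : ℝ)⁻¹ ^ b ↔ b ≤ a :=
  pow_le_pow_iff_right_of_lt_one₀ (by norm_num) (by norm_num)

theorem chain_pow_lt_iff {a b : ℕ} : (2 : ℝ)⁻¹ ^ a < (2 : ℝ)⁻¹ ^ b ↔ b < a :=
  pow_lt_pow_iff_right_of_lt_one₀ (by norm_num) (by norm_num)

/-- **Coverage of the targets** (CO Proposition 4.5, first paragraph of the proof).  Pure combinatorics of dyadic scales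
`R_j = 2^{-j}`; leaf `L-Freq-chain`.
PLAN.  `j₀` = any good index.  Chain `c 0 = j₀`, `c (l+1) = ` least good `j''` with `R_{j''} ≤ F b_{c l} R_{c l}` if `b_{c l} > 0`
(exists: good indices are unbounded by `hgood`), `c (l+1) = c l` otherwise.  `R_{c (l+1)} < R_{c l} / 4`.  For a late `i` take the
last `l` with `L i ≤ (r_*/1000) R_{c l}`.  If `b_{c l} = 0` we are done.  Otherwise `L i > (r_*/1000) R_{c (l+1)}`; if
`L i < 100 b R` then `F b R > 10^4 L i / r_*`, the dyadic scale in `[2000 L i / r_*, 4000 L i / r_*]` is good and eligible, so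
`R_{c (l+1)} ≥ 2000 L i / r_*`: contradiction. -/
theorem chain_cover (good : ℕ → Prop) (b : ℕ → ℝ) (f : ℕ) (rs : ℝ) (L : ℕ → ℝ) (hrs : 0 < rs)
    (hrs1 : rs ≤ 1) (hb : ∀ j, good j → b j = 0 ∨ ∃ a : ℕ, b j = (2 : ℝ)⁻¹ ^ a)
    (hFb : ∀ j, good j → 2 ^ f * b j < 1 / 4) (hF : 10 ^ 6 / rs < 2 ^ f)
    (hL : ∀ i, 0 < L i) (hL0 : Tendsto L atTop (𝓝 0))
    (hgood : ∀ᶠ i in atTop, ∀ j : ℕ, 2000 * L i / rs ≤ (2 : ℝ)⁻¹ ^ j → (2 : ℝ)⁻¹ ^ j ≤ 4000 * L i / rs →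
      good j) :
    ∃ j₀ : ℕ, ∀ᶠ i in atTop, ∃ j : ℕ, good j ∧ 100 * b j * (2 : ℝ)⁻¹ ^ j ≤ L i ∧
      L i ≤ rs / 1000 * (2 : ℝ)⁻¹ ^ j ∧
      (j = j₀ ∨ ∃ j' : ℕ, good j' ∧ 0 < b j' ∧ (2 : ℝ)⁻¹ ^ j ≤ 2 ^ f * b j' * (2 : ℝ)⁻¹ ^ j' ∧
        ∀ j'' : ℕ, good j'' → (2 : ℝ)⁻¹ ^ j'' ≤ 2 ^ f * b j' * (2 : ℝ)⁻¹ ^ j' → j ≤ j'') := by
  classical
  have hsmall : ∀ ε : ℝ, 0 < ε → ∀ᶠ i in atTop, L i < ε := fun ε hε =>
    hL0.eventually (gt_mem_nhds hε)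
  -- the dyadic scale attached to a late `i`
  have hstar : ∀ᶠ i in atTop, ∃ j : ℕ, good j ∧ 2000 * L i / rs ≤ (2 : ℝ)⁻¹ ^ j ∧
      (2 : ℝ)⁻¹ ^ j ≤ 4000 * L i / rs := by
    filter_upwards [hgood, hsmall (rs / 2000) (by positivity)] with i hi hi2
    have hx : 0 < 2000 * L i / rs := by have := hL i; positivity
    have hx1 : 2000 * L i / rs < 1 := by
      rw [div_lt_one hrs]; linarith
    obtain ⟨j, h1, h2⟩ := chain_dyadic hx hx1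
    have h3 : (2 : ℝ)⁻¹ ^ j ≤ 4000 * L i / rs := by
      refine h2.trans (le_of_eq ?_); ring
    exact ⟨j, hi j h1 h3, h1, h3⟩
  obtain ⟨i₀, j₀, hj₀, -, -⟩ := hstar.exists
  refine ⟨j₀, ?_⟩
  have hR0 : 0 < rs / 1000 * (2 : ℝ)⁻¹ ^ j₀ := by positivity
  filter_upwards [hstar, hsmall _ hR0] with i hi hi0
  obtain ⟨js, hjs, hjs1, hjs2⟩ := hi
  have hLi := hL i
  -- the admissible set
  let P : ℕ → Prop := fun j => good j ∧ L i ≤ rs / 1000 * (2 : ℝ)⁻¹ ^ j ∧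
    (j = j₀ ∨ ∃ j' : ℕ, good j' ∧ 0 < b j' ∧ (2 : ℝ)⁻¹ ^ j ≤ 2 ^ f * b j' * (2 : ℝ)⁻¹ ^ j' ∧
        ∀ j'' : ℕ, good j'' → (2 : ℝ)⁻¹ ^ j'' ≤ 2 ^ f * b j' * (2 : ℝ)⁻¹ ^ j' → j ≤ j'')
  have hP0 : P j₀ := ⟨hj₀, hi0.le, Or.inl rfl⟩
  obtain ⟨N, hN⟩ := exists_pow_lt_of_lt_one (show 0 < 1000 * L i / rs by positivity)
    (show (2 : ℝ)⁻¹ < 1 by norm_num)
  have hbd : ∀ j, P j → j ≤ N := by
    intro j hj
    have h1 : 1000 * L i / rs ≤ (2 : ℝ)⁻¹ ^ j := by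
      rw [div_le_iff₀ hrs]
      have := hj.2.1
      linarith
    exact (chain_pow_lt_iff.1 (lt_of_lt_of_le hN h1)).le
  have hj : P (Nat.findGreatest P N) := Nat.findGreatest_spec (hbd j₀ hP0) hP0
  have hmax : ∀ k, P k → k ≤ Nat.findGreatest P N := fun k hk => Nat.le_findGreatest (hbd k hk) hk
  obtain ⟨j, hjdef⟩ : ∃ j, j = Nat.findGreatest P N := ⟨_, rfl⟩
  rw [← hjdef] at hj hmax
  refine ⟨j, hj.1, ?_, hj.2.1, hj.2.2⟩
  by_contra hcon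
  push Not at hcon
  have hRj : 0 < (2 : ℝ)⁻¹ ^ j := by positivity
  have hbj : 0 < b j := by
    by_contra hneg
    push Not at hneg
    have : 100 * b j * (2 : ℝ)⁻¹ ^ j ≤ 0 :=
      mul_nonpos_of_nonpos_of_nonneg (by linarith) hRj.le
    linarith
  -- `js` is eligible
  have helig : (2 : ℝ)⁻¹ ^ js ≤ 2 ^ f * b j * (2 : ℝ)⁻¹ ^ j := by
    have h1 : 4000 * L i / rs ≤ 10 ^ 6 / rs * (L i / 100) := by
      rw [div_mul_eq_mul_div, div_le_div_iff_of_pos_right hrs]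
      linarith
    have h2 : 10 ^ 6 / rs * (L i / 100) ≤ 2 ^ f * (L i / 100) :=
      mul_le_mul_of_nonneg_right hF.le (by positivity)
    have h3 : (2 : ℝ) ^ f * (L i / 100) ≤ 2 ^ f * (b j * (2 : ℝ)⁻¹ ^ j) :=
      mul_le_mul_of_nonneg_left (by linarith) (by positivity)
    calc (2 : ℝ)⁻¹ ^ js ≤ 4000 * L i / rs := hjs2
      _ ≤ 2 ^ f * (b j * (2 : ℝ)⁻¹ ^ j) := h1.trans (h2.trans h3)
      _ = 2 ^ f * b j * (2 : ℝ)⁻¹ ^ j := by ring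
  have hex : ∃ j'' : ℕ, good j'' ∧ (2 : ℝ)⁻¹ ^ j'' ≤ 2 ^ f * b j * (2 : ℝ)⁻¹ ^ j := ⟨js, hjs, helig⟩
  obtain ⟨hp1, hp2⟩ := Nat.find_spec hex
  have hpmin : ∀ j'' : ℕ, good j'' → (2 : ℝ)⁻¹ ^ j'' ≤ 2 ^ f * b j * (2 : ℝ)⁻¹ ^ j →
      Nat.find hex ≤ j'' := fun j'' h1 h2 => Nat.find_min' hex ⟨h1, h2⟩
  obtain ⟨jp, hjp⟩ : ∃ jp, jp = Nat.find hex := ⟨_, rfl⟩
  rw [← hjp] at hp1 hp2 hpmin
  have hle : jp ≤ js := hpmin js hjs helig
  have hPjp : P jp := by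
    refine ⟨hp1, ?_, Or.inr ⟨j, hj.1, hbj, hp2, hpmin⟩⟩
    have h1 : (2 : ℝ)⁻¹ ^ js ≤ (2 : ℝ)⁻¹ ^ jp := chain_pow_le_iff.2 hle
    have h2 : 2000 * L i / rs ≤ (2 : ℝ)⁻¹ ^ jp := hjs1.trans h1
    rw [div_le_iff₀ hrs] at h2
    have h3 : 0 < (2 : ℝ)⁻¹ ^ jp := by positivity
    nlinarith
  have hlt : j < jp := by
    apply chain_pow_lt_iff.1
    have h1 := hFb j hj.1
    calc (2 : ℝ)⁻¹ ^ jp ≤ 2 ^ f * b j * (2 : ℝ)⁻¹ ^ j := hp2
      _ < 1 / 4 * (2 : ℝ)⁻¹ ^ j := mul_lt_mul_of_pos_right h1 hRj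
      _ ≤ (2 : ℝ)⁻¹ ^ j := by linarith
  exact absurd (hmax jp hPjp) (by omega)

/-- **CO (4.24)** `R = F b_- R_-`: dyadic arithmetic (leaf `L-Freq-exact`). -/
theorem exact_restart {good : ℕ → Prop} {j j' f a : ℕ}
    (hle : (2 : ℝ)⁻¹ ^ j ≤ 2 ^ f * (2 : ℝ)⁻¹ ^ a * (2 : ℝ)⁻¹ ^ j')
    (hlt : (2 : ℝ) ^ f * (2 : ℝ)⁻¹ ^ a < 1 / 4)
    (hmin : ∀ j'' : ℕ, good j'' → (2 : ℝ)⁻¹ ^ j'' ≤ 2 ^ f * (2 : ℝ)⁻¹ ^ a * (2 : ℝ)⁻¹ ^ j' → j ≤ j'')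
    (hj : 1 ≤ j) (hgood : good (j - 1)) :
    (2 : ℝ)⁻¹ ^ j = 2 ^ f * (2 : ℝ)⁻¹ ^ a * (2 : ℝ)⁻¹ ^ j' := by
  have hfa : f ≤ a := by
    by_contra hcon
    push Not at hcon
    have h1 : (2 : ℝ) ^ f * (2 : ℝ)⁻¹ ^ a = 2 ^ (f - a) := by
      have : (2 : ℝ) ^ f = 2 ^ (f - a) * 2 ^ a := by rw [← pow_add]; congr 1; omega
      rw [this, mul_assoc, ← mul_pow]
      norm_num
    have h2 : (1 : ℝ) ≤ 2 ^ (f - a) := one_le_pow₀ (by norm_num)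
    linarith
  have h1 : (2 : ℝ) ^ f * (2 : ℝ)⁻¹ ^ a * (2 : ℝ)⁻¹ ^ j' = (2 : ℝ)⁻¹ ^ (a - f + j') := by
    have : (2 : ℝ)⁻¹ ^ a = (2 : ℝ)⁻¹ ^ f * (2 : ℝ)⁻¹ ^ (a - f) := by
      rw [← pow_add]; congr 1; omega
    rw [this, ← mul_assoc, ← mul_pow, pow_add]
    norm_num
  rw [h1] at hle hmin ⊢
  have h2 : a - f + j' ≤ j := chain_pow_le_iff.1 hle
  have h3 : ¬ (a - f + j' ≤ j - 1) := by
    intro h
    have := hmin (j - 1) hgood (chain_pow_le_iff.2 h)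
    omega
  congr 1
  omega

end Claimed.Agent.R322.Freq
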