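import Claimed.Agent.R322.Freq.Start
import Claimed.Agent.R322.Fit.Main
import Claimed.Agent.R322.Pack039
import Claimed.Agent.R322.Pack043

/-!
# CO Proposition 4.5 (uniform comparison at the targets): output structure; `blow` from `cover` and `center`

Owner: helper109 (CO4 sub-captain).

`TargetData π D` = what CO Section 5 uses of CO Section 4: after a subsequence, every target scale `L (φ i)` is covered by the
fitting interval of a start `S i` (scale `R i`, rotation `O i`), `r i = L (φ i) / R i`, with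
* `100 b ≤ r i ≤ r_* / 1000`;
* height doubling `H(r') ≤ C₀ H(r i)` for `r i ≤ r' ≤ 1000 r i`;
* a radius `r' ∈ [400 r i, 600 r i]` at which `n_*` and `q_*` are bounded by `C₀`;
* relative support height `δ(1000 r i) → 0`.
Everything else (curvature, separation, moments, `C^J` bounds) is in the fields of `StartData`; `weights`, `wcomp` apply at all
radii `≤ 4 r_*`.
-/

set_option autoImplicit false

open scoped ENNReal ContDiff
open MeasureTheory Filter Topology

namespace Claimed.Agent.R322.Freq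

open Claimed.Agent.R322.Tube

variable {m n : ℕ}

/-- Output of CO Proposition 4.5. -/
structure TargetData {s : ℝ} (π : Par) (D : Flat.FlatData m n s) where
  /-- subsequence of the targets -/
  φ : ℕ → ℕ
  φ_mono : StrictMono φ
  /-- start scales -/
  R : ℕ → ℝ
  R_pos : ∀ i, 0 < R i
  /-- rotations to the start coordinates -/
  O : ℕ → (E (m + n) ≃ₗᵢ[ℝ] E (m + n))
  S : ℕ → Start m n D.Q π
  S_W : ∀ i, (S i).N.W = D.W.simil 0 (R i) (R_pos i) (O i)
  /-- target radius in start units -/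
  r : ℕ → ℝ
  r_eq : ∀ i, r i * R i = D.L (φ i)
  r_lo : ∀ i, 100 * (S i).b ≤ r i
  r_hi : ∀ i, 1000 * r i ≤ π.rs
  C₀ : ℝ
  H_pos : ∀ i r', r i ≤ r' → r' ≤ 1000 * r i → 0 < qH (S i).N r'
  /-- height doubling -/
  dbl : ∀ i r', r i ≤ r' → r' ≤ 1000 * r i → qH (S i).N r' ≤ C₀ * qH (S i).N (r i)
  /-- a radius with bounded `n_*`, `q_*` -/
  rad : ∀ i, ∃ r', 400 * r i ≤ r' ∧ r' ≤ 600 * r i ∧
    qE (S i).N r' ≤ C₀ * qH (S i).N r' ∧ qR (S i).N r' ≤ C₀ * qH (S i).N r'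
  /-- the relative support height tends to zero -/
  small : Tendsto (fun i => qd (S i).N (1000 * r i)) atTop (𝓝 0)

/-- **CO Proposition 4.5.**  Proved in `Freq/Cover.lean` (`cover_main`); restated here for the top chain. -/
def CoverStmt (m n Q : ℕ) : Prop :=
  ∃ J₁ : ℕ, ∀ B : FitBase, J₁ ≤ B.J → B.Adm m →
    Ev B (fun π => (∀ W : SIV m n, IsGood W Q π.eg → ∃ S : StartData m n Q π.fit, S.N.W = W) →
      ∀ (s : ℝ) (D : Flat.FlatData m n s), D.Q = Q → Nonempty (TargetData π D))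

/-- **CO Proposition 5.1** (package BP-CO5-blow; proved in `Blow/Main.lean`).  The derivative order `J ≥ J₀` and the cylinder height
`hc ≤ h₁` can be prescribed (`J₀`, `h₁` depend only on `m, n, Q`); one more derivative of the glued centre is used (interpolation). -/
def CenterStmt (m n Q : ℕ) : Prop :=
  ∃ (J₀ J₁ : ℕ) (h₁ : ℝ), 0 < h₁ ∧ ∀ B : FitBase, J₁ ≤ B.J → B.Adm m →
    Ev B (fun π => ∀ (s : ℝ) (D : Flat.FlatData m n s), ((m : ℝ) - 1) < s → D.Q = Q → TargetData π D →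
      ∀ (J : ℕ) (hc : ℝ), J₀ ≤ J → J + 1 ≤ B.J → 0 < hc → hc ≤ h₁ →
        Nonempty (Blow.CenteredData m n s D.Q J hc))

/-- `Mid.blow` from the fitting input, CO Proposition 4.5 and CO Proposition 5.1. -/
theorem blow_of {m n : ℕ} (hm : 1 ≤ m) (hn : 1 ≤ n) (s : ℝ) (hs : ((m : ℝ) - 1) < s)
    (D : Flat.FlatData m n s) (hcov : CoverStmt m n D.Q) (hcen : CenterStmt m n D.Q) :
    ∃ (J₀ : ℕ) (h₁ : ℝ), 0 < h₁ ∧ ∀ (J : ℕ) (hc : ℝ), J₀ ≤ J → 0 < hc → hc ≤ h₁ →
      Nonempty (Blow.CenteredData m n s D.Q J hc) := by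
  obtain ⟨J₁, h₁⟩ := hcov
  obtain ⟨J₀, J₂, hh, hhpos, h₂⟩ := hcen
  refine ⟨J₀, hh, hhpos, fun J hc hJ0 hc0 hc1 => ?_⟩
  obtain ⟨B, hBJ, hB, h₀⟩ := Fit.exists_startData m n D.Q hm hn D.Q_pos (max (J + 1) (max J₁ J₂))
  have hJ : J + 1 ≤ B.J := (le_max_left _ _).trans hBJ
  have hJ₁ : J₁ ≤ B.J := ((le_max_left _ _).trans (le_max_right _ _)).trans hBJ
  have hJ₂ : J₂ ≤ B.J := ((le_max_right _ _).trans (le_max_right _ _)).trans hBJ
  obtain ⟨π, -, h0, h1, h2⟩ := (h₀.and ((h₁ B hJ₁ hB).and (h₂ B hJ₂ hB))).exists_par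
  obtain ⟨T⟩ := h1 h0 s D rfl
  exact h2 s D hs rfl T J hc hJ0 hJ hc0 hc1

end Claimed.Agent.R322.Freq
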